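import Mathlib

open Finset Complex
open scoped BigOperators ComplexConjugate Real

namespace Vale.Agent.P110

/-- `ee x = exp (2 π i x)` -/
noncomputable def ee (x : ℝ) : ℂ := Complex.exp (2 * π * x * I)

lemma ee_eq (x : ℝ) : ee x = Complex.exp (((2 * π * x : ℝ) : ℂ) * I) := by
  unfold ee; push_cast; rfl

@[simp] lemma ee_zero : ee 0 = 1 := by simp [ee]

lemma ee_add (x y : ℝ) : ee (x + y) = ee x * ee y := by
  unfold ee; rw [← Complex.exp_add]; congr 1; push_cast; ring

@[simp] lemma norm_ee (x : ℝ) : ‖ee x‖ = 1 := by rw [ee_eq, Complex.norm_exp_ofReal_mul_I]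

lemma ee_ne_zero (x : ℝ) : ee x ≠ 0 := Complex.exp_ne_zero _

lemma conj_ee (x : ℝ) : conj (ee x) = ee (-x) := by
  rw [ee_eq, ee_eq, ← Complex.exp_conj]; congr 1
  rw [map_mul, Complex.conj_ofReal, Complex.conj_I]; push_cast; ring

lemma ee_mul_neg (x : ℝ) : ee x * ee (-x) = 1 := by rw [← ee_add]; simp

lemma ee_intCast (n : ℤ) : ee n = 1 := by
  unfold ee
  have := Complex.exp_int_mul_two_pi_mul_I n
  rw [← this]; congr 1; push_cast; ring

lemma ee_natCast (n : ℕ) : ee n = 1 := by exact_mod_cast ee_intCast n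

lemma ee_add_int (x : ℝ) (n : ℤ) : ee (x + n) = ee x := by rw [ee_add, ee_intCast, mul_one]

lemma ee_nat_mul (n : ℕ) (x : ℝ) : ee (n * x) = ee x ^ n := by
  unfold ee; rw [← Complex.exp_nat_mul]; congr 1; push_cast; ring

lemma ee_sum {ι : Type*} (s : Finset ι) (f : ι → ℝ) : ee (∑ i ∈ s, f i) = ∏ i ∈ s, ee (f i) := by
  classical
  induction s using Finset.induction_on with
  | empty => simp
  | insert a s ha ih => rw [sum_insert ha, prod_insert ha, ee_add, ih]

lemma norm_ee_sub_one (x : ℝ) : ‖ee x - 1‖ = 2 * |Real.sin (π * x)| := by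
  rw [ee_eq, mul_comm _ I, Complex.norm_exp_I_mul_ofReal_sub_one, Real.norm_eq_abs, abs_mul]
  congr 2
  · norm_num
  · congr 1; ring

lemma norm_ee_sub_one_le (x : ℝ) : ‖ee x - 1‖ ≤ 2 * π * |x| := by
  rw [norm_ee_sub_one]
  have := Real.abs_sin_le_abs (x := π * x)
  rw [abs_mul, abs_of_pos Real.pi_pos] at this
  linarith

lemma norm_ee_sub_ee (x y : ℝ) : ‖ee x - ee y‖ = ‖ee (x - y) - 1‖ := by
  have : ee x - ee y = ee y * (ee (x - y) - 1) := by
    rw [mul_sub, ← ee_add]; simp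
  rw [this, norm_mul, norm_ee, one_mul]

lemma norm_ee_sub_ee_le (x y : ℝ) : ‖ee x - ee y‖ ≤ 2 * π * |x - y| := by
  rw [norm_ee_sub_ee]; exact norm_ee_sub_one_le _

lemma le_norm_ee_sub_one {x : ℝ} (hx : |x| ≤ 1 / 2) : 4 * |x| ≤ ‖ee x - 1‖ := by
  rw [norm_ee_sub_one]
  have h1 : |π * x| ≤ π / 2 := by
    rw [abs_mul, abs_of_pos Real.pi_pos]; nlinarith [Real.pi_pos]
  have h2 := Real.mul_abs_le_abs_sin h1
  rw [abs_mul, abs_of_pos Real.pi_pos] at h2
  have : 2 / π * (π * |x|) = 2 * |x| := by field_simp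
  linarith

lemma continuous_ee : Continuous ee := by unfold ee; fun_prop

lemma hasDerivAt_ee (x : ℝ) : HasDerivAt ee (2 * π * I * ee x) x := by
  have h : HasDerivAt (fun y : ℝ => (2 * π * y * I : ℂ)) (2 * π * I) x := by
    have := ((Complex.ofRealCLM.hasDerivAt (x := x)).const_mul (2 * π : ℂ)).mul_const I
    simpa using this
  have := h.cexp
  unfold ee
  convert this using 1
  ring

/-- orthogonality of additive characters of `ℤ/M` -/
lemma sum_ee_div (M : ℕ) (hM : 0 < M) (k : ℤ) :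
    ∑ j ∈ range M, ee (k * j / M) = if (M : ℤ) ∣ k then (M : ℂ) else 0 := by
  have hM' : (M : ℝ) ≠ 0 := by positivity
  have h1 : ∀ j : ℕ, ee (k * j / M) = ee (k / M) ^ j := fun j => by
    rw [← ee_nat_mul]; congr 1; ring
  simp only [h1]
  split_ifs with h
  · obtain ⟨c, rfl⟩ := h
    have : (((M * c : ℤ) : ℝ) / M) = (c : ℝ) := by push_cast; field_simp
    rw [this, ee_intCast]; simp
  · have h2 : ee (k / M) ≠ 1 := by
      intro h3
      rw [ee_eq, Complex.exp_eq_one_iff] at h3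
      obtain ⟨n, hn⟩ := h3
      apply h
      refine ⟨n, ?_⟩
      have h4 : ((2 * π * (k / M) : ℝ) : ℂ) = ((n * (2 * π) : ℝ) : ℂ) := by
        have := mul_right_cancel₀ Complex.I_ne_zero (show ((2 * π * (k / M) : ℝ) : ℂ) * I =
          ((n * (2 * π) : ℝ) : ℂ) * I by rw [hn]; push_cast; ring)
        exact this
      have h5 : (2 * π * (k / M) : ℝ) = n * (2 * π) := by exact_mod_cast h4
      have h6 : (k : ℝ) = M * n := by
        field_simp at h5; linarith
      exact_mod_cast h6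
    rw [geom_sum_eq h2, ← ee_nat_mul]
    have : (M * (k / M) : ℝ) = k := by field_simp
    rw [this, ee_intCast]; simp

end Vale.Agent.P110
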