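import Vale.Agent.P110.Core

open Finset Complex MeasureTheory Filter Topology Set
open scoped BigOperators ComplexConjugate Real

namespace Vale.Agent.P110

lemma exists_polar (z : ℂ) : ∃ x : ℝ, z = ‖z‖ * ee x := by
  refine ⟨arg z / (2 * π), ?_⟩
  rw [ee_eq, show 2 * π * (arg z / (2 * π)) = arg z by field_simp]
  exact (Complex.norm_mul_exp_arg_mul_I z).symm

lemma exists_phase (z w : ℂ) (hw : ‖w‖ = 1) : ∃ φ : ℝ, z * ee φ = ‖z‖ * w := by
  obtain ⟨x, hx⟩ := exists_polar z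
  obtain ⟨y, hy⟩ := exists_polar w
  refine ⟨y - x, ?_⟩
  rw [hw] at hy
  calc z * ee (y - x) = ‖z‖ * (ee x * ee (y - x)) := by rw [← mul_assoc, ← hx]
    _ = _ := by rw [← ee_add, hy]; simp

lemma sum_ite_le {α : Type*} [Fintype α] (p : α → Prop) [DecidablePred p] {m : ℕ}
    (hm : (univ.filter p).card ≤ m) {A B : ℝ} (hA : 0 ≤ A) (hB : 0 ≤ B) :
    ∑ x, (if p x then A else B) ≤ m * A + Fintype.card α * B := by
  rw [sum_ite]
  simp only [sum_const, nsmul_eq_mul]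
  have h1 : ((univ.filter p).card : ℝ) ≤ m := by exact_mod_cast hm
  have h2 : ((univ.filter fun x => ¬ p x).card : ℝ) ≤ Fintype.card α := by
    exact_mod_cast card_le_univ _
  gcongr

lemma lam_div {lam A : ℝ} (h0 : 0 < lam) (h1 : lam ≤ 1) (hA : 0 < A) :
    lam / √(lam * A) ≤ 1 / √A := by
  rw [Real.sqrt_mul h0.le, div_le_div_iff₀ (by positivity) (by positivity), one_mul]
  have : lam ≤ √lam := Real.le_sqrt_of_sq_le (by nlinarith)
  gcongr

namespace Prof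
variable {T T' : ℝ → ℝ} {D η u₀ Λ : ℝ} (h : Prof T T' D η u₀ Λ)
include h

lemma block_inactive {ι : Type} [Fintype ι] (lam : ι → ℝ) (h0 : ∀ i, 0 < lam i)
    (h1 : ∀ i, lam i ≤ 1) (ψ : ι → ℝ) {t υ σ N τ : ℝ} (hD : 0 < D) (hυ : 0 < υ) (hN : 0 < N)
    (hσ : 0 ≤ σ) (hσ' : σ ≤ u₀ / 4)
    (hτ : τ ≤ t + υ * T (u₀ / 2) ∨ t + υ * T (1 - u₀ / 2) ≤ τ) :
    |∑ i, lam i * (ee (ψ i) * JJ T t υ σ (lam i * N) τ).re| ≤
      Fintype.card ι * (4 / √(N * υ * (D / 2)) + 1 / (N * υ * (u₀ / 2))) := by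
  refine (abs_sum_le_sum_abs _ _).trans ?_
  rw [← nsmul_eq_mul, ← card_univ]
  refine sum_le_card_nsmul _ _ _ fun i _ => ?_
  have hl := h0 i
  have hu := h.u0
  rw [abs_mul, abs_of_pos hl]
  have e1 := (Complex.abs_re_le_norm (ee (ψ i) * JJ T t υ σ (lam i * N) τ))
  rw [norm_mul, norm_ee, one_mul] at e1
  have e2 := e1.trans (h.inactive hD hυ (mul_pos hl hN) hσ hσ' hτ)
  refine (mul_le_mul_of_nonneg_left e2 hl.le).trans ?_
  rw [mul_add]
  refine add_le_add ?_ (le_of_eq (by field_simp))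
  have := lam_div hl (h1 i) (A := N * υ * (D / 2)) (by positivity)
  calc lam i * (4 / √(lam i * N * υ * (D / 2))) = 4 * (lam i / √(lam i * (N * υ * (D / 2)))) := by
        rw [show lam i * N * υ * (D / 2) = lam i * (N * υ * (D / 2)) by ring]; ring
    _ ≤ 4 * (1 / √(N * υ * (D / 2))) := by gcongr
    _ = _ := by ring

lemma block_active {ι κ : Type} [Fintype ι] [Fintype κ] (l : ι → ℕ) (hl : ∀ i, 0 < l i)
    (v : ι → κ → ℤ) (a0 : κ) (ha0 : ∀ i, v i a0 = l i) (e : ι → ℂ) {B : ℝ}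
    (hB : ∀ y : κ → ℝ, |2 * (∑ i, (√(l i) : ℂ) * e i * ee (∑ a, v i a * y a)).re| ≤ B)
    {P : ℕ} (hlP : ∀ i, l i ≤ P) (g : κ → ℤ) (c' : ι → ℝ)
    (hc' : ∀ i, ∃ n : ℤ, c' i = (∑ a, v i a * g a : ℤ) / P + n) {X : ℝ} (φ : ι → ℝ)
    (hφ : ∀ i, fres X * ee (φ i) = ‖fres X‖ * e i) {t υ σ N ε : ℝ} (k : ℤ) (hυ : 0 < υ)
    (hN : 0 < N) (hσ : 0 ≤ σ) (hσ' : σ ≤ u₀ / 4) (hX : 0 < X) (hε : 0 ≤ ε) (hε' : ε ≤ 1 / 2)
    (hP : 0 < P) (hτ : t + υ * T (u₀ / 2) ≤ k / N ∧ k / N ≤ t + υ * T (1 - u₀ / 2))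
    (h1 : X / √(N * υ / P) ≤ u₀ / 4) (h2 : Λ * (X / √(N * υ / P)) ≤ ε) :
    |2 * ∑ i, (l i / P : ℝ) * (ee (φ i - k * c' i) * JJ T t υ σ (l i / P * N) (k / N)).re| ≤
      (1 + 2 / X) * B / √(P * υ * N) +
        2 * (Fintype.card ι * ((4 / X + 4 * π * ε * X ^ 3) / √(N * υ))) := by
  classical
  have hu0 := h.u0
  have hu1 := h.u1
  have hP' : (0:ℝ) < P := by exact_mod_cast hP
  have hB0 : 0 ≤ B := (abs_nonneg _).trans (hB 0)
  obtain ⟨u, hu, hτu⟩ : ∃ u ∈ Icc (u₀ / 2) (1 - u₀ / 2), t + υ * T u = k / N :=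
    intermediate_value_Icc (f := fun u => t + υ * T u) (by linarith)
      (by have := h.contT; fun_prop) hτ
  have hT := h.lo u ⟨by linarith [hu.1], by linarith [hu.2]⟩
  set Ψ := ph T t υ u - k / N * u
  set y : κ → ℝ := fun a => -(k * g a / P) + if a = a0 then N * Ψ / P else 0 with hy
  set m : ι → ℝ := fun i => (l i / P : ℝ) * (ee (φ i - k * c' i) *
    (fres X * ee (l i / P * N * Ψ) / √(l i / P * N * υ * T' u))).re with hm
  have e1 : 2 * ∑ i, m i = ‖fres X‖ / √(P * υ * N * T' u) *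
      (2 * (∑ i, (√(l i) : ℂ) * e i * ee (∑ a, v i a * y a)).re) := by
    rw [mul_left_comm, Complex.re_sum]
    congr 1
    rw [mul_sum]
    refine sum_congr rfl fun i _ => ?_
    have hli : (0:ℝ) < l i := by exact_mod_cast hl i
    obtain ⟨n, hn⟩ := hc' i
    have e2 : ee (∑ a, v i a * y a) = ee (-(k * c' i)) * ee (l i / P * N * Ψ) := by
      rw [← ee_add, ← ee_add_int _ (-(k * n))]
      congr 1
      simp only [hy, mul_add, sum_add_distrib, mul_ite, mul_zero, sum_ite_eq', Finset.mem_univ, if_true,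
        ha0, hn]
      push_cast
      rw [sum_div, mul_sum]
      have : ∑ a, (v i a : ℝ) * -(k * g a / P) = -∑ a, (k : ℝ) * (v i a * g a / P) := by
        rw [← sum_neg_distrib]; exact sum_congr rfl fun a _ => by ring
      rw [this]; ring
    have e3 : (l i / P : ℝ) / √(l i / P * N * υ * T' u) = √(l i) / √(P * υ * N * T' u) := by
      rw [div_eq_div_iff (by positivity) (by positivity), ← Real.sqrt_mul hli.le,
        ← Real.sqrt_sq (show (0:ℝ) ≤ l i / P by positivity), ← Real.sqrt_mul (sq_nonneg _)]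
      congr 1
      rw [Real.sqrt_sq (by positivity)]
      field_simp
    simp only [hm]
    rw [← Complex.re_ofReal_mul, ← Complex.re_ofReal_mul]
    congr 1
    rw [e2, sub_eq_add_neg, ee_add]
    have e4 : ((l i / P : ℝ) : ℂ) / (√(l i / P * N * υ * T' u) : ℝ) =
        (√(l i) : ℝ) / (√(P * υ * N * T' u) : ℝ) := by exact_mod_cast congrArg Complex.ofReal e3
    calc _ = ((l i / P : ℝ) : ℂ) / (√(l i / P * N * υ * T' u) : ℝ) * (fres X * ee (φ i)) *
          (ee (-(k * c' i)) * ee (l i / P * N * Ψ)) := by ring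
      _ = _ := by rw [e4, hφ]; push_cast; ring
  have e5 : |2 * ∑ i, m i| ≤ (1 + 2 / X) * B / √(P * υ * N) := by
    rw [e1, abs_mul, abs_of_nonneg (by positivity)]
    have := norm_fres_le hX
    have h3 : √(P * υ * N) ≤ √(P * υ * N * T' u) :=
      Real.sqrt_le_sqrt (le_mul_of_one_le_right (by positivity) hT)
    calc _ ≤ (1 + 2 / X) / √(P * υ * N) * B := by gcongr; exact hB y
      _ = _ := by ring
  refine le_trans ?_ (add_le_add e5 (?_ : |2 * ∑ i, ((l i / P : ℝ) * (ee (φ i - k * c' i) *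
    JJ T t υ σ (l i / P * N) (k / N)).re - m i)| ≤ _))
  · refine le_trans (le_of_eq ?_) (abs_add_le _ _)
    rw [sum_sub_distrib]; congr 1; ring
  rw [abs_mul, abs_two]
  gcongr
  refine (abs_sum_le_sum_abs _ _).trans ?_
  rw [← nsmul_eq_mul, ← card_univ]
  refine sum_le_card_nsmul _ _ _ fun i _ => ?_
  have hli : (1:ℝ) ≤ l i := by exact_mod_cast hl i
  have hlam : (0:ℝ) < l i / P := by positivity
  have hlam1 : (l i / P : ℝ) ≤ 1 := (div_le_one hP').2 (by exact_mod_cast hlP i)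
  have h3 : X / √(l i / P * N * υ) ≤ X / √(N * υ / P) := by
    gcongr
    rw [show (l i / P : ℝ) * N * υ = l i * (N * υ / P) by ring]
    exact le_mul_of_one_le_left (by positivity) hli
  have := h.active (t := t) hυ (mul_pos hlam hN) hσ hσ' hX hε hε' hu hτu (h3.trans h1)
    ((mul_le_mul_of_nonneg_left h3 h.Λ0).trans h2)
  simp only [hm]
  rw [← mul_sub, ← Complex.sub_re, ← mul_sub, abs_mul, abs_of_pos hlam]
  have e6 := (Complex.abs_re_le_norm (ee (φ i - k * c' i) * (JJ T t υ σ (l i / P * N) (k / N) -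
    fres X * ee (l i / P * N * Ψ) / √(l i / P * N * υ * T' u))))
  rw [norm_mul, norm_ee, one_mul] at e6
  refine (mul_le_mul_of_nonneg_left (e6.trans this) hlam.le).trans ?_
  have := lam_div hlam hlam1 (A := N * υ) (by positivity)
  calc _ = (4 / X + 4 * π * ε * X ^ 3) * ((l i / P : ℝ) / √(l i / P * (N * υ))) := by
        rw [← mul_assoc]; ring
    _ ≤ (4 / X + 4 * π * ε * X ^ 3) * (1 / √(N * υ)) := by gcongr
    _ = _ := by ring

end Prof

end Vale.Agent.P110
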