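import Vale.Agent.P110.Final

open Finset Complex Filter Topology
open scoped BigOperators ComplexConjugate Real

namespace Vale.Agent.P110

lemma sum_shift (M : ℕ) (g : ℤ → ℂ) (hg : ∀ n, g (n + M) = g n) (s : ℤ) :
    ∑ n ∈ range M, g (n + s) = ∑ n ∈ range M, g n := by
  have key : ∀ s : ℤ, ∑ n ∈ range M, g (n + (s + 1)) = ∑ n ∈ range M, g (n + s) := by
    intro s
    have h1 := sum_range_succ (fun n : ℕ => g (n + s)) M
    have h2 := sum_range_succ' (fun n : ℕ => g (n + s)) M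
    rw [h1, add_comm (M : ℤ) s, hg] at h2
    simp only [Nat.cast_zero, zero_add, add_left_inj] at h2
    rw [h2]; exact sum_congr rfl fun n _ => by congr 1; push_cast; ring
  induction s using Int.induction_on with
  | zero => simp
  | succ i ih => rw [key, ih]
  | pred i ih => rw [← ih, ← key (-(i:ℤ) - 1)]; simp

/-- the discrete chirp -/
noncomputable def gam (M : ℕ) (n : ℤ) : ℂ := ee (-(n : ℝ) ^ 2 / (2 * M))

lemma gam_per {M : ℕ} (hM : 0 < M) (he : Even M) (n : ℤ) : gam M (n + M) = gam M n := by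
  obtain ⟨H, rfl⟩ := he
  have : (0:ℝ) < H := by exact_mod_cast (by omega : 0 < H)
  unfold gam
  rw [← ee_add_int (-(n : ℝ) ^ 2 / _) (-(n + H))]
  congr 1; push_cast; field_simp; ring

/-- Gauss sum -/
noncomputable def GS (M : ℕ) : ℂ := ∑ n ∈ range M, gam M n

lemma gauss_shift {M : ℕ} (hM : 0 < M) (he : Even M) (t s : ℤ) :
    ∑ n ∈ range M, ee (t * n / M) * gam M (n - s) = ee (t * s / M) * ee (t ^ 2 / (2 * M)) * GS M := by
  have hM' : (0:ℝ) < M := by exact_mod_cast hM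
  rw [GS, ← sum_shift M (gam M) (gam_per hM he) (-s - t), mul_sum]
  refine sum_congr rfl fun n _ => ?_
  unfold gam
  rw [← ee_add, ← ee_add, ← ee_add]
  congr 1; push_cast; field_simp; ring

lemma inj_range {M : ℕ} : ∀ i ∈ range M, ∀ j ∈ range M, (M : ℤ) ∣ (i : ℤ) - j → i = j := by
  intro i hi j hj hij
  have := Int.eq_zero_of_abs_lt_dvd hij (by
    rw [Finset.mem_range] at hi hj; rw [abs_lt]; constructor <;> omega)
  omega

lemma norm_GS {M : ℕ} (hM : 0 < M) (he : Even M) : ‖GS M‖ = √M := by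
  have hM' : (0:ℝ) < M := by exact_mod_cast hM
  have h := parseval M hM (range M) (fun n => n) inj_range (fun n => gam M n)
  have e1 : ∀ j : ℕ, ‖∑ i ∈ range M, gam M i * ee (((i : ℤ) : ℝ) * j / M)‖ = ‖GS M‖ := by
    intro j
    have := congrArg norm (gauss_shift hM he j 0)
    simp only [norm_mul, norm_ee, one_mul, sub_zero] at this
    rw [← this]; congr 1
    exact sum_congr rfl fun i _ => by rw [mul_comm]; congr 2; push_cast; ring
  simp only [e1] at h
  simp only [gam, norm_ee, sum_const, card_range, nsmul_eq_mul, one_pow, mul_one] at h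
  have h2 : ‖GS M‖ ^ 2 = M := mul_left_cancel₀ hM'.ne' h
  rw [← h2, Real.sqrt_sq (norm_nonneg _)]

/-- error constant -/
noncomputable def cc (M : ℕ) : ℝ := ∑' t : ℤ, ‖ee (t ^ 2 / (2 * M)) - 1‖ ^ 2 / (t : ℝ) ^ 2

lemma cc_bd (M : ℕ) (t : ℤ) :
    ‖‖ee (t ^ 2 / (2 * M)) - 1‖ ^ 2 / (t : ℝ) ^ 2‖ ≤ 4 * (1 / (t : ℝ) ^ 2) := by
  rw [Real.norm_eq_abs, abs_of_nonneg (by positivity), mul_one_div]
  gcongr
  have := norm_sub_le (ee (t ^ 2 / (2 * M))) 1
  rw [norm_ee, norm_one] at this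
  nlinarith [norm_nonneg (ee (t ^ 2 / (2 * M)) - 1)]

lemma cc_sum : Summable fun t : ℤ => 4 * (1 / (t : ℝ) ^ 2) :=
  (Real.summable_one_div_int_pow.2 one_lt_two).mul_left 4

lemma cc_tendsto : Tendsto cc atTop (𝓝 0) := by
  have := tendsto_tsum_of_dominated_convergence (𝓕 := atTop) (g := fun _ : ℤ => (0:ℝ))
    (f := fun (M : ℕ) (t : ℤ) => ‖ee (t ^ 2 / (2 * M)) - 1‖ ^ 2 / (t : ℝ) ^ 2) cc_sum (fun t => ?_)
    (Eventually.of_forall cc_bd)
  · rw [tsum_zero] at this; exact this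
  · have h1 : Tendsto (fun M : ℕ => (t : ℝ) ^ 2 / (2 * M)) atTop (𝓝 0) :=
      tendsto_const_nhds.div_atTop (tendsto_natCast_atTop_atTop.const_mul_atTop two_pos)
    have h2 := ((((continuous_ee.tendsto 0).comp h1).sub_const 1).norm.pow 2).div_const ((t:ℝ) ^ 2)
    simpa using h2

lemma dft_chirp {M : ℕ} (hM : 0 < M) (he : Even M) (F : ℕ → ℂ) (hF : F M = F 0) {K : ℝ} (hK : 0 ≤ K)
    (hd : ∀ n < M, ‖F (n + 1) - F n‖ ≤ K / M) {n₀ : ℕ} (hn : n₀ < M) :
    ‖∑ n ∈ range M, F n * gam M (n - n₀) - GS M * F n₀‖ ≤ √M * (K * √(cc M)) := by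
  have hM' : (0:ℝ) < M := by exact_mod_cast hM
  have hMc : (M : ℂ) ≠ 0 := by exact_mod_cast hM.ne'
  obtain ⟨H, hH⟩ := id he
  set Fh : ℤ → ℂ := fun t => (∑ n ∈ range M, F n * ee (-(t * n / M))) / M with hFh
  have hinv : ∀ n < M, F n = ∑ t ∈ range M, Fh (t - H) * ee ((t - H : ℤ) * n / M) := by
    intro n hn
    simp only [hFh, div_mul_eq_mul_div, ← sum_div, sum_mul]
    rw [eq_div_iff hMc, sum_comm]
    have : ∀ n' ∈ range M, ∑ t ∈ range M, F n' * ee (-(((t : ℤ) - H : ℤ) * n' / M)) *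
        ee (((t : ℤ) - H : ℤ) * n / M) = if n = n' then F n * M else 0 := by
      intro n' hn'
      have e1 : ∀ t : ℕ, F n' * ee (-(((t : ℤ) - H : ℤ) * n' / M)) * ee (((t : ℤ) - H : ℤ) * n / M) =
          F n' * ee (H * (n' - n) / M) * ee (((n : ℤ) - n' : ℤ) * t / M) := fun t => by
        rw [mul_assoc, mul_assoc, ← ee_add, ← ee_add]; congr 2; push_cast; ring
      simp only [e1]
      rw [← mul_sum, sum_ee_div M hM]
      by_cases h : n = n'
      · subst h; simp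
      · rw [if_neg h, if_neg fun hh => h (inj_range n (mem_range.2 hn) n' hn' hh), mul_zero]
    rw [sum_congr rfl this, sum_ite_eq, if_pos (mem_range.2 hn)]
  have e1 : ∑ n ∈ range M, F n * gam M (n - n₀) - GS M * F n₀ = GS M * ∑ t ∈ range M,
      Fh (t - H) * ee ((t - H : ℤ) * n₀ / M) * (ee ((t - H : ℤ) ^ 2 / (2 * M)) - 1) := by
    rw [sum_congr rfl fun n hn => by rw [hinv n (mem_range.1 hn)], hinv n₀ hn]
    simp only [sum_mul, mul_sum]
    rw [sum_comm, ← sum_sub_distrib]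
    refine sum_congr rfl fun t _ => ?_
    have := gauss_shift hM he (t - H) n₀
    simp only [mul_assoc (Fh _), ← mul_sum]
    rw [this]; push_cast; ring
  have hΔ : ∀ t : ℤ, Fh t * (ee (t / M) - 1) =
      (∑ n ∈ range M, (F (n + 1) - F n) * ee (-(t * n / M))) / M := by
    intro t
    simp only [hFh, sub_mul, sum_sub_distrib]
    rw [div_mul_eq_mul_div, mul_sub_one]
    congr 2
    have h1 := sum_range_succ (fun n : ℕ => F n * ee (-(t * n / M))) M
    have h2 := sum_range_succ' (fun n : ℕ => F n * ee (-(t * n / M))) M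
    rw [h1, hF, show -((t : ℝ) * M / M) = ((-t : ℤ) : ℝ) by push_cast; field_simp, ee_intCast] at h2
    simp only [Nat.cast_zero, mul_zero, zero_div, neg_zero, ee_zero, add_left_inj] at h2
    rw [h2, sum_mul]
    refine sum_congr rfl fun n _ => ?_
    rw [mul_assoc, ← ee_add]; congr 2; push_cast; ring
  have hP : ∑ t ∈ range M, ‖Fh (t - H) * (ee ((t - H : ℤ) / M) - 1)‖ ^ 2 ≤ (K / M) ^ 2 := by
    have := parseval M hM (range M) (fun n => -n) (fun i hi j hj h => (inj_range j hj i hi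
      (by rwa [neg_sub_neg] at h)).symm) (fun n => (F (n + 1) - F n) * ee (H * n / M))
    have e2 : ∀ t : ℕ, ‖Fh (t - H) * (ee ((t - H : ℤ) / M) - 1)‖ ^ 2 = ‖∑ i ∈ range M,
        (F (i + 1) - F i) * ee (H * i / M) * ee ((-(i : ℤ) : ℤ) * t / M)‖ ^ 2 / M ^ 2 := by
      intro t
      rw [hΔ, norm_div, div_pow, Complex.norm_natCast]
      congr 3
      refine sum_congr rfl fun n _ => ?_
      rw [mul_assoc, ← ee_add]; congr 2; push_cast; ring
    simp only [e2]
    rw [← sum_div, this, div_le_iff₀ (by positivity)]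
    simp only [norm_mul, norm_ee, mul_one]
    calc _ ≤ (M : ℝ) * ∑ n ∈ range M, (K / M) ^ 2 := by
          gcongr with n hn; exact hd n (mem_range.1 hn)
      _ = _ := by simp; ring
  rw [e1, norm_mul, norm_GS hM he]
  gcongr
  refine (norm_sum_le _ _).trans ?_
  set A : ℕ → ℝ := fun t => ‖Fh (t - H) * (ee ((t - H : ℤ) / M) - 1)‖
  set B : ℤ → ℝ := fun t => ‖ee (t ^ 2 / (2 * M)) - 1‖ / |(t : ℝ)|
  have e3 : ∀ t ∈ range M, ‖Fh (t - H) * ee ((t - H : ℤ) * n₀ / M) *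
      (ee ((t - H : ℤ) ^ 2 / (2 * M)) - 1)‖ ≤ M * (A t * B (t - H)) := by
    intro t ht
    simp only [A, B, norm_mul, norm_ee, mul_one]
    generalize hu : ((t : ℤ) - H) = u
    have hu1 : |(u : ℝ) / M| ≤ 1 / 2 := by
      rw [abs_div, abs_of_pos hM', div_le_div_iff₀ hM' two_pos, one_mul]
      have : 2 * |u| ≤ M := by rw [mem_range] at ht; rcases abs_cases u with h | h <;> omega
      have : 2 * |(u : ℝ)| ≤ M := by exact_mod_cast this
      linarith
    rcases eq_or_ne u 0 with rfl | h0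
    · simp
    · have h1 := le_norm_ee_sub_one hu1
      have h2 : (0:ℝ) < |(u : ℝ)| := abs_pos.2 (by exact_mod_cast h0)
      rw [abs_div, abs_of_pos hM'] at h1
      calc _ = M * (‖Fh u‖ * (|(u : ℝ)| / M) * (‖ee (u ^ 2 / (2 * M)) - 1‖ / |(u : ℝ)|)) := by
            field_simp
        _ ≤ _ := by gcongr; linarith [div_pos h2 hM']
  refine (sum_le_sum e3).trans ?_
  rw [← mul_sum]
  have e4 : ∑ t ∈ range M, B (t - H) ^ 2 ≤ cc M := by
    have : ∑ t ∈ range M, B (t - H) ^ 2 = ∑ t ∈ (range M).image (fun t : ℕ => (t : ℤ) - H),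
        ‖ee (t ^ 2 / (2 * M)) - 1‖ ^ 2 / (t : ℝ) ^ 2 := by
      rw [sum_image fun a _ b _ h => by simpa using h]
      exact sum_congr rfl fun t _ => by simp only [B, div_pow, sq_abs]
    rw [this]
    exact (Summable.of_norm_bounded cc_sum (cc_bd M)).sum_le_tsum _ fun t _ => by positivity
  calc M * ∑ t ∈ range M, A t * B (t - H) ≤
      M * (√(∑ t ∈ range M, A t ^ 2) * √(∑ t ∈ range M, B (t - H) ^ 2)) := by
        gcongr; exact Real.sum_mul_le_sqrt_mul_sqrt _ _ _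
    _ ≤ M * (√((K / M) ^ 2) * √(cc M)) := by gcongr
    _ = _ := by rw [Real.sqrt_sq (by positivity)]; field_simp

lemma chirp {K ε : ℝ} (hK : 0 ≤ K) (hε : 0 < ε) : ∀ᶠ M : ℕ in atTop, Even M → ∃ ζ : ℂ, ‖ζ‖ = 1 ∧
    ∀ f : ℝ → ℝ, (∀ x y, |f x - f y| ≤ K * |x - y|) → f 0 = 0 → f 1 = 0 → (∀ x, |f x| ≤ 1) →
    ∀ τ ∈ Set.Icc (0:ℝ) 1, ∀ Y ∈ Set.Ico (0:ℝ) 1,
      ‖∑ n ∈ range M, f (n / M) * (ζ * ee (-(n + τ) ^ 2 / (2 * M))) * ee ((n + τ) * Y) -
        (√M : ℝ) * (f Y * ee (M * Y ^ 2 / 2))‖ ≤ ε * √M := by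
  have h1 : Tendsto (fun M : ℕ => (K + 2 * π) * √(cc M) + (π + K) / M) atTop (𝓝 0) := by
    have := ((cc_tendsto.sqrt).const_mul (K + 2 * π)).add
      (tendsto_const_div_atTop_nhds_zero_nat (π + K))
    simpa using this
  filter_upwards [h1.eventually (ge_mem_nhds hε), eventually_gt_atTop 0] with M hM1 hM he
  have hM' : (0:ℝ) < M := by exact_mod_cast hM
  have hs : 0 < √(M:ℝ) := Real.sqrt_pos.2 hM'
  have hG := norm_GS hM he
  refine ⟨conj (GS M) / (√M : ℝ), by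
    rw [norm_div, Complex.norm_conj, hG, Complex.norm_real, Real.norm_eq_abs, abs_of_pos hs,
      div_self hs.ne'], fun f hf h0 h1 hb τ hτ Y hY => ?_⟩
  set ζ : ℂ := conj (GS M) / (√M : ℝ) with hζ
  have hζ1 : ‖ζ‖ = 1 := by
    rw [norm_div, Complex.norm_conj, hG, Complex.norm_real, Real.norm_eq_abs, abs_of_pos hs,
      div_self hs.ne']
  have hζ2 : ζ * GS M = (√M : ℝ) := by
    have : ((√M : ℝ) : ℂ) ≠ 0 := by exact_mod_cast hs.ne'
    rw [hζ, div_mul_eq_mul_div, Complex.conj_mul', hG]; field_simp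
  set n₀ := ⌊M * Y⌋₊ with hn₀
  have hn1 : (n₀ : ℝ) ≤ M * Y := Nat.floor_le (mul_nonneg hM'.le hY.1)
  have hn2 : M * Y < n₀ + 1 := Nat.lt_floor_add_one _
  have hn3 : n₀ < M := by
    have : (n₀ : ℝ) < M := hn1.trans_lt (mul_lt_of_lt_one_right hM' hY.2)
    exact_mod_cast this
  obtain ⟨δ, hδ⟩ : ∃ δ : ℝ, δ = M * Y - n₀ - τ := ⟨_, rfl⟩
  have hδ1 : |δ| ≤ 1 := abs_le.2 ⟨by linarith [hτ.2], by linarith [hτ.1]⟩
  set F : ℕ → ℂ := fun n => f (n / M) * ee ((n - n₀) * δ / M) with hF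
  have key := dft_chirp hM he F (by simp [hF, hM'.ne', h0, h1]) (K := K + 2 * π) (by positivity)
    (fun n _ => by
      have e1 : F (n + 1) - F n = ((f ((n + 1) / M) - f (n / M) : ℝ) : ℂ) * ee ((n + 1 - n₀) * δ / M) +
          f (n / M) * (ee ((n + 1 - n₀) * δ / M) - ee ((n - n₀) * δ / M)) := by
        simp only [hF]; push_cast; ring
      rw [e1]
      refine (norm_add_le _ _).trans ?_
      simp only [norm_mul, norm_ee, mul_one, Complex.norm_real, Real.norm_eq_abs]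
      have e2 := hf ((n + 1) / M) (n / M)
      rw [← sub_div, add_sub_cancel_left, abs_of_pos (show (0:ℝ) < 1 / M by positivity)] at e2
      have e3 := norm_ee_sub_ee_le ((n + 1 - n₀) * δ / M) ((n - n₀) * δ / M)
      rw [show (n + 1 - n₀) * δ / M - (n - n₀) * δ / M = δ / M by ring, abs_div,
        abs_of_pos hM'] at e3
      calc _ ≤ K * (1 / M) + 1 * (2 * π * (1 / M)) := by
            gcongr
            · exact hb _
            · exact e3.trans (by gcongr)
        _ = _ := by ring) hn3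
  have e1 : ∑ n ∈ range M, f (n / M) * (ζ * ee (-(n + τ) ^ 2 / (2 * M))) * ee ((n + τ) * Y) -
      (√M : ℝ) * (f Y * ee (M * Y ^ 2 / 2)) = ee (M * Y ^ 2 / 2) * (ee (-δ ^ 2 / (2 * M)) * ζ *
        (∑ n ∈ range M, F n * gam M (n - n₀) - GS M * F n₀) + (√M : ℝ) *
          ((ee (-δ ^ 2 / (2 * M)) - 1) * f (n₀ / M) + ((f (n₀ / M) - f Y : ℝ) : ℂ))) := by
    have e2 : ∑ n ∈ range M, f (n / M) * (ζ * ee (-(n + τ) ^ 2 / (2 * M))) * ee ((n + τ) * Y) =
        ee (M * Y ^ 2 / 2) * (ee (-δ ^ 2 / (2 * M)) * ζ * ∑ n ∈ range M, F n * gam M (n - n₀)) := by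
      rw [mul_sum, mul_sum]
      refine sum_congr rfl fun n _ => ?_
      have : ee (-(n + τ) ^ 2 / (2 * M)) * ee ((n + τ) * Y) = ee (M * Y ^ 2 / 2) *
          ee (-δ ^ 2 / (2 * M)) * ee ((n - n₀) * δ / M) * gam M (n - n₀) := by
        unfold gam
        rw [← ee_add, ← ee_add, ← ee_add, ← ee_add, hδ]; congr 1; push_cast; field_simp; ring
      simp only [hF]
      linear_combination (f (n / M) * ζ) * this
    rw [e2]
    simp only [hF, sub_self, zero_mul, zero_div, ee_zero, mul_one]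
    push_cast
    linear_combination (ee (M * Y ^ 2 / 2) * ee (-δ ^ 2 / (2 * M)) * f (n₀ / M)) * hζ2
  rw [e1, norm_mul, norm_ee, one_mul]
  refine (norm_add_le _ _).trans ?_
  rw [norm_mul, norm_mul, norm_ee, hζ1, one_mul, one_mul, norm_mul, Complex.norm_real,
    Real.norm_eq_abs, abs_of_pos hs]
  have e3 : ‖(ee (-δ ^ 2 / (2 * M)) - 1) * f (n₀ / M) + ((f (n₀ / M) - f Y : ℝ) : ℂ)‖ ≤
      (π + K) / M := by
    refine (norm_add_le _ _).trans ?_
    simp only [norm_mul, Complex.norm_real, Real.norm_eq_abs]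
    have e4 := norm_ee_sub_one_le (-δ ^ 2 / (2 * M))
    rw [abs_div, abs_neg, abs_pow, abs_of_pos (show (0:ℝ) < 2 * M by positivity)] at e4
    have e5 : |(n₀ : ℝ) / M - Y| ≤ 1 / M := by
      rw [show (n₀ : ℝ) / M - Y = (n₀ - M * Y) / M by field_simp, abs_div, abs_of_pos hM']
      gcongr; exact abs_le.2 ⟨by linarith, by linarith⟩
    calc _ ≤ 2 * π * (1 ^ 2 / (2 * M)) * 1 + K * (1 / M) := by
          gcongr
          · exact e4.trans (by gcongr)
          · exact hb _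
          · exact (hf _ _).trans (by gcongr)
      _ = _ := by field_simp
  calc _ ≤ √M * ((K + 2 * π) * √(cc M)) + √M * ((π + K) / M) := by gcongr
    _ = ((K + 2 * π) * √(cc M) + (π + K) / M) * √M := by ring
    _ ≤ _ := by gcongr

/-- taper -/
noncomputable def tap (w s : ℝ) : ℝ := max 0 (min 1 (min (s / w) ((1 - s) / w)))

lemma tap_range (w s : ℝ) : 0 ≤ tap w s ∧ tap w s ≤ 1 :=
  ⟨le_max_left _ _, max_le zero_le_one (min_le_left _ _)⟩

lemma tap_lip {w : ℝ} (hw : 0 < w) (x y : ℝ) : |tap w x - tap w y| ≤ 1 / w * |x - y| := by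
  unfold tap
  refine (abs_max_sub_max_le_max _ _ _ _).trans (max_le (by simp; positivity) ?_)
  refine (abs_min_sub_min_le_max _ _ _ _).trans (max_le (by simp; positivity) ?_)
  refine (abs_min_sub_min_le_max _ _ _ _).trans (max_le (le_of_eq ?_) (le_of_eq ?_))
  · rw [← sub_div, abs_div, abs_of_pos hw]; ring
  · rw [← sub_div, abs_div, abs_of_pos hw, sub_sub_sub_cancel_left, abs_sub_comm]; ring

lemma tap_count {w : ℝ} (hw : 0 < w) (D : ℕ) :
    (((range D).filter fun n : ℕ => tap w (n / D) ≠ 1).card : ℝ) ≤ 2 * (w * D + 1) := by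
  set a := ⌈w * D⌉₊
  have ha : (a : ℝ) ≤ w * D + 1 := (Nat.ceil_lt_add_one (by positivity)).le
  have ha' : w * D ≤ a := Nat.le_ceil _
  have : (range D).filter (fun n : ℕ => tap w (n / D) ≠ 1) ⊆ range a ∪ Ico (D - a) D := by
    intro n hn
    rw [mem_filter, mem_range] at hn
    by_contra hc
    simp only [mem_union, mem_range, mem_Ico, not_or, not_lt, not_and] at hc
    have h1 : (a : ℝ) ≤ n := by exact_mod_cast hc.1
    have h2 : (n : ℝ) + a ≤ D := by exact_mod_cast (by omega : n + a ≤ D)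
    have hD : (0:ℝ) < D := by exact_mod_cast (by omega : 0 < D)
    apply hn.2
    unfold tap
    rw [min_eq_left, max_eq_right zero_le_one]
    refine le_min ?_ ?_ <;> rw [le_div_iff₀ hw, one_mul]
    · rw [le_div_iff₀ hD]; linarith
    · rw [le_sub_comm, div_le_iff₀ hD]; linarith
  have h3 := (card_le_card this).trans (card_union_le _ _)
  rw [card_range, Nat.card_Ico] at h3
  have h4 : ((range D).filter (fun n : ℕ => tap w (n / D) ≠ 1)).card ≤ 2 * a := by omega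
  have h5 : (((range D).filter (fun n : ℕ => tap w (n / D) ≠ 1)).card : ℝ) ≤ 2 * a := by
    exact_mod_cast h4
  linarith

lemma chirp_round (hR : Rounding) {ε : ℝ} (hε : 0 < ε) : ∃ ρ : ℝ → ℝ, (∀ s, 0 ≤ ρ s ∧ ρ s ≤ 1) ∧
    ∀ᶠ D : ℕ in atTop, Even D → ∀ τ ∈ Set.Icc (0:ℝ) 1, ∃ (A : Finset ℕ) (c : ℕ → ℂ),
      (1 - ε) * D ≤ A.card ∧ (∀ n, ‖c n‖ = 1) ∧ ∀ Y ∈ Set.Ico (0:ℝ) 1,
        ‖∑ n ∈ A, c n * ee ((n + τ) * Y) - (√D : ℝ) * (ρ Y * ee (D * Y ^ 2 / 2))‖ ≤ ε * √D := by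
  classical
  obtain ⟨C, hC, hR⟩ := hR
  set s := ε / (3 * C) with hs
  have hs0 : 0 < s := by positivity
  obtain ⟨w, hw, hw1, hw2⟩ : ∃ w : ℝ, 0 < w ∧ 4 * w ≤ s ^ 6 ∧ 4 * w ≤ ε := by
    refine ⟨min (s ^ 6) ε / 4, by positivity, ?_, ?_⟩
    · linarith [min_le_left (s ^ 6) ε]
    · linarith [min_le_right (s ^ 6) ε]
  refine ⟨tap w, tap_range w, ?_⟩
  filter_upwards [chirp (K := 1 / w) (by positivity) (show 0 < ε / 3 by positivity),
    ev_ge 1 hw, ev_div_sqrt 3 one_pos hε, eventually_gt_atTop 0] with D h1 h2 h3 hD he τ hτ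
  have hD' : (0:ℝ) < D := by exact_mod_cast hD
  have hsD : 0 < √(D:ℝ) := Real.sqrt_pos.2 hD'
  obtain ⟨ζ, hζ, h1⟩ := h1 he
  have hcount := tap_count hw D
  obtain ⟨σ, s1, -, s3, s4⟩ := hR D (fun n => ζ * ee (-(n + τ) ^ 2 / (2 * D)))
    (fun n => tap w (n / D)) s (fun n => by simp [hζ]) (fun n => tap_range _ _) hs0.le (by
      calc _ ≤ ∑ n ∈ range D, if tap w (n / D) ≠ 1 then (1:ℝ) else 0 := sum_le_sum fun n _ => by
            split_ifs with h
            · exact (min_le_left _ _).trans (tap_range _ _).2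
            · rw [not_not] at h; rw [h]; simp
        _ ≤ _ := by rw [sum_boole]; nlinarith)
  refine ⟨(range D).filter fun n => σ n = 1, fun n => ζ * ee (-(n + τ) ^ 2 / (2 * D)), ?_,
    fun n => by simp [hζ], fun Y hY => ?_⟩
  · have e1 := card_filter_add_card_filter_not (s := range D) (fun n : ℕ => tap w (n / D) = 1)
    have e2 : ((range D).filter fun n : ℕ => tap w (n / D) = 1).card ≤
        ((range D).filter fun n => σ n = 1).card :=
      card_le_card (monotone_filter_right _ fun n _ => s3 n)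
    rw [card_range] at e1
    have e3 : (D : ℝ) ≤ ((range D).filter fun n => σ n = 1).card +
        ((range D).filter fun n : ℕ => tap w (n / D) ≠ 1).card := by
      simp only [ne_eq]
      exact_mod_cast (by omega)
    nlinarith
  · have e1 := h1 (tap w) (tap_lip hw) (by simp [tap, hw.le]) (by simp [tap, hw.le])
      (fun x => abs_le.2 ⟨by linarith [(tap_range w x).1], (tap_range w x).2⟩) τ hτ Y hY
    have e2 := s4 Y
    have e3 : ∑ n ∈ (range D).filter fun n => σ n = 1, ζ * ee (-(n + τ) ^ 2 / (2 * D)) *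
        ee ((n + τ) * Y) = ee (τ * Y) * ∑ n ∈ range D, ((σ n - tap w (n / D) : ℝ) : ℂ) *
          (ζ * ee (-(n + τ) ^ 2 / (2 * D))) * ee (n * Y) + ∑ n ∈ range D, tap w (n / D) *
            (ζ * ee (-(n + τ) ^ 2 / (2 * D))) * ee ((n + τ) * Y) := by
      rw [sum_filter, mul_sum, ← sum_add_distrib]
      refine sum_congr rfl fun n _ => ?_
      rw [add_mul (n : ℝ) τ Y, ee_add]
      rcases s1 n with h | h <;> simp [h] <;> ring
    rw [e3, add_sub_assoc]
    refine (norm_add_le _ _).trans ?_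
    rw [norm_mul, norm_ee, one_mul]
    have e4 : C * s = ε / 3 := by rw [hs]; field_simp
    have e5 : 3 ≤ ε * √D := by rwa [mul_one, div_le_iff₀ hsD] at h3
    rw [e4] at e2
    linarith

end Vale.Agent.P110
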