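import Vale.Agent.P110.Tile

open Finset Complex MeasureTheory Filter Topology Set
open scoped BigOperators ComplexConjugate Real

namespace Vale.Agent.P110

/-- the time profile of a block -/
structure Prof (T T' : ℝ → ℝ) (D η u₀ Λ : ℝ) : Prop where
  u0 : 0 < u₀
  u1 : u₀ ≤ 1 / 4
  Λ0 : 0 ≤ Λ
  der : ∀ u, HasDerivAt T (T' u) u
  cont : Continuous T'
  T0 : T 0 = 0
  T1 : T 1 ≤ 1 + η
  lo : ∀ u ∈ Icc (0:ℝ) 1, 1 ≤ T' u
  hi : ∀ u ∈ Icc (0:ℝ) 1, T' u ≤ 1 + D
  left : ∀ u ∈ Icc (0:ℝ) u₀, D / 2 ≤ T' u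
  right : ∀ u ∈ Icc (1 - u₀) 1, D / 2 ≤ T' u
  lip : ∀ u ∈ Icc (0:ℝ) 1, ∀ u' ∈ Icc (0:ℝ) 1, |T' u - T' u'| ≤ Λ * |u - u'|

lemma exists_prof {D η : ℝ} (hD : 0 ≤ D) (hη : 0 < η) : ∃ T T' u₀ Λ, Prof T T' D η u₀ Λ := by
  obtain ⟨p, hp⟩ := exists_nat_ge (D / η + 1)
  have hp1 : (1:ℝ) ≤ p := by have : 0 ≤ D / η := by positivity
                             linarith
  have hb : ∀ x : ℝ, 0 ≤ x → x ≤ 1 / (8 * p) → 1 / 2 ≤ (1 - 2 * x) ^ (2 * p) := by
    intro x h0 h1
    have h2 : x ≤ 1 / 8 := h1.trans (by gcongr; linarith)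
    have := one_add_mul_le_pow (a := -(2 * x)) (by linarith) (2 * p)
    rw [le_div_iff₀ (by positivity)] at h1
    push_cast at this
    rw [← sub_eq_add_neg] at this
    nlinarith
  refine ⟨fun u => u + D * ((2 * u - 1) ^ (2 * p + 1) + 1) / (2 * (2 * p + 1)),
    fun u => 1 + D * (2 * u - 1) ^ (2 * p), 1 / (8 * p), D * (2 * (2 * p)), by positivity,
    by gcongr; linarith, by positivity, fun u => ?_, by fun_prop, ?_, ?_, fun u _ => ?_,
    fun u hu => ?_, fun u hu => ?_, fun u hu => ?_, fun u hu u' hu' => ?_⟩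
  · have := (hasDerivAt_id u).add ((((((hasDerivAt_id u).const_mul 2).sub_const 1).pow
      (2 * p + 1)).add_const 1).const_mul D |>.div_const (2 * (2 * p + 1)))
    refine HasDerivAt.congr_deriv this ?_
    simp only [id, Nat.add_sub_cancel]
    push_cast
    field_simp
  · simp [pow_succ, pow_mul]
  · have : D * ((2 * 1 - 1 : ℝ) ^ (2 * p + 1) + 1) / (2 * (2 * p + 1)) ≤ η := by
      rw [div_le_iff₀ (by positivity)]
      have : D ≤ η * p := by
        have : D / η ≤ p := by linarith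
        rwa [div_le_iff₀ hη, mul_comm] at this
      norm_num
      nlinarith
    linarith
  · have : 0 ≤ (2 * u - 1) ^ (2 * p) := by rw [pow_mul]; positivity
    have := mul_nonneg hD this
    linarith
  · have : (2 * u - 1) ^ (2 * p) ≤ 1 := by
      rw [pow_mul]; exact pow_le_one₀ (sq_nonneg _) (by nlinarith [hu.1, hu.2])
    nlinarith
  · have := hb u hu.1 hu.2
    rw [← (even_two_mul p).neg_pow, neg_sub] at this
    nlinarith
  · have := hb (1 - u) (by linarith [hu.2]) (by linarith [hu.1])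
    rw [show 1 - 2 * (1 - u) = 2 * u - 1 by ring] at this
    nlinarith
  · rw [add_sub_add_left_eq_sub, ← mul_sub, abs_mul, abs_of_nonneg hD, mul_assoc]
    refine mul_le_mul_of_nonneg_left ((abs_pow_sub_pow_le _ _ _).trans ?_) hD
    have h1 : max |2 * u - 1| |2 * u' - 1| ^ (2 * p - 1) ≤ 1 :=
      pow_le_one₀ (le_max_of_le_left (abs_nonneg _)) (max_le
        (abs_le.2 ⟨by linarith [hu.1], by linarith [hu.2]⟩)
        (abs_le.2 ⟨by linarith [hu'.1], by linarith [hu'.2]⟩))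
    have h2 : |2 * u - 1 - (2 * u' - 1)| = 2 * |u - u'| := by
      rw [show 2 * u - 1 - (2 * u' - 1) = 2 * (u - u') by ring, abs_mul]; norm_num
    rw [h2]
    push_cast
    calc 2 * |u - u'| * (2 * p) * max |2 * u - 1| |2 * u' - 1| ^ (2 * p - 1) ≤
        2 * |u - u'| * (2 * p) * 1 := by gcongr
      _ = _ := by ring

/-- phase of a block -/
noncomputable def ph (T : ℝ → ℝ) (t υ u : ℝ) : ℝ := t * u + υ * ∫ x in (0:ℝ)..u, T x

lemma ph_deriv {T : ℝ → ℝ} (hT : Continuous T) (t υ u : ℝ) :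
    HasDerivAt (ph T t υ) (t + υ * T u) u :=
  (((hasDerivAt_id u).const_mul t).add
    (((hT.integral_hasStrictDerivAt 0 u).hasDerivAt).const_mul υ)).congr_deriv (by simp)

/-- core integral -/
noncomputable def JJ (T : ℝ → ℝ) (t υ σ A τ : ℝ) : ℂ :=
  ∫ u in σ..(1 - σ), ee (A * (ph T t υ u - τ * u))

namespace Prof
variable {T T' : ℝ → ℝ} {D η u₀ Λ : ℝ} (h : Prof T T' D η u₀ Λ)
include h

lemma contT : Continuous T := cont_of_deriv h.der

lemma mono {x y : ℝ} (hx : x ∈ Icc (0:ℝ) 1) (hy : y ∈ Icc (0:ℝ) 1) (hxy : x ≤ y) :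
    y - x ≤ T y - T x := by simpa using mvt_lower h.der h.lo hx hy hxy

lemma range {x : ℝ} (hx : x ∈ Icc (0:ℝ) 1) : x ≤ T x ∧ T x + (1 - x) ≤ 1 + η := by
  have h1 := h.mono ⟨le_rfl, zero_le_one⟩ hx hx.1
  have h2 := h.mono hx ⟨zero_le_one, le_rfl⟩ hx.2
  rw [h.T0] at h1
  constructor <;> linarith [h.T1]

lemma d1 (t υ A τ u : ℝ) :
    HasDerivAt (fun u => A * (ph T t υ u - τ * u)) (A * (t + υ * T u - τ)) u :=
  (((ph_deriv h.contT t υ u).sub ((hasDerivAt_id u).const_mul τ)).const_mul A).congr_deriv (by simp)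

lemma d2 (t υ A τ u : ℝ) :
    HasDerivAt (fun u => A * (t + υ * T u - τ)) (A * υ * T' u) u :=
  (((((h.der u).const_mul υ).const_add t).sub_const τ).const_mul A).congr_deriv (by ring)

lemma active {t υ σ A τ X ε u : ℝ} (hυ : 0 < υ) (hA : 0 < A) (hσ : 0 ≤ σ) (hσ' : σ ≤ u₀ / 4)
    (hX : 0 < X) (hε : 0 ≤ ε) (hε' : ε ≤ 1 / 2) (hu : u ∈ Icc (u₀ / 2) (1 - u₀ / 2))
    (hτ : t + υ * T u = τ) (h1 : X / √(A * υ) ≤ u₀ / 4) (h2 : Λ * (X / √(A * υ)) ≤ ε) :
    ‖JJ T t υ σ A τ - fres X * ee (A * (ph T t υ u - τ * u)) / √(A * υ * T' u)‖ ≤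
      (4 / X + 4 * π * ε * X ^ 3) / √(A * υ) := by
  have hu0 := h.u0
  have hu' : u ∈ Icc (0:ℝ) 1 := ⟨by linarith [hu.1], by linarith [hu.2]⟩
  have hT := h.lo u hu'
  have hAυ : 0 < A * υ := by positivity
  have hle : √(A * υ) ≤ √(A * υ * T' u) := Real.sqrt_le_sqrt (by nlinarith)
  have hs : 0 < √(A * υ) := Real.sqrt_pos.2 hAυ
  have hρ : X / √(A * υ * T' u) ≤ X / √(A * υ) := by gcongr
  have hρ0 : 0 ≤ X / √(A * υ * T' u) := by positivity
  refine (L3 (h.d1 t υ A τ) (h.d2 t υ A τ) (continuous_const.mul h.cont) (s := A * υ * T' u)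
    (by positivity) hX hε hε' (by rw [hτ]; simp) (by linarith [hu.1]) (by linarith [hu.2])
    (fun x hx => ?_) (fun x hx => ?_)).trans (by gcongr)
  · have := h.lo x ⟨by linarith [hx.1], by linarith [hx.2]⟩
    positivity
  · have hx' : x ∈ Icc (0:ℝ) 1 := ⟨by linarith [hx.1, hu.1], by linarith [hx.2, hu.2]⟩
    have e1 := h.lip x hx' u hu'
    have e2 : |x - u| ≤ X / √(A * υ) := abs_le.2 ⟨by linarith [hx.1], by linarith [hx.2]⟩
    have e3 : Λ * |x - u| ≤ ε := (mul_le_mul_of_nonneg_left e2 h.Λ0).trans h2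
    rw [← mul_sub, abs_mul, abs_of_pos hAυ]
    calc A * υ * |T' x - T' u| ≤ A * υ * (ε * 1) := by gcongr; linarith
      _ ≤ A * υ * (ε * T' u) := by gcongr
      _ = _ := by ring

lemma inactive {t υ σ A τ : ℝ} (hD : 0 < D) (hυ : 0 < υ) (hA : 0 < A) (hσ : 0 ≤ σ)
    (hσ' : σ ≤ u₀ / 4) (hτ : τ ≤ t + υ * T (u₀ / 2) ∨ t + υ * T (1 - u₀ / 2) ≤ τ) :
    ‖JJ T t υ σ A τ‖ ≤ 4 / √(A * υ * (D / 2)) + 1 / (A * υ * (u₀ / 2)) := by
  have hu0 := h.u0
  have hu1 := h.u1
  have hAυ : 0 < A * υ := by positivity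
  have hE : Continuous fun u => ee (A * (ph T t υ u - τ * u)) :=
    continuous_ee.comp (cont_of_deriv (h.d1 t υ A τ))
  have hc : Continuous fun u => A * υ * T' u := continuous_const.mul h.cont
  have hpos : ∀ x ∈ Icc (0:ℝ) 1, 0 ≤ A * υ * T' x := fun x hx => by
    have := h.lo x hx; positivity
  unfold JJ
  rcases hτ with hτ | hτ
  · rw [← intervalIntegral.integral_add_adjacent_intervals (hE.intervalIntegrable σ u₀)
      (hE.intervalIntegrable _ _)]
    refine (norm_add_le _ _).trans (add_le_add ?_ ?_)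
    · exact L2 (h.d1 t υ A τ) (h.d2 t υ A τ) hc (by linarith) (by positivity) fun x hx =>
        mul_le_mul_of_nonneg_left (h.left x ⟨by linarith [hx.1], hx.2⟩) hAυ.le
    · refine L1 (h.d1 t υ A τ) (h.d2 t υ A τ) hc (by linarith)
        (fun x hx => hpos x ⟨by linarith [hx.1], by linarith [hx.2]⟩) (by positivity) fun x hx => ?_
      have := h.mono (x := u₀ / 2) (y := x) ⟨by linarith, by linarith⟩
        ⟨by linarith [hx.1], by linarith [hx.2]⟩ (by linarith [hx.1])
      have h2 : υ * (u₀ / 2) ≤ υ * (T x - T (u₀ / 2)) := by gcongr; linarith [hx.1]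
      refine le_trans ?_ (le_abs_self _)
      rw [mul_assoc]; gcongr; linarith
  · rw [← intervalIntegral.integral_add_adjacent_intervals (hE.intervalIntegrable σ (1 - u₀))
      (hE.intervalIntegrable _ _), add_comm]
    refine (norm_add_le _ _).trans (add_le_add ?_ ?_)
    · exact L2 (h.d1 t υ A τ) (h.d2 t υ A τ) hc (by linarith) (by positivity) fun x hx =>
        mul_le_mul_of_nonneg_left (h.right x ⟨hx.1, by linarith [hx.2]⟩) hAυ.le
    · refine L1 (h.d1 t υ A τ) (h.d2 t υ A τ) hc (by linarith)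
        (fun x hx => hpos x ⟨by linarith [hx.1], by linarith [hx.2]⟩) (by positivity) fun x hx => ?_
      have := h.mono (x := x) (y := 1 - u₀ / 2) ⟨by linarith [hx.1], by linarith [hx.2]⟩
        ⟨by linarith, by linarith⟩ (by linarith [hx.2])
      have h2 : υ * (u₀ / 2) ≤ υ * (T (1 - u₀ / 2) - T x) := by gcongr; linarith [hx.2]
      refine le_trans ?_ (neg_le_abs _)
      rw [mul_assoc, ← mul_neg]; gcongr; linarith

/-- a tile carrying one chirp line -/
lemma main_tile {α lam σ N t υ lo hi : ℝ} (hD : 0 ≤ D) (hlam : 0 < lam) (hσ : 0 < σ)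
    (hσ' : σ ≤ 1 / 2) (hN : 0 < N) (hυ : 0 < υ) (hlo : lo ≤ N * t) (hhi : N * (t + υ * (1 + η)) ≤ hi)
    (hlo' : 12 / (σ * lam) ≤ lo) (s : Bool) (φ : ℝ) :
    ∃ ϑ : ℝ → ℝ, Continuous ϑ ∧ (∀ x ≤ α, ϑ x = 0) ∧ (∀ x ≥ α + lam, ϑ x = 0) ∧
      (∀ x y, |ϑ x - ϑ y| ≤ (N * υ * (1 + D) / lam + 4 * hi / (σ * lam)) * |x - y|) ∧
      (∀ x, ϑ x ∈ Icc 0 (hi + 2 / (σ * lam))) ∧ (∃ n : ℤ, ∫ x in α..(α + lam), ϑ x = n) ∧
      ∀ k : ℝ, |(∫ θ in α..(α + lam), ee ((∫ x in α..θ, ϑ x) - k * θ)).re -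
        lam * (ee (φ - k * (if s then α else -(α + lam))) * JJ T t υ σ (lam * N) (k / N)).re| ≤
          8 / √(lo / (2 * (σ * lam))) := by
  have hT := h.contT
  have hrange : ∀ u ∈ Icc (0:ℝ) 1, N * (t + υ * T u) ∈ Icc lo hi := fun u hu => by
    have := h.range hu
    have e1 : 0 ≤ υ * T u := mul_nonneg hυ.le (by linarith [hu.1])
    have e2 : υ * T u ≤ υ * (1 + η) := by gcongr; linarith [hu.2]
    exact ⟨hlo.trans (by gcongr; linarith), le_trans (by gcongr) hhi⟩
  have hlip : ∀ u ∈ Icc (0:ℝ) 1, ∀ u' ∈ Icc (0:ℝ) 1,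
      |N * (t + υ * T u) - N * (t + υ * T u')| ≤ N * υ * (1 + D) * |u - u'| := by
    intro u hu u' hu'
    have := mvt_abs h.der (C := 1 + D) (fun x hx => abs_le.2 ⟨by linarith [h.lo x hx], h.hi x hx⟩)
      hu' hu
    rw [show N * (t + υ * T u) - N * (t + υ * T u') = N * υ * (T u - T u') by ring, abs_mul,
      abs_of_pos (mul_pos hN hυ), mul_assoc (N * υ)]
    gcongr
  have hab : α + σ * lam ≤ α + lam - σ * lam := by nlinarith
  have hσl : 0 < σ * lam := by positivity
  cases s with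
  | true =>
    have hm : ∀ x ∈ Icc (α + σ * lam) (α + lam - σ * lam), (x - α) / lam ∈ Icc (0:ℝ) 1 :=
      fun x hx => ⟨div_nonneg (by linarith [hx.1]) hlam.le,
        (div_le_one hlam).2 (by linarith [hx.2])⟩
    obtain ⟨ϑ, a1, a2, a3, a4, a5, a6, a7⟩ := tile (α := α) (β := α + lam) hσl hab
      (Cc := fun x => N * (t + υ * T ((x - α) / lam))) (by fun_prop) (fun x hx => hrange _ (hm x hx))
      (Lc := N * υ * (1 + D) / lam) (fun x hx y hy => by
        refine (hlip _ (hm x hx) _ (hm y hy)).trans (le_of_eq ?_)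
        rw [← sub_div, abs_div, abs_of_pos hlam, sub_sub_sub_cancel_right]; ring)
      (by positivity) hlo' (φ + lam * N * ph T t υ σ)
    refine ⟨ϑ, a1, a2, a3, a4, a5, a6, fun k => le_trans ?_ (a7 k)⟩
    have e1 : ∀ θ, ∫ x in (α + σ * lam)..θ, N * (t + υ * T ((x - α) / lam)) =
        lam * N * ph T t υ ((θ - α) / lam) - lam * N * ph T t υ σ := by
      intro θ
      rw [intervalIntegral.integral_eq_sub_of_hasDerivAt
        (f := fun θ => lam * N * ph T t υ ((θ - α) / lam)) (fun x _ => ?_)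
        (Continuous.intervalIntegrable (by fun_prop) _ _)]
      · congr 3; field_simp; ring
      · have := ((ph_deriv hT t υ ((x - α) / lam)).comp x
          (((hasDerivAt_id x).sub_const α).div_const lam)).const_mul (lam * N)
        refine HasDerivAt.congr_deriv this ?_
        field_simp
    have e2 : ∫ θ in (α + σ * lam)..(α + lam - σ * lam), ee (φ + lam * N * ph T t υ σ +
        (∫ x in (α + σ * lam)..θ, N * (t + υ * T ((x - α) / lam))) - k * θ) =
        lam * (ee (φ - k * α) * JJ T t υ σ (lam * N) (k / N)) := by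
      simp only [e1]
      have := intervalIntegral.smul_integral_comp_mul_add (a := σ) (b := 1 - σ)
        (fun θ => ee (φ + lam * N * ph T t υ σ +
          (lam * N * ph T t υ ((θ - α) / lam) - lam * N * ph T t υ σ) - k * θ)) lam α
      rw [show lam * σ + α = α + σ * lam by ring,
        show lam * (1 - σ) + α = α + lam - σ * lam by ring] at this
      rw [← this, JJ, ← intervalIntegral.integral_const_mul, Complex.real_smul]
      congr 1
      refine intervalIntegral.integral_congr fun u _ => ?_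
      rw [← ee_add, show (lam * u + α - α) / lam = u by field_simp; ring]
      congr 1; field_simp; ring
    rw [e2, if_pos rfl, ← Complex.re_ofReal_mul, ← Complex.sub_re]
    exact Complex.abs_re_le_norm _
  | false =>
    have hm : ∀ x ∈ Icc (α + σ * lam) (α + lam - σ * lam), (α + lam - x) / lam ∈ Icc (0:ℝ) 1 :=
      fun x hx => ⟨div_nonneg (by linarith [hx.2]) hlam.le,
        (div_le_one hlam).2 (by linarith [hx.1])⟩
    obtain ⟨ϑ, a1, a2, a3, a4, a5, a6, a7⟩ := tile (α := α) (β := α + lam) hσl hab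
      (Cc := fun x => N * (t + υ * T ((α + lam - x) / lam))) (by fun_prop)
      (fun x hx => hrange _ (hm x hx))
      (Lc := N * υ * (1 + D) / lam) (fun x hx y hy => by
        refine (hlip _ (hm x hx) _ (hm y hy)).trans (le_of_eq ?_)
        rw [← sub_div, abs_div, abs_of_pos hlam, sub_sub_sub_cancel_left, abs_sub_comm]; ring)
      (by positivity) hlo' (-φ - lam * N * ph T t υ (1 - σ))
    refine ⟨ϑ, a1, a2, a3, a4, a5, a6, fun k => le_trans ?_ (a7 k)⟩
    have e1 : ∀ θ, ∫ x in (α + σ * lam)..θ, N * (t + υ * T ((α + lam - x) / lam)) =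
        -(lam * N * ph T t υ ((α + lam - θ) / lam)) + lam * N * ph T t υ (1 - σ) := by
      intro θ
      rw [intervalIntegral.integral_eq_sub_of_hasDerivAt
        (f := fun θ => -(lam * N * ph T t υ ((α + lam - θ) / lam))) (fun x _ => ?_)
        (Continuous.intervalIntegrable (by fun_prop) _ _)]
      · rw [sub_neg_eq_add]; congr 3; field_simp; ring
      · have := (((ph_deriv hT t υ ((α + lam - x) / lam)).comp x
          (((hasDerivAt_id x).const_sub (α + lam)).div_const lam)).const_mul (lam * N)).neg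
        refine HasDerivAt.congr_deriv this ?_
        field_simp
    have e2 : ∫ θ in (α + σ * lam)..(α + lam - σ * lam), ee (-φ - lam * N * ph T t υ (1 - σ) +
        (∫ x in (α + σ * lam)..θ, N * (t + υ * T ((α + lam - x) / lam))) - k * θ) =
        lam * conj (ee (φ - k * -(α + lam)) * JJ T t υ σ (lam * N) (k / N)) := by
      simp only [e1]
      have := intervalIntegral.smul_integral_comp_sub_mul (a := σ) (b := 1 - σ)
        (fun θ => ee (-φ - lam * N * ph T t υ (1 - σ) +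
          (-(lam * N * ph T t υ ((α + lam - θ) / lam)) + lam * N * ph T t υ (1 - σ)) - k * θ))
          lam (α + lam)
      rw [show α + lam - lam * σ = α + lam - σ * lam by ring,
        show α + lam - lam * (1 - σ) = α + σ * lam by ring] at this
      rw [← this, JJ, ← intervalIntegral.integral_const_mul, Complex.real_smul,
        ← intervalIntegral.intervalIntegral_conj]
      congr 1
      refine intervalIntegral.integral_congr fun u _ => ?_
      rw [← ee_add, conj_ee, show (α + lam - (α + lam - lam * u)) / lam = u by field_simp; ring]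
      congr 1; field_simp; ring
    rw [e2, if_neg (by simp), ← Complex.conj_re (ee _ * _), ← Complex.re_ofReal_mul,
      ← Complex.sub_re]
    exact Complex.abs_re_le_norm _

end Prof

/-- a tile filling a gap -/
lemma free_tile {α lam σ N t ω lo hi : ℝ} (hlam : 0 < lam) (hσ : 0 < σ)
    (hσ' : σ ≤ 1 / 4) (hN : 0 < N) (hω : 0 < ω) (hlo : lo ≤ N * t) (hhi : N * (t + ω) ≤ hi)
    (hlo' : 12 / (σ * lam) ≤ lo) :
    ∃ ϑ : ℝ → ℝ, Continuous ϑ ∧ (∀ x ≤ α, ϑ x = 0) ∧ (∀ x ≥ α + lam, ϑ x = 0) ∧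
      (∀ x y, |ϑ x - ϑ y| ≤ (2 * N * ω / lam + 4 * hi / (σ * lam)) * |x - y|) ∧
      (∀ x, ϑ x ∈ Icc 0 (hi + 2 / (σ * lam))) ∧ (∃ n : ℤ, ∫ x in α..(α + lam), ϑ x = n) ∧
      ∀ k : ℝ, |(∫ θ in α..(α + lam), ee ((∫ x in α..θ, ϑ x) - k * θ)).re| ≤
          8 / √(lo / (2 * (σ * lam))) +
            if N * (t - ω) < k ∧ k < N * (t + 2 * ω) then 4 / √(N * ω / lam) else 1 / (N * ω) := by
  have hσl : 0 < σ * lam := by positivity
  have hab : α + σ * lam ≤ α + lam - σ * lam := by nlinarith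
  set len := lam - 2 * (σ * lam) with hlen
  have hl1 : lam / 2 ≤ len := by nlinarith
  have hl0 : 0 < len := by linarith
  have hl2 : len ≤ lam := by linarith
  set Cc : ℝ → ℝ := fun x => N * (t + ω * ((x - (α + σ * lam)) / len)) with hCc
  have hc : Continuous Cc := by fun_prop
  have hd : ∀ x, HasDerivAt Cc (N * ω / len) x := fun x =>
    (((((hasDerivAt_id x).sub_const (α + σ * lam)).div_const len).const_mul ω).const_add t
      |>.const_mul N).congr_deriv (by ring)
  have hm : ∀ x ∈ Icc (α + σ * lam) (α + lam - σ * lam), N * t ≤ Cc x ∧ Cc x ≤ N * (t + ω) := by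
    intro x hx
    have e1 : 0 ≤ (x - (α + σ * lam)) / len := div_nonneg (by linarith [hx.1]) hl0.le
    have e2 : (x - (α + σ * lam)) / len ≤ 1 := (div_le_one hl0).2 (by linarith [hx.2])
    simp only [hCc]
    constructor <;> gcongr <;> nlinarith
  obtain ⟨ϑ, a1, a2, a3, a4, a5, a6, a7⟩ := tile (α := α) (β := α + lam) hσl hab hc
    (fun x hx => ⟨hlo.trans (hm x hx).1, (hm x hx).2.trans hhi⟩) (Lc := 2 * N * ω / lam)
    (fun x hx y hy => mvt_abs hd (fun _ _ => by
      rw [abs_of_pos (by positivity), div_le_div_iff₀ hl0 hlam]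
      have : 0 < N * ω := by positivity
      nlinarith) hy hx) (by positivity) hlo' 0
  refine ⟨ϑ, a1, a2, a3, a4, a5, a6, fun k => (Complex.abs_re_le_norm _).trans ?_⟩
  refine (norm_le_norm_sub_add _ _).trans (add_le_add (a7 k) ?_)
  split_ifs with hk
  · refine (L2 (prim_deriv hc 0 _ k) (fun x => (hd x).sub_const k) continuous_const hab
      (μ := N * ω / len) (by positivity) fun _ _ => le_rfl).trans ?_
    gcongr
  · refine L1 (prim_deriv hc 0 _ k) (fun x => (hd x).sub_const k) continuous_const hab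
      (fun _ _ => by positivity) (by positivity) fun x hx => ?_
    have := hm x hx
    rw [not_and_or, not_lt, not_lt] at hk
    rcases hk with hk | hk
    · exact le_trans (by nlinarith) (le_abs_self _)
    · exact le_trans (by nlinarith) (neg_le_abs _)

end Vale.Agent.P110
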