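import Vale.Agent.P110.Osc

open Finset Complex MeasureTheory Filter Topology
open scoped BigOperators ComplexConjugate Real

namespace Vale.Agent.P110

lemma integral_ee_int (n : ℤ) :
    ∫ t in (-1 / 2 : ℝ)..(1 / 2), ee (n * t) = if n = 0 then 1 else 0 := by
  split_ifs with h
  · subst h; simp; norm_num
  · have hn : (n : ℂ) ≠ 0 := by exact_mod_cast h
    have hpi : (2 * π * I : ℂ) ≠ 0 := Complex.two_pi_I_ne_zero
    have hd : ∀ t ∈ Set.uIcc (-1 / 2 : ℝ) (1 / 2),
        HasDerivAt (fun t : ℝ => ee (n * t) / (2 * π * I * n)) (ee (n * t)) t := by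
      intro t _
      have := (hasDerivAt_ee_comp ((hasDerivAt_id t).const_mul (n:ℝ))).div_const (2 * π * I * n)
      refine HasDerivAt.congr_deriv this ?_
      simp only [id, mul_one]
      push_cast
      field_simp
    rw [intervalIntegral.integral_eq_sub_of_hasDerivAt hd
      ((continuous_ee.comp (by fun_prop)).intervalIntegrable _ _)]
    have : (n * (1 / 2) : ℝ) = n * (-1 / 2) + n := by ring
    rw [this, ee_add_int, sub_self]

lemma norm_dir_le (a : ℕ) (t : ℝ) : ‖∑ i ∈ range a, ee (i * t)‖ ≤ a := by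
  refine (norm_sum_le _ _).trans ?_
  simp

lemma norm_dir_le' (a : ℕ) {t : ℝ} (ht : |t| ≤ 1 / 2) : |t| * ‖∑ i ∈ range a, ee (i * t)‖ ≤ 1 / 2 := by
  have h1 : (∑ i ∈ range a, ee (i * t)) * (ee t - 1) = ee t ^ a - 1 := by
    simp only [ee_nat_mul]; exact geom_sum_mul _ _
  have h2 : ‖ee t ^ a - 1‖ ≤ 2 := by
    refine (norm_sub_le _ _).trans ?_
    simp; norm_num
  rw [← h1, norm_mul] at h2
  have h3 := le_norm_ee_sub_one ht
  nlinarith [norm_nonneg (∑ i ∈ range a, ee (i * t))]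

/-- trapezoid weights -/
noncomputable def trap (a b k : ℕ) : ℝ := (((range b).filter fun j => j ≤ k ∧ k < j + a).card : ℝ) / b

lemma trap_nonneg (a b k : ℕ) : 0 ≤ trap a b k := by unfold trap; positivity

lemma trap_le_one (a b k : ℕ) : trap a b k ≤ 1 := by
  unfold trap
  refine div_le_one_of_le₀ ?_ (Nat.cast_nonneg b)
  exact_mod_cast (card_filter_le _ _).trans (card_range b).le

lemma trap_eq_one {a b k : ℕ} (hb : 0 < b) (h1 : b ≤ k + 1) (h2 : k < a) : trap a b k = 1 := by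
  unfold trap
  rw [filter_true_of_mem fun j hj => by have := mem_range.1 hj; omega, card_range]
  exact div_self (by positivity)

lemma trap_sum {a b N : ℕ} (hN : a + b ≤ N + 1) (t : ℝ) :
    ∑ k ∈ range N, (trap a b k : ℂ) * ee (k * t) =
      (∑ i ∈ range a, ee (i * t)) * (∑ j ∈ range b, ee (j * t)) / b := by
  unfold trap
  simp only [card_filter]
  push_cast
  simp only [div_mul_eq_mul_div, ← sum_div, sum_mul, apply_ite Complex.ofReal, ite_mul, ofReal_one,
    ofReal_zero, one_mul, zero_mul]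
  congr 1
  rw [sum_comm, ← sum_mul, mul_sum]
  refine sum_congr rfl fun j hj => ?_
  have := mem_range.1 hj
  rw [← sum_filter, show (range N).filter (fun k => j ≤ k ∧ k < j + a) = Ico j (j + a) from by
    ext k; simp; omega, sum_Ico_eq_sum_range, sum_mul, Nat.add_sub_cancel_left]
  refine sum_congr rfl fun i _ => ?_
  rw [← ee_add]; congr 1; push_cast; ring

lemma integral_inv_one_add_le {N : ℝ} (hN : 0 < N) :
    ∫ t in (-1 / 2 : ℝ)..(1 / 2), 1 / (1 + N * t ^ 2) ≤ π / √N := by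
  have hs : 0 < √N := Real.sqrt_pos.2 hN
  have : (fun t : ℝ => 1 / (1 + N * t ^ 2)) = fun t => (fun x : ℝ => 1 / (1 + x ^ 2)) (√N * t) := by
    funext t; simp only [mul_pow, Real.sq_sqrt hN.le]
  rw [this, intervalIntegral.integral_comp_mul_left (fun x : ℝ => 1 / (1 + x ^ 2)) hs.ne',
    integral_one_div_one_add_sq, smul_eq_mul, div_eq_inv_mul π]
  refine mul_le_mul_of_nonneg_left ?_ (by positivity)
  linarith [Real.arctan_lt_pi_div_two (√N * (1 / 2)), Real.neg_pi_div_two_lt_arctan (√N * (-1 / 2))]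

lemma kernel (N b : ℕ) (hb : 0 < b) (ϑ : ℝ → ℝ) (hc : Continuous ϑ) (hper : Function.Periodic ϑ 1)
    (n₀ : ℤ) (hint : ∫ s in (0:ℝ)..1, ϑ s = n₀) (L : ℝ) (hL0 : 0 ≤ L)
    (hL : ∀ x y, |ϑ x - ϑ y| ≤ L * N * |x - y|) (hr : ∀ x, b ≤ ϑ x ∧ ϑ x + b + 1 ≤ N) (θ : ℝ) :
    ‖∑ k ∈ range N, (trap (N + 1 - b) b k : ℂ) *
        (∫ s in (-1 / 2 : ℝ)..(1 / 2), ee ((∫ x in (0:ℝ)..s, ϑ x) - k * s)) * ee (k * θ) -
      ee (∫ x in (0:ℝ)..θ, ϑ x)‖ ≤ (2 + (2 * L + 1) * N / b) * (π / √N) := by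
  have hb' : (0:ℝ) < b := by exact_mod_cast hb
  have hbN : (2:ℝ) * b + 1 ≤ N := by linarith [(hr 0).1, (hr 0).2]
  have hbN' : 2 * b + 1 ≤ N := by exact_mod_cast hbN
  have hN : (0:ℝ) < N := by linarith
  set Φ : ℝ → ℝ := fun s => ∫ x in (0:ℝ)..s, ϑ x with hΦ
  have hΦd : ∀ s, HasDerivAt Φ (ϑ s) s := fun s => (hc.integral_hasStrictDerivAt 0 s).hasDerivAt
  have hΦc : Continuous Φ := cont_of_deriv hΦd
  have hΦp : ∀ s, Φ (s + 1) = Φ s + n₀ := by
    intro s
    simp only [hΦ]
    rw [← intervalIntegral.integral_add_adjacent_intervals (hc.intervalIntegrable 0 s)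
      (hc.intervalIntegrable s (s + 1)), hper.intervalIntegral_add_eq s 0, zero_add, hint]
  set V : ℝ → ℂ := fun t => ∑ k ∈ range N, (trap (N + 1 - b) b k : ℂ) * ee (k * t) with hV
  have hVc : Continuous V := by
    refine continuous_finsetSum _ fun k _ => continuous_const.mul (continuous_ee.comp (by fun_prop))
  have hVp : ∀ t, V (t + 1) = V t := fun t => sum_congr rfl fun k _ => by
    rw [mul_add, mul_one, ee_add, ee_natCast, mul_one]
  have h1 : ∑ k ∈ range N, (trap (N + 1 - b) b k : ℂ) *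
      (∫ s in (-1 / 2 : ℝ)..(1 / 2), ee (Φ s - k * s)) * ee (k * θ) =
      ∫ t in (-1 / 2 : ℝ)..(1 / 2), ee (Φ (θ - t)) * V t := by
    have e1 : ∫ t in (-1 / 2 : ℝ)..(1 / 2), ee (Φ (θ - t)) * V t =
        ∫ s in (-1 / 2 : ℝ)..(1 / 2), ee (Φ s) * V (θ - s) := by
      have hp : Function.Periodic (fun t => ee (Φ (θ - t)) * V t) 1 := by
        intro t
        have : Φ (θ - t) = Φ (θ - (t + 1)) + n₀ := by rw [← hΦp]; congr 1; ring
        simp only [hVp, this, ee_add_int]
      have e2 := hp.intervalIntegral_add_eq (-1 / 2) (θ - 1 / 2)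
      have e3 := intervalIntegral.integral_comp_sub_left (a := -1 / 2) (b := 1 / 2)
        (fun t => ee (Φ (θ - t)) * V t) θ
      simp only [sub_sub_cancel] at e3
      rw [e3, show θ - -1 / 2 = θ - 1 / 2 + 1 by ring, ← e2]
      norm_num
    rw [e1]
    simp only [hV, mul_sum]
    rw [intervalIntegral.integral_finsetSum]
    · refine sum_congr rfl fun k _ => ?_
      rw [← intervalIntegral.integral_const_mul, ← intervalIntegral.integral_mul_const]
      refine intervalIntegral.integral_congr fun s _ => ?_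
      rw [mul_assoc, ← ee_add, mul_left_comm, ← ee_add]
      congr 2; ring
    · intro k _
      exact ((continuous_ee.comp hΦc).mul (continuous_const.mul
        (continuous_ee.comp (by fun_prop)))).intervalIntegrable _ _
  obtain ⟨m, hm1, hm2, hm3⟩ : ∃ m : ℕ, b ≤ m + 1 ∧ m < N + 1 - b ∧ |ϑ θ - m| ≤ 1 / 2 := by
    have h0 : 0 ≤ ϑ θ + 1 / 2 := by linarith [(hr θ).1]
    have a1 := Nat.floor_le h0
    have a2 := Nat.lt_floor_add_one (ϑ θ + 1 / 2)
    refine ⟨⌊ϑ θ + 1 / 2⌋₊, ?_, ?_, abs_le.2 ⟨by linarith, by linarith⟩⟩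
    · have : (b:ℝ) ≤ ⌊ϑ θ + 1 / 2⌋₊ + 1 := by linarith [(hr θ).1]
      exact_mod_cast this
    · have : (⌊ϑ θ + 1 / 2⌋₊ : ℝ) + b < N := by linarith [(hr θ).2]
      have : ⌊ϑ θ + 1 / 2⌋₊ + b < N := by exact_mod_cast this
      omega
  have h2 : ∫ t in (-1 / 2 : ℝ)..(1 / 2), ee (Φ θ - m * t) * V t = ee (Φ θ) := by
    simp only [hV, mul_sum]
    rw [intervalIntegral.integral_finsetSum]
    · rw [sum_eq_single m]
      · rw [trap_eq_one hb hm1 hm2]
        simp only [ofReal_one, one_mul, ← ee_add, sub_add_cancel]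
        simp; norm_num
      · intro k _ hk
        have := integral_ee_int (k - m)
        rw [if_neg (by omega)] at this
        calc _ = ∫ t in (-1 / 2 : ℝ)..(1 / 2), (ee (Φ θ) * trap (N + 1 - b) b k) *
              ee (((k - m : ℤ) : ℝ) * t) := by
              refine intervalIntegral.integral_congr fun s _ => ?_
              rw [mul_left_comm, ← ee_add, mul_comm (ee (Φ θ)), mul_assoc, ← ee_add]
              congr 2; push_cast; ring
          _ = 0 := by rw [intervalIntegral.integral_const_mul, this, mul_zero]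
      · intro h; exact absurd (mem_range.2 (by omega)) h
    · intro k _
      exact ((continuous_ee.comp (by fun_prop)).mul (continuous_const.mul
        (continuous_ee.comp (by fun_prop)))).intervalIntegrable _ _
  have hi1 : IntervalIntegrable (fun t => ee (Φ (θ - t)) * V t) volume (-1 / 2) (1 / 2) :=
    ((continuous_ee.comp (hΦc.comp (by fun_prop))).mul hVc).intervalIntegrable _ _
  have hi2 : IntervalIntegrable (fun t => ee (Φ θ - m * t) * V t) volume (-1 / 2) (1 / 2) :=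
    ((continuous_ee.comp (by fun_prop)).mul hVc).intervalIntegrable _ _
  rw [h1, ← h2, ← intervalIntegral.integral_sub hi1 hi2]
  set C : ℝ := 2 + (2 * L + 1) * N / b with hC
  have hC0 : 0 ≤ C := by positivity
  refine le_trans ?_ (mul_le_mul_of_nonneg_left (integral_inv_one_add_le hN) hC0)
  rw [← intervalIntegral.integral_const_mul]
  refine intervalIntegral.norm_integral_le_of_norm_le (by norm_num) (Eventually.of_forall ?_)
    (Continuous.intervalIntegrable (continuous_const.mul (continuous_const.div (by fun_prop)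
      fun t => by positivity)) _ _)
  intro t ht
  have ht' : |t| ≤ 1 / 2 := abs_le.2 ⟨by linarith [ht.1], ht.2⟩
  rw [← sub_mul, norm_mul]
  have hV1 : ‖V t‖ = ‖∑ i ∈ range (N + 1 - b), ee (i * t)‖ * ‖∑ j ∈ range b, ee (j * t)‖ / b := by
    simp only [hV]
    rw [trap_sum (by omega), norm_div, norm_mul, Complex.norm_natCast]
  have d1 := norm_dir_le' (N + 1 - b) ht'
  have d2 := norm_dir_le' b ht'
  have d3 := norm_dir_le b t
  set A := ‖∑ i ∈ range (N + 1 - b), ee (i * t)‖
  set B := ‖∑ j ∈ range b, ee (j * t)‖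
  have hA : 0 ≤ A := norm_nonneg _
  have hB : 0 ≤ B := norm_nonneg _
  have ht0 := abs_nonneg t
  have v1 : |t| * ‖V t‖ ≤ 1 / 2 := by
    rw [hV1]
    calc |t| * (A * B / b) = |t| * A * (B / b) := by ring
      _ ≤ 1 / 2 * 1 := mul_le_mul d1 ((div_le_one hb').2 d3) (by positivity) (by norm_num)
      _ = _ := by ring
  have v2 : t ^ 2 * ‖V t‖ ≤ 1 / (4 * b) := by
    rw [hV1, ← sq_abs]
    calc |t| ^ 2 * (A * B / b) = (|t| * A) * (|t| * B) / b := by ring
      _ ≤ 1 / 2 * (1 / 2) / b := by gcongr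
      _ = _ := by field_simp; ring
  have g1 : ‖ee (Φ (θ - t)) - ee (Φ θ - m * t)‖ ≤ 2 :=
    (norm_sub_le _ _).trans (by simp; norm_num)
  have g2 : ‖ee (Φ (θ - t)) - ee (Φ θ - m * t)‖ ≤ 2 * π * ((1 / 2 + L * N * |t|) * |t|) := by
    refine (norm_ee_sub_ee_le _ _).trans (mul_le_mul_of_nonneg_left ?_ (by positivity))
    have hd : ∀ x, HasDerivAt (fun y => Φ y - m * y) (ϑ x - m) x := fun x =>
      ((hΦd x).sub ((hasDerivAt_id x).const_mul (m:ℝ))).congr_deriv (by simp)
    have := mvt_abs hd (a := θ - |t|) (b := θ + |t|) (C := 1 / 2 + L * N * |t|) (fun x hx => by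
      have e1 := hL x θ
      have e2 : |x - θ| ≤ |t| := abs_le.2 ⟨by linarith [hx.1], by linarith [hx.2]⟩
      have e3 : L * N * |x - θ| ≤ L * N * |t| := by gcongr
      have e4 := abs_sub_le (ϑ x) (ϑ θ) m
      linarith) (x := θ) (y := θ - t) ⟨by linarith, by linarith⟩
      ⟨by linarith [le_abs_self t], by linarith [neg_abs_le t]⟩
    rw [show θ - t - θ = -t by ring, abs_neg] at this
    refine le_trans (le_of_eq ?_) this
    congr 1; ring
  have hVn := norm_nonneg (V t)
  set g := ‖ee (Φ (θ - t)) - ee (Φ θ - m * t)‖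
  have hg : 0 ≤ g := norm_nonneg _
  rw [mul_one_div, le_div_iff₀ (by positivity)]
  have f1 : g * ‖V t‖ ≤ 2 + 2 * L * N / b := by
    calc g * ‖V t‖ ≤ 2 * π * ((1 / 2 + L * N * |t|) * |t|) * ‖V t‖ := by gcongr
      _ = π * (|t| * ‖V t‖) + 2 * π * L * N * (t ^ 2 * ‖V t‖) := by rw [← sq_abs t]; ring
      _ ≤ 4 * (1 / 2) + 2 * 4 * L * N * (1 / (4 * b)) := by
        gcongr <;> exact Real.pi_le_four
      _ = _ := by field_simp; ring
  have f2 : g * ‖V t‖ * (N * t ^ 2) ≤ N / b := by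
    calc (g * ‖V t‖ * (N * t ^ 2) : ℝ) = g * N * (t ^ 2 * ‖V t‖) := by ring
      _ ≤ (2 * N * (1 / (4 * b)) : ℝ) := by gcongr
      _ = (N / b : ℝ) / 2 := by field_simp; ring
      _ ≤ _ := half_le_self (by positivity)
  have : C = 2 + 2 * L * N / b + N / b := by rw [hC]; ring
  rw [this, mul_add, mul_one]
  linarith

end Vale.Agent.P110
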