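import Vale.Agent.P110.Theta
import Vale.Agent.P110.Kernel

open Finset Complex MeasureTheory Filter Topology Set
open scoped BigOperators ComplexConjugate Real

namespace Vale.Agent.P110

lemma parseval {ι : Type*} (M : ℕ) (hM : 0 < M) (s : Finset ι) (n : ι → ℤ)
    (hinj : ∀ i ∈ s, ∀ j ∈ s, (M : ℤ) ∣ n i - n j → i = j) (c : ι → ℂ) :
    ∑ j ∈ range M, ‖∑ i ∈ s, c i * ee (n i * j / M)‖ ^ 2 = M * ∑ i ∈ s, ‖c i‖ ^ 2 := by
  classical
  apply Complex.ofReal_injective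
  push_cast
  simp only [← Complex.mul_conj', map_sum, map_mul, conj_ee, sum_mul_sum]
  rw [sum_comm, mul_sum]
  refine sum_congr rfl fun i hi => ?_
  rw [sum_comm]
  have : ∀ i' ∈ s, ∑ j ∈ range M, c i * ee (n i * j / M) * (conj (c i') * ee (-(n i' * j / M))) =
      if i = i' then M * (c i * conj (c i)) else 0 := by
    intro i' hi'
    have e1 : ∀ j : ℕ, c i * ee (n i * j / M) * (conj (c i') * ee (-(n i' * j / M))) =
        c i * conj (c i') * ee ((n i - n i' : ℤ) * j / M) := fun j => by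
      rw [show ((n i - n i' : ℤ) : ℝ) * j / M = n i * j / M + -(n i' * j / M) by push_cast; ring,
        ee_add]; ring
    simp only [e1]
    rw [← mul_sum, sum_ee_div M hM]
    by_cases h : i = i'
    · subst h; simp [mul_comm]
    · rw [if_neg h, if_neg fun hh => h (hinj i hi i' hi' hh), mul_zero]
  rw [sum_congr rfl this, sum_ite_eq, if_pos hi]

lemma a_exists {η L A : ℝ} (hη : 0 < η) (hL : 0 ≤ L)
    (h : ∀ᶠ N : ℕ in atTop, ∃ Θ : ℝ → ℝ, Continuous Θ ∧ Function.Periodic Θ 1 ∧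
      (∃ n : ℤ, ∫ x in (0:ℝ)..1, Θ x = n) ∧ (∀ x y, |Θ x - Θ y| ≤ L * N * |x - y|) ∧
      (∀ x, Θ x ∈ Icc 0 ((1 - η) * N)) ∧ ∀ k : ℤ, ∃ r : ℝ,
        ∫ s in (-1 / 2 : ℝ)..(1 / 2), ee ((∫ x in (0:ℝ)..s, Θ x) - k * s) = r ∧ |r| ≤ A / √N) :
    ∀ᶠ N : ℕ in atTop, ∃ a : ℕ → ℝ, (∀ k, |a k| ≤ A) ∧
      ∀ θ : ℝ, |‖∑ k ∈ range N, (a k : ℂ) * ee (k * θ)‖ - √N| ≤ η * √N := by
  filter_upwards [h, ev_ge 8 hη, ev_div_sqrt ((2 + (2 * L + 1) * 8 / η) * π) one_pos hη,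
    eventually_gt_atTop 0] with N ⟨Θ, h1, h2, ⟨n, h3⟩, h4, h5, h6⟩ hN1 hN2 hN0
  have hN : (0:ℝ) < N := by exact_mod_cast hN0
  have hsN : 0 < √(N:ℝ) := Real.sqrt_pos.2 hN
  set b := ⌊η * N / 4⌋₊ with hb
  have hb1 : (b : ℝ) ≤ η * N / 4 := Nat.floor_le (by positivity)
  have hb2 : η * N / 8 ≤ b := by have := Nat.lt_floor_add_one (η * N / 4); linarith
  have hb0 : (0:ℝ) < b := lt_of_lt_of_le (by positivity) hb2
  have hint : ∀ s : ℝ, ∫ x in (0:ℝ)..s, (b + Θ x) = b * s + ∫ x in (0:ℝ)..s, Θ x := fun s => by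
    rw [intervalIntegral.integral_add intervalIntegrable_const (h1.intervalIntegrable _ _)]
    simp [mul_comm]
  choose r hr hr' using h6
  refine ⟨fun k => √N * (trap (N + 1 - b) b k * r (k - b)), fun k => ?_, fun θ => ?_⟩
  · rw [abs_mul, abs_mul, abs_of_pos hsN, abs_of_nonneg (trap_nonneg _ _ _)]
    calc _ ≤ √N * (1 * (A / √N)) := by gcongr; exacts [trap_le_one _ _ _, hr' _]
      _ = A := by field_simp
  · have := kernel N b (by exact_mod_cast hb0) (fun x => b + Θ x) (by fun_prop)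
      (fun x => by simp only [h2 x]) (b + n) (by rw [hint, h3]; push_cast; ring) L hL
      (fun x y => by simpa using h4 x y) (fun x => ⟨by linarith [(h5 x).1], by
        have := (h5 x).2; linarith⟩) θ
    have e1 : ∀ k : ℕ, ∫ s in (-1 / 2 : ℝ)..(1 / 2), ee ((∫ x in (0:ℝ)..s, (b + Θ x)) - k * s) =
        r (k - b) := fun k => by
      rw [← hr]; refine intervalIntegral.integral_congr fun s _ => ?_
      simp only [hint]; congr 1; push_cast; ring
    simp only [e1] at this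
    have e2 : ∑ k ∈ range N, ((√N * (trap (N + 1 - b) b k * r (k - b)) : ℝ) : ℂ) * ee (k * θ) =
        (√N : ℝ) * ∑ k ∈ range N, (trap (N + 1 - b) b k : ℂ) * r (k - b) * ee (k * θ) := by
      rw [mul_sum]; exact sum_congr rfl fun k _ => by push_cast; ring
    rw [e2, norm_mul, Complex.norm_real, Real.norm_eq_abs, abs_of_pos hsN, ← mul_sub_one, abs_mul,
      abs_of_pos hsN, mul_comm η]
    gcongr
    have e3 := (abs_norm_sub_norm_le _ _).trans this
    rw [norm_ee] at e3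
    refine e3.trans (le_trans ?_ hN2)
    rw [mul_one, mul_div_assoc _ π]
    have : (2 * L + 1) * N / b ≤ (2 * L + 1) * 8 / η :=
      calc (2 * L + 1) * N / b ≤ (2 * L + 1) * N / (η * N / 8) := by gcongr
        _ = _ := by field_simp
    gcongr

/-- statement of the rounding lemma -/
def Rounding : Prop := ∃ C : ℝ, 0 < C ∧ ∀ (D : ℕ) (c : ℕ → ℂ) (b : ℕ → ℝ) (s : ℝ),
  (∀ k, ‖c k‖ ≤ 1) → (∀ k, 0 ≤ b k ∧ b k ≤ 1) → 0 ≤ s →
  ∑ k ∈ range D, min (b k) (1 - b k) ≤ s ^ 6 * D → ∃ σ : ℕ → ℝ, (∀ k, σ k = 0 ∨ σ k = 1) ∧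
    (∀ k, b k = 0 → σ k = 0) ∧ (∀ k, b k = 1 → σ k = 1) ∧
    ∀ θ : ℝ, ‖∑ k ∈ range D, ((σ k - b k : ℝ) : ℂ) * c k * ee (k * θ)‖ ≤ C * s * √D + 1

lemma final (hR : Rounding)
    (ha : ∀ η : ℝ, 0 < η → η ≤ 1 / 6 → ∀ᶠ N : ℕ in atTop, ∃ a : ℕ → ℝ, (∀ k, |a k| ≤ 1 + 14 * η) ∧
      ∀ θ : ℝ, |‖∑ k ∈ range N, (a k : ℂ) * ee (k * θ)‖ - √N| ≤ η * √N) {c : ℝ} (hc : 0 < c) :
    ∀ᶠ N : ℕ in atTop, ∃ e : ℕ → ℝ, (∀ k, e k = 1 ∨ e k = -1) ∧
      ∀ θ : ℝ, |‖∑ k ∈ range N, (e k : ℂ) * ee (k * θ)‖ - √N| ≤ c * √N := by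
  obtain ⟨C, hC, hR⟩ := hR
  set s := c / (8 * C) with hs
  have hs0 : 0 < s := by positivity
  obtain ⟨η, hη, hη1, hη2, hη3⟩ : ∃ η : ℝ, 0 < η ∧ η ≤ 1 / 6 ∧ 30 * η ≤ s ^ 6 ∧ 30 * η ≤ c := by
    refine ⟨min (1 / 6) (min (s ^ 6 / 30) (c / 30)), by positivity, min_le_left _ _, ?_, ?_⟩
    · have := (min_le_right (1 / 6) _).trans (min_le_left (s ^ 6 / 30) (c / 30)); linarith
    · have := (min_le_right (1 / 6) _).trans (min_le_right (s ^ 6 / 30) (c / 30)); linarith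
  filter_upwards [ha η hη hη1, ev_div_sqrt 8 one_pos hc, eventually_gt_atTop 0] with N
    ⟨a, h1, h2⟩ hN1 hN0
  have hN : (0:ℝ) < N := by exact_mod_cast hN0
  have hsN : 0 < √(N:ℝ) := Real.sqrt_pos.2 hN
  set A := 1 + 14 * η with hA
  have hA1 : 1 ≤ A := by linarith
  have hA0 : 0 < A := by linarith
  have ha' : ∀ k, |a k / A| ≤ 1 := fun k => by
    rw [abs_div, abs_of_pos hA0]; exact (div_le_one hA0).2 (h1 k)
  have hpar : (1 - η) ^ 2 * N ≤ ∑ k ∈ range N, a k ^ 2 := by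
    have e1 := parseval N hN0 (range N) (fun k => k) (fun i hi j hj hij => by
      have := Int.eq_zero_of_abs_lt_dvd hij (by
        rw [Finset.mem_range] at hi hj; rw [abs_lt]; constructor <;> omega)
      omega) (fun k => a k)
    simp only [Complex.norm_real, Real.norm_eq_abs, sq_abs, Int.cast_natCast] at e1
    refine le_of_mul_le_mul_left ?_ hN
    rw [← e1]
    have := card_nsmul_le_sum (range N) (fun j : ℕ => ‖∑ i ∈ range N, (a i : ℂ) * ee (i * j / N)‖ ^ 2)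
      ((1 - η) ^ 2 * N) fun j _ => by
        have := (abs_le.1 (h2 (j / N))).1
        simp only [← mul_div_assoc] at this
        calc (1 - η) ^ 2 * N = ((1 - η) * √N) ^ 2 := by rw [mul_pow, Real.sq_sqrt hN.le]
          _ ≤ _ := by gcongr; exacts [mul_nonneg (by linarith) hsN.le, by linarith]
    simpa using this
  obtain ⟨σ, s1, -, -, s2⟩ := hR N (fun _ => 1) (fun k => (1 + a k / A) / 2) s (by simp)
    (fun k => by have := abs_le.1 (ha' k); constructor <;> linarith [this.1, this.2]) hs0.le (by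
      calc _ ≤ ∑ k ∈ range N, (1 - (a k / A) ^ 2) := sum_le_sum fun k _ => by
            have := abs_le.1 (ha' k)
            rcases le_total 0 (a k / A) with h | h
            · exact (min_le_right _ _).trans (by nlinarith)
            · exact (min_le_left _ _).trans (by nlinarith)
        _ = N - (∑ k ∈ range N, a k ^ 2) / A ^ 2 := by
            simp [sum_sub_distrib, div_pow, sum_div]
        _ ≤ N - (1 - η) ^ 2 * N / A ^ 2 := by gcongr
        _ = (1 - ((1 - η) / A) ^ 2) * N := by rw [div_pow]; ring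
        _ ≤ _ := by
            gcongr
            have e1 : 1 - 15 * η ≤ (1 - η) / A := by rw [le_div_iff₀ hA0, hA]; nlinarith
            have e2 : 0 ≤ (1 - η) / A := div_nonneg (by linarith) hA0.le
            nlinarith)
  refine ⟨fun k => 2 * σ k - 1, fun k => ?_, fun θ => ?_⟩
  · rcases s1 k with h | h <;> simp only [h] <;> norm_num
  · have e1 : ∑ k ∈ range N, ((2 * σ k - 1 : ℝ) : ℂ) * ee (k * θ) =
        ((A⁻¹ : ℝ) : ℂ) * ∑ k ∈ range N, (a k : ℂ) * ee (k * θ) +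
        2 * ∑ k ∈ range N, ((σ k - (1 + a k / A) / 2 : ℝ) : ℂ) * 1 * ee (k * θ) := by
      rw [mul_sum, mul_sum, ← sum_add_distrib]
      exact sum_congr rfl fun k _ => by push_cast; ring
    rw [e1]
    have e2 := s2 θ
    have e3 := abs_le.1 (h2 θ)
    set S := ∑ k ∈ range N, (a k : ℂ) * ee (k * θ)
    set R := ∑ k ∈ range N, ((σ k - (1 + a k / A) / 2 : ℝ) : ℂ) * 1 * ee (k * θ)
    have e4 := abs_le.1 (abs_norm_sub_norm_le (((A⁻¹ : ℝ) : ℂ) * S + 2 * R) (((A⁻¹ : ℝ) : ℂ) * S))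
    rw [add_sub_cancel_left, norm_mul, norm_mul, Complex.norm_real, Real.norm_eq_abs,
      abs_of_pos (inv_pos.2 hA0), Complex.norm_two] at e4
    have e5 : C * s = c / 8 := by rw [hs]; field_simp
    have e6 : 8 ≤ c * √N := by rwa [mul_one, div_le_iff₀ hsN] at hN1
    have e7 : A⁻¹ * ‖S‖ ≤ ‖S‖ := mul_le_of_le_one_left (norm_nonneg _) (inv_le_one_of_one_le₀ hA1)
    have e8 : (1 - 15 * η) * √N ≤ A⁻¹ * ‖S‖ := by
      rw [le_inv_mul_iff₀ hA0, hA]
      nlinarith [mul_nonneg (mul_nonneg hη.le hη.le) hsN.le]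
    have e9 : 30 * η * √N ≤ c * √N := by gcongr
    have e10 : 0 ≤ η * √N := by positivity
    rw [e5] at e2
    rw [abs_le]
    constructor <;> linarith [e3.1, e3.2, e4.1, e4.2]

end Vale.Agent.P110
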