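import Vale.Agent.P110.Chirp

open Finset Complex Filter Topology
open scoped BigOperators ComplexConjugate Real

namespace Vale.Agent.P110

/-- sup bound of a real trigonometric polynomial -/
def Bd (Λ : Finset ℕ) (d : ℕ → ℂ) (B : ℝ) : Prop :=
  ∀ φ : ℝ, |(∑ l ∈ Λ, d l * ee (l * φ)).re| ≤ B

/-- multiplier of norm at most `A` -/
def Adm (Λ : Finset ℕ) (A : ℝ) (z : ℕ → ℂ) : Prop :=
  ∀ d B, Bd Λ d B → Bd Λ (fun l => d l * z l) (A * B)

variable {Λ : Finset ℕ}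

lemma Bd.nonneg {d : ℕ → ℂ} {B : ℝ} (h : Bd Λ d B) : 0 ≤ B := (abs_nonneg _).trans (h 0)

lemma Bd.coef {d : ℕ → ℂ} {B : ℝ} (h : Bd Λ d B) (h0 : ∀ l ∈ Λ, 0 < l) {l₀ : ℕ} (hl : l₀ ∈ Λ) :
    ‖d l₀‖ ≤ 2 * B := by
  set M := 2 * Λ.sup id + 1 with hM
  have hle : ∀ l ∈ Λ, l ≤ Λ.sup id := fun l hl => le_sup (f := id) hl
  have hM0 : 0 < M := by omega
  have hM' : (0:ℝ) < M := by exact_mod_cast hM0
  have e1 : ∑ j ∈ range M, ((2 * (∑ l ∈ Λ, d l * ee (l * (j / M))).re : ℝ) : ℂ) *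
      ee (-(l₀ * j / M)) = d l₀ * M := by
    have e2 : ∀ j : ℕ, ((2 * (∑ l ∈ Λ, d l * ee (l * (j / M))).re : ℝ) : ℂ) * ee (-(l₀ * j / M)) =
        ∑ l ∈ Λ, (d l * ee (((l : ℤ) - l₀ : ℤ) * j / M) +
          conj (d l) * ee ((-(l : ℤ) - l₀ : ℤ) * j / M)) := by
      intro j
      rw [← Complex.add_conj, map_sum, ← sum_add_distrib, sum_mul]
      refine sum_congr rfl fun l _ => ?_
      rw [map_mul, conj_ee, add_mul, mul_assoc, mul_assoc, ← ee_add, ← ee_add]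
      congr 3 <;> push_cast <;> ring
    simp only [e2]
    rw [sum_comm, ← sum_ite_eq_of_mem' Λ l₀ (fun l => d l * M) hl]
    refine sum_congr rfl fun l hl' => ?_
    have := hle l hl'
    have := hle l₀ hl
    have := h0 l hl'
    rw [sum_add_distrib, ← mul_sum, ← mul_sum, sum_ee_div M hM0, sum_ee_div M hM0,
      if_neg (c := _ ∣ -_ - _) fun hh => by
        have := Int.eq_zero_of_abs_lt_dvd hh (by rw [abs_lt]; constructor <;> omega)
        omega, mul_zero, add_zero]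
    by_cases hh : l = l₀
    · simp [hh]
    · rw [if_neg hh, if_neg fun hd => hh (by
        have := Int.eq_zero_of_abs_lt_dvd hd (by rw [abs_lt]; constructor <;> omega)
        omega), mul_zero]
  have e3 := congrArg norm e1
  rw [norm_mul, Complex.norm_natCast] at e3
  refine le_of_mul_le_mul_right ?_ hM'
  rw [← e3]
  refine (norm_sum_le _ _).trans ((sum_le_card_nsmul _ _ (2 * B) fun j _ => ?_).trans
    (by simp [mul_comm]))
  rw [norm_mul, norm_ee, mul_one, Complex.norm_real, Real.norm_eq_abs, abs_mul, abs_two]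
  have := h (j / M)
  linarith

lemma Bd.perturb {d e : ℕ → ℂ} {B E : ℝ} (h : Bd Λ d B) (he : ∑ l ∈ Λ, ‖e l - d l‖ ≤ E) :
    Bd Λ e (B + E) := by
  intro φ
  have : ∑ l ∈ Λ, e l * ee (l * φ) = ∑ l ∈ Λ, d l * ee (l * φ) + ∑ l ∈ Λ, (e l - d l) * ee (l * φ) := by
    rw [← sum_add_distrib]; exact sum_congr rfl fun l _ => by ring
  rw [this, Complex.add_re]
  refine (abs_add_le _ _).trans (add_le_add (h φ) ((Complex.abs_re_le_norm _).trans
    ((norm_sum_le _ _).trans ?_)))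
  simpa using he

lemma adm_ee (φ₀ : ℝ) : Adm Λ 1 fun l => ee (l * φ₀) := by
  intro d B h φ
  have := h (φ₀ + φ)
  simpa only [one_mul, mul_add, ee_add, mul_assoc] using this

lemma adm_ind {m : ℕ} (hm : 0 < m) : Adm Λ 1 fun l => if m ∣ l then 1 else 0 := by
  intro d B h φ
  have hm' : (0:ℝ) < m := by exact_mod_cast hm
  have e1 : ∑ t ∈ range m, ∑ l ∈ Λ, d l * ee (l * (t / m + φ)) =
      (m : ℝ) * ∑ l ∈ Λ, d l * (if m ∣ l then 1 else 0) * ee (l * φ) := by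
    rw [sum_comm, mul_sum]
    refine sum_congr rfl fun l _ => ?_
    have := sum_ee_div m hm l
    simp only [Int.natCast_dvd_natCast, Int.cast_natCast] at this
    simp only [mul_add, ee_add, ← mul_div_assoc, ← mul_sum, ← sum_mul, this]
    split_ifs <;> simp; ring
  have e2 := congrArg Complex.re e1
  rw [Complex.re_ofReal_mul, Complex.re_sum] at e2
  refine le_of_mul_le_mul_left ?_ hm'
  rw [← abs_of_pos hm', ← abs_mul, ← e2, abs_of_pos hm']
  exact (abs_sum_le_sum_abs _ _).trans ((sum_le_card_nsmul _ _ B fun j _ => h _).trans (by simp))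

lemma Adm.congr {A : ℝ} {z z' : ℕ → ℂ} (h : Adm Λ A z) (hz : ∀ l ∈ Λ, z' l = z l) : Adm Λ A z' := by
  intro d B hd φ
  have : ∑ l ∈ Λ, d l * z' l * ee (l * φ) = ∑ l ∈ Λ, d l * z l * ee (l * φ) :=
    sum_congr rfl fun l hl => by rw [hz l hl]
  simp only [this]
  exact h d B hd φ

lemma Adm.mul {A A' : ℝ} {z z' : ℕ → ℂ} (h : Adm Λ A z) (h' : Adm Λ A' z') :
    Adm Λ (A' * A) fun l => z l * z' l := by
  intro d B hd
  simpa only [mul_assoc] using h' _ _ (h d B hd)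

lemma Adm.prod {γ : Type*} (s : Finset γ) {A : ℝ} {z : γ → ℕ → ℂ} (h : ∀ j, Adm Λ A (z j)) :
    Adm Λ (A ^ s.card) fun l => ∏ j ∈ s, z j l := by
  classical
  induction s using Finset.induction_on with
  | empty => intro d B hd; simpa using hd
  | insert a s ha ih =>
    rw [card_insert_of_notMem ha, pow_succ]
    simpa only [prod_insert ha] using (h a).mul ih

lemma Adm.near (h0 : ∀ l ∈ Λ, 0 < l) {w z : ℕ → ℂ} (h : Adm Λ 1 w) {r e : ℝ} (hr : 0 ≤ r ∧ r ≤ 1)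
    (he : ∀ l ∈ Λ, ‖z l - r * w l‖ ≤ e) : Adm Λ (1 + 2 * Λ.card * e) z := by
  intro d B hd
  have hB := hd.nonneg
  have h1 : Bd Λ (fun l => d l * (r * w l)) B := by
    intro φ
    have := h d B hd φ
    have e1 : ∑ l ∈ Λ, d l * (r * w l) * ee (l * φ) = r * ∑ l ∈ Λ, d l * w l * ee (l * φ) := by
      rw [mul_sum]; exact sum_congr rfl fun l _ => by ring
    rw [e1, Complex.re_ofReal_mul, abs_mul, abs_of_nonneg hr.1]
    nlinarith [abs_nonneg (∑ l ∈ Λ, d l * w l * ee (l * φ)).re]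
  have := h1.perturb (e := fun l => d l * z l) (E := Λ.card * (2 * B * e)) (by
    rw [← nsmul_eq_mul]
    refine sum_le_card_nsmul _ _ _ fun l hl => ?_
    rw [← mul_sub, norm_mul]
    have := hd.coef h0 hl
    gcongr; exact he l hl)
  convert this using 1; ring

lemma chars {q m : ℕ} (hq : q.Prime) (hm : m ∣ q - 1) (hm0 : 0 < m) :
    ∃ (T : ℕ → Finset ℕ) (ω : ℕ → ℕ → ℂ),
      (∀ l, ∀ t ∈ T l, t < q ∧ (t = 0 ↔ m ∣ l) ∧ ‖ω l t‖ = if m ∣ l then 1 else 1 / √q) ∧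
      (∀ l, (T l).card = if m ∣ l then 1 else q - 1) ∧
      ∀ x : ℤ, Adm Λ 1 fun l => ∑ t ∈ T l, ω l t * ee (t * x / q) := by
  haveI := Fact.mk hq
  obtain ⟨χ, hχ⟩ := MulChar.exists_mulChar_orderOf (ZMod q) (R := ℂ) (n := m)
    (by rwa [ZMod.card]) (Complex.isPrimitiveRoot_exp m hm0.ne')
  have hnorm : ∀ (χ' : MulChar (ZMod q) ℂ) (a : ZMod q), a ≠ 0 → ‖χ' a‖ = 1 := fun χ' a ha =>
    DirichletCharacter.unit_norm_eq_one χ' (Units.mk0 a ha)
  set ψ := ZMod.stdAddChar (N := q)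
  have hG : ∀ l, ¬ m ∣ l → ‖gaussSum (χ ^ l)⁻¹ ψ‖ = √q := by
    intro l hl
    have h1 : (χ ^ l)⁻¹ ≠ 1 := by
      rw [ne_eq, inv_eq_one, ← orderOf_dvd_iff_pow_eq_one, hχ]; exact hl
    have h2 := gaussSum_mul_gaussSum_eq_card h1 (ZMod.isPrimitive_stdAddChar q)
    rw [← star_gaussSum_eq, ZMod.card] at h2
    have h3 := congrArg norm h2
    rw [norm_mul, norm_star, Complex.norm_natCast] at h3
    rw [← h3, Real.sqrt_mul_self (norm_nonneg _)]
  refine ⟨fun l => if m ∣ l then {0} else Ico 1 q,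
    fun l t => if m ∣ l then 1 else (χ ^ l)⁻¹ t / gaussSum (χ ^ l)⁻¹ ψ, fun l t ht => ?_,
    fun l => ?_, fun x => ?_⟩
  · by_cases h : m ∣ l
    · simp only [h, if_true, mem_singleton] at ht ⊢
      exact ⟨ht ▸ hq.pos, by simp [ht], by simp⟩
    · simp only [h, if_false, mem_Ico] at ht ⊢
      refine ⟨ht.2, by simp; omega, ?_⟩
      rw [norm_div, hG l h, hnorm]
      rw [ne_eq, ZMod.natCast_eq_zero_iff]
      exact Nat.not_dvd_of_pos_of_lt ht.1 ht.2
  · by_cases h : m ∣ l <;> simp [h]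
  · have key : ∀ l, ¬ m ∣ l → ∑ t ∈ Ico 1 q, (χ ^ l)⁻¹ t / gaussSum (χ ^ l)⁻¹ ψ * ee (t * x / q) =
        (χ ^ l) x := by
      intro l hl
      have h1 : (χ ^ l)⁻¹ ≠ 1 := by
        rw [ne_eq, inv_eq_one, ← orderOf_dvd_iff_pow_eq_one, hχ]; exact hl
      have hG0 : gaussSum (χ ^ l)⁻¹ ψ ≠ 0 := by
        rw [← norm_ne_zero_iff, hG l hl]; exact (Real.sqrt_pos.2 (by exact_mod_cast hq.pos)).ne'
      have h2 : ∑ t ∈ Ico 1 q, (χ ^ l)⁻¹ t * ee (t * x / q) =
          gaussSum (χ ^ l)⁻¹ (ψ.mulShift x) := by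
        have h3 : ∑ t ∈ range q, (χ ^ l)⁻¹ t * ee (t * x / q) =
            ∑ t ∈ Ico 1 q, (χ ^ l)⁻¹ t * ee (t * x / q) := by
          rw [range_eq_Ico, sum_eq_sum_Ico_succ_bot hq.pos]; simp [MulChar.map_zero]
        rw [← h3, gaussSum]
        refine sum_nbij' (fun t => (t : ZMod q)) ZMod.val (by simp) (fun a _ => by
          simpa using ZMod.val_lt a) (fun t ht => ZMod.val_cast_of_lt (by simpa using ht))
          (by simp) fun t _ => ?_
        congr 1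
        rw [AddChar.mulShift_apply, show (x : ZMod q) * (t : ZMod q) = ((x * t : ℤ) : ZMod q) by
          push_cast; rfl, ZMod.stdAddChar_coe, ee]
        congr 1; push_cast; ring
      simp only [div_mul_eq_mul_div, ← sum_div]
      rw [h2, div_eq_iff hG0]
      by_cases hx : (x : ZMod q) = 0
      · rw [hx, AddChar.mulShift_zero, MulChar.map_zero, zero_mul, gaussSum]
        simpa using MulChar.sum_eq_zero_of_ne_one h1
      · simpa using gaussSum_mulShift_eq (χ ^ l)⁻¹ ψ (Units.mk0 _ hx)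
    by_cases hx : (x : ZMod q) = 0
    · refine (adm_ind hm0).congr fun l _ => ?_
      by_cases h : m ∣ l
      · simp [h]
      · simp only [h, if_false]; rw [key l h, hx, MulChar.map_zero]
    · obtain ⟨φ, hφ⟩ := exists_polar (χ x)
      rw [hnorm _ _ hx, Complex.ofReal_one, one_mul] at hφ
      have h4 : ∀ l : ℕ, (χ ^ l) x = ee (l * φ) := fun l => by
        rw [ee_nat_mul, ← hφ]; exact MulChar.pow_apply_coe χ l (Units.mk0 _ hx)
      refine (adm_ee φ).congr fun l _ => ?_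
      by_cases h : m ∣ l <;> simp only [h, if_true, if_false]
      · rw [← h4, orderOf_dvd_iff_pow_eq_one.1 (hχ ▸ h)]
        simpa using (MulChar.one_apply_coe (R' := ℂ) (Units.mk0 _ hx)).symm
      · rw [key l h, h4]

lemma gadget (hR : Rounding) (h0 : ∀ l ∈ Λ, 0 < l) {q m : ℕ} (hq : q.Prime) (hm : m ∣ q - 1)
    (hm0 : 0 < m) {ε : ℝ} (hε : 0 < ε) (hε1 : ε ≤ 1) :
    ∃ (M : ℕ) (S : ℕ → Finset (Σ _ : ℕ, ℕ)) (c : ℕ → (Σ _ : ℕ, ℕ) → ℂ) (fr : (Σ _ : ℕ, ℕ) → ℤ),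
      0 < M ∧ (∀ l ∈ Λ, Set.InjOn fr (S l)) ∧
      (∀ l ∈ Λ, ∀ n ∈ S l, ((q : ℤ) ∣ fr n ↔ m ∣ l) ∧
        ‖c l n‖ ^ 2 = 1 / (l * M) * if m ∣ l then 1 else 1 / (q : ℝ)) ∧
      (∀ l ∈ Λ, (1 - 1 / q) * (1 - ε) ≤
        (S l).card * (1 / (l * M) * if m ∣ l then 1 else 1 / (q : ℝ))) ∧
      ∀ y : ℝ, Adm Λ (1 + ε) fun l => ∑ n ∈ S l, c l n * ee (fr n * y) := by
  obtain ⟨T, ω, hT, hTc, hTa⟩ := chars (Λ := Λ) hq hm hm0
  have hq0 : (0:ℝ) < q := by exact_mod_cast hq.pos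
  have hq1 : (1:ℝ) ≤ q := by exact_mod_cast hq.pos
  obtain ⟨e, he⟩ : ∃ e : ℝ, e = ε / ((2 * Λ.card + 1) * q) := ⟨_, rfl⟩
  have he0 : 0 < e := by rw [he]; positivity
  have he2 : (2 * Λ.card + 1) * (q * e) = ε := by rw [he]; field_simp
  have he1 : e ≤ ε := he ▸ div_le_self hε.le (one_le_mul_of_one_le_of_one_le
    (by linarith [Nat.cast_nonneg (α := ℝ) Λ.card]) hq1)
  obtain ⟨ρ, hρ, hD⟩ := chirp_round hR he0
  obtain ⟨D₀, hD⟩ := eventually_atTop.1 hD
  set M := 2 * (D₀ + 1) with hM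
  have hM0 : 0 < M := by omega
  have hM' : (0:ℝ) < M := by exact_mod_cast hM0
  have key : ∀ l t : ℕ, ∃ (A : Finset ℕ) (c : ℕ → ℂ), l ∈ Λ → t < q →
      (1 - e) * (l * M : ℕ) ≤ A.card ∧ (∀ n, ‖c n‖ = 1) ∧ ∀ Y ∈ Set.Ico (0:ℝ) 1,
        ‖∑ n ∈ A, c n * ee ((n + t / q) * Y) - (√(l * M : ℕ) : ℝ) *
          (ρ Y * ee ((l * M : ℕ) * Y ^ 2 / 2))‖ ≤ e * √(l * M : ℕ) := by
    intro l t
    by_cases h : l ∈ Λ ∧ t < q
    · obtain ⟨A, c, hA⟩ := hD (l * M) (by have := h0 l h.1; nlinarith)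
        (Even.mul_left (even_two_mul _) _) (t / q) ⟨by positivity,
          (div_le_one hq0).2 (by exact_mod_cast h.2.le)⟩
      exact ⟨A, c, fun _ _ => hA⟩
    · exact ⟨∅, 0, fun h1 h2 => (h ⟨h1, h2⟩).elim⟩
  choose A c hA using key
  refine ⟨M, fun l => (T l).sigma (A l), fun l n => ω l n.1 * c l n.1 n.2 / (√(l * M : ℕ) : ℝ),
    fun n => q * n.2 + n.1, hM0, fun l hl => ?_, fun l hl n hn => ⟨?_, ?_⟩, fun l hl => ?_,
    fun y => ?_⟩
  · rintro ⟨t, n⟩ h1 ⟨t', n'⟩ h2 h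
    have h1 := (hT l t (mem_sigma.1 h1).1).1
    have h2 := (hT l t' (mem_sigma.1 h2).1).1
    have h3 : q * n + t = q * n' + t' := by simp only at h; exact_mod_cast h
    have h4 := congrArg (· % q) h3
    simp only [Nat.mul_add_mod, Nat.mod_eq_of_lt h1, Nat.mod_eq_of_lt h2] at h4
    subst h4
    have := Nat.eq_of_mul_eq_mul_left hq.pos (Nat.add_right_cancel h3)
    subst this; rfl
  · obtain ⟨h1, h2, -⟩ := hT l n.1 (mem_sigma.1 hn).1
    rw [← h2, dvd_add_right (dvd_mul_right _ _), Int.natCast_dvd_natCast]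
    exact ⟨fun h => Nat.eq_zero_of_dvd_of_lt h h1, fun h => h ▸ dvd_zero _⟩
  · obtain ⟨h1, -, h3⟩ := hT l n.1 (mem_sigma.1 hn).1
    rw [norm_div, norm_mul, h3, (hA l n.1 hl h1).2.1, Complex.norm_real, Real.norm_eq_abs, div_pow,
      sq_abs, Real.sq_sqrt (Nat.cast_nonneg _)]
    push_cast
    split_ifs
    · ring
    · rw [mul_one, div_pow, Real.sq_sqrt hq0.le]; ring
  · have hl0 : (0:ℝ) < l := by exact_mod_cast h0 l hl
    have h1 : (T l).card * ((1 - ε) * (l * M)) ≤ (((T l).sigma (A l)).card : ℝ) := by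
      rw [card_sigma, Nat.cast_sum, ← nsmul_eq_mul]
      refine card_nsmul_le_sum _ _ _ fun t ht => le_trans ?_ (hA l t hl (hT l t ht).1).1
      push_cast; gcongr
    refine le_trans ?_ (mul_le_mul_of_nonneg_right h1 (by split_ifs <;> positivity))
    rw [hTc]
    split_ifs
    · have : 0 ≤ 1 / (q:ℝ) * (1 - ε) := mul_nonneg (by positivity) (by linarith)
      calc _ ≤ 1 - ε := by linarith
        _ = _ := by push_cast; field_simp
    · rw [Nat.cast_sub hq.pos]; exact le_of_eq (by push_cast; field_simp)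
  · set x := ⌊q * y⌋
    set Y := Int.fract (q * y)
    have hY : Y ∈ Set.Ico (0:ℝ) 1 := ⟨Int.fract_nonneg _, Int.fract_lt_one _⟩
    have hxy : q * y = x + Y := (Int.floor_add_fract _).symm
    have hw := ((hTa x).mul (adm_ee (M * Y ^ 2 / 2)))
    rw [mul_one] at hw
    have := hw.near h0 (hρ Y) (e := q * e) (z := fun l => ∑ n ∈ (T l).sigma (A l),
      ω l n.1 * c l n.1 n.2 / (√(l * M : ℕ) : ℝ) * ee ((q * n.2 + n.1 : ℤ) * y)) fun l hl => by
        have hl0 : (0:ℝ) < (l * M : ℕ) := by exact_mod_cast Nat.mul_pos (h0 l hl) hM0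
        have hs : 0 < √(l * M : ℕ) := Real.sqrt_pos.2 hl0
        have hs' : ((√(l * M : ℕ) : ℝ) : ℂ) ≠ 0 := by exact_mod_cast hs.ne'
        rw [sum_sigma, sum_mul, mul_sum, ← sum_sub_distrib]
        refine (norm_sum_le _ _).trans ((sum_le_card_nsmul _ _ e fun t ht => ?_).trans ?_)
        · obtain ⟨h1, -, h3⟩ := hT l t ht
          have e1 : ∑ n ∈ A l t, ω l t * c l t n / (√(l * M : ℕ) : ℝ) * ee ((q * n + t : ℤ) * y) -
              ρ Y * (ω l t * ee (t * x / q) * ee (l * (M * Y ^ 2 / 2))) =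
              ω l t * ee (t * x / q) / (√(l * M : ℕ) : ℝ) * (∑ n ∈ A l t, c l t n *
                ee ((n + t / q) * Y) - (√(l * M : ℕ) : ℝ) * (ρ Y * ee ((l * M : ℕ) * Y ^ 2 / 2))) := by
            rw [mul_sub, mul_sum]
            congr 1
            · refine sum_congr rfl fun n _ => ?_
              have : ee ((q * n + t : ℤ) * y) = ee (t * x / q) * ee ((n + t / q) * Y) := by
                rw [← ee_add, ← ee_add_int (_ + _) (n * x)]; congr 1
                have : y = (x + Y) / q := by rw [← hxy]; field_simp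
                rw [this]; push_cast; field_simp; ring
              rw [this]; ring
            · rw [show ((l * M : ℕ) : ℝ) * Y ^ 2 / 2 = l * (M * Y ^ 2 / 2) by push_cast; ring]
              field_simp
          rw [e1, norm_mul, norm_div, norm_mul, norm_ee, mul_one, Complex.norm_real,
            Real.norm_eq_abs, abs_of_pos hs]
          have h4 : ‖ω l t‖ ≤ 1 := by
            rw [h3]; split_ifs
            · rfl
            · exact (div_le_one (Real.sqrt_pos.2 hq0)).2 (Real.one_le_sqrt.2 hq1)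
          calc _ ≤ 1 / √(l * M : ℕ) * (e * √(l * M : ℕ)) := by
                gcongr; exact (hA l t hl h1).2.2 Y hY
            _ = e := by field_simp
        · rw [nsmul_eq_mul]
          refine mul_le_mul_of_nonneg_right (Nat.cast_le.2 ?_) he0.le
          rw [hTc]; have := hq.pos; split_ifs <;> omega
    intro d B hd φ
    refine (this d B hd φ).trans (mul_le_mul_of_nonneg_right ?_ hd.nonneg)
    nlinarith [mul_pos hq0 he0]

end Vale.Agent.P110
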