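import Mathlib

namespace Vale.Agent.P110

open Finset

lemma pk_avoid {κ : Type} [Fintype κ] (w0 : κ → ℤ) (T : Finset (κ → ℤ))
    (h : ∀ w ∈ T, ∃ y, w0 ⬝ᵥ y = 0 ∧ w ⬝ᵥ y ≠ 0) :
    ∃ x, w0 ⬝ᵥ x = 0 ∧ ∀ w ∈ T, w ⬝ᵥ x ≠ 0 := by
  classical
  induction T using Finset.induction_on with
  | empty => exact ⟨0, by simp, by simp⟩
  | insert w T hw ih =>
    obtain ⟨x, hx0, hx⟩ := ih fun w' hw' => h w' (mem_insert_of_mem hw')
    obtain ⟨y, hy0, hy⟩ := h w (mem_insert_self _ _)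
    by_cases hwx : w ⬝ᵥ x = 0
    · refine ⟨(1 + ∑ w' ∈ T, |w' ⬝ᵥ y|) • x + y, ?_, ?_⟩
      · rw [dotProduct_add, dotProduct_smul, hx0, hy0]; simp
      · intro w' hw'
        rw [dotProduct_add, dotProduct_smul, smul_eq_mul]
        rcases mem_insert.1 hw' with rfl | hw'
        · rw [hwx]; simpa using hy
        · intro h0
          have h1 : |w' ⬝ᵥ y| ≤ ∑ w' ∈ T, |w' ⬝ᵥ y| :=
            single_le_sum (f := fun w' => |w' ⬝ᵥ y|) (fun _ _ => abs_nonneg _) hw'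
          have h2 : w' ⬝ᵥ y = -((1 + ∑ w' ∈ T, |w' ⬝ᵥ y|) * (w' ⬝ᵥ x)) := by linarith
          have h3 : 1 ≤ |w' ⬝ᵥ x| := Int.one_le_abs (hx w' hw')
          have h4 : 0 ≤ ∑ w' ∈ T, |w' ⬝ᵥ y| := sum_nonneg fun _ _ => abs_nonneg _
          have h5 : |w' ⬝ᵥ y| = (1 + ∑ w' ∈ T, |w' ⬝ᵥ y|) * |w' ⬝ᵥ x| := by
            nth_rewrite 1 [h2]
            rw [abs_neg, abs_mul, abs_of_nonneg (by linarith)]
          nlinarith
    · refine ⟨x, hx0, fun w' hw' => ?_⟩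
      rcases mem_insert.1 hw' with rfl | hw'
      · exact hwx
      · exact hx w' hw'

lemma pk_dirs {ι κ : Type} [Fintype ι] [Fintype κ] (v : ι → κ → ℤ) (h0 : ∀ i, v i ≠ 0)
    (hv : ∀ i i', i ≠ i' → ∃ a b, v i a * v i' b ≠ v i b * v i' a) :
    ∃ (u : κ → ℤ) (U : ι → κ → ℤ), (∀ i, v i ⬝ᵥ u ≠ 0) ∧
      (∀ i j, i ≠ j → v i ⬝ᵥ u - v j ⬝ᵥ u ≠ 0 ∧ v i ⬝ᵥ u + v j ⬝ᵥ u ≠ 0) ∧
      (∀ i, v i ⬝ᵥ U i = 0) ∧ ∀ i j, i ≠ j → v j ⬝ᵥ U i ≠ 0 := by
  classical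
  have hne : ∀ w : κ → ℤ, w ≠ 0 → ∃ y, (0 : κ → ℤ) ⬝ᵥ y = 0 ∧ w ⬝ᵥ y ≠ 0 := fun w hw =>
    ⟨w, by simp, fun h => hw (dotProduct_self_eq_zero.1 h)⟩
  obtain ⟨u, -, hu⟩ := pk_avoid 0 (univ.image v ∪
      ((univ.filter fun x : ι × ι => x.1 ≠ x.2).image (fun x => v x.1 - v x.2) ∪
       (univ.filter fun x : ι × ι => x.1 ≠ x.2).image (fun x => v x.1 + v x.2))) (by
    intro w hw
    apply hne
    simp only [mem_union, mem_image, mem_univ, true_and, mem_filter] at hw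
    rcases hw with ⟨i, rfl⟩ | ⟨x, hx, rfl⟩ | ⟨x, hx, rfl⟩
    · exact h0 i
    · obtain ⟨a, b, hab⟩ := hv _ _ hx
      intro h
      rw [sub_eq_zero] at h
      rw [h] at hab
      exact hab (mul_comm _ _)
    · obtain ⟨a, b, hab⟩ := hv _ _ hx
      intro h
      rw [add_eq_zero_iff_eq_neg] at h
      rw [h] at hab
      apply hab
      simp [mul_comm])
  have hU : ∀ i, ∃ x, v i ⬝ᵥ x = 0 ∧ ∀ w ∈ (univ.filter fun j => i ≠ j).image v, w ⬝ᵥ x ≠ 0 := by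
    intro i
    apply pk_avoid
    intro w hw
    simp only [mem_image, mem_filter, mem_univ, true_and] at hw
    obtain ⟨j, hj, rfl⟩ := hw
    obtain ⟨a, b, hab⟩ := hv _ _ hj
    refine ⟨Pi.single b (v i a) - Pi.single a (v i b), ?_, ?_⟩
    · simp [dotProduct_sub, mul_comm]
    · simp only [dotProduct_sub, dotProduct_single]
      intro h
      apply hab
      linarith
  choose U hU1 hU2 using hU
  refine ⟨u, U, fun i => hu _ (by simp), fun i j hij => ⟨?_, ?_⟩, hU1,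
    fun i j hij => hU2 i _ (mem_image_of_mem _ (by simpa using hij))⟩
  · rw [← sub_dotProduct]
    exact hu _ (mem_union_right _ (mem_union_left _
      (mem_image_of_mem (fun x : ι × ι => v x.1 - v x.2) (a := (i, j)) (by simpa using hij))))
  · rw [← add_dotProduct]
    exact hu _ (mem_union_right _ (mem_union_right _
      (mem_image_of_mem (fun x : ι × ι => v x.1 + v x.2) (a := (i, j)) (by simpa using hij))))

lemma pk_crt {J : Type} [Finite J] (n : J → ℕ) (hn : Pairwise fun i j => (n i).Coprime (n j))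
    (r : J → ℤ) : ∃ x : ℤ, ∀ j, (n j : ℤ) ∣ x - r j := by
  obtain ⟨x, hx⟩ := Ideal.exists_forall_sub_mem_ideal (I := fun j => Ideal.span {(n j : ℤ)})
    (fun i j hij => by
      simp only [Function.onFun]
      rw [Ideal.isCoprime_span_singleton_iff]
      exact Nat.isCoprime_iff_coprime.2 (hn hij)) r
  exact ⟨x, fun j => Ideal.mem_span_singleton.1 (hx j)⟩

lemma pk_digits {L N p p' y y' : ℤ} (hp : 0 ≤ p) (hp1 : p < L) (hp' : 0 ≤ p') (hp1' : p' < L)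
    (h : L * N ∣ (p + L * y) - (p' + L * y')) : p = p' ∧ N ∣ y - y' := by
  have h1 : L ∣ p - p' := by
    have h2 : L ∣ (p + L * y) - (p' + L * y') := dvd_trans (dvd_mul_right _ _) h
    have h3 : p - p' = (p + L * y) - (p' + L * y') - L * (y - y') := by ring
    rw [h3]
    exact dvd_sub h2 (dvd_mul_right _ _)
  have h2 : p - p' = 0 := Int.eq_zero_of_abs_lt_dvd h1 (abs_lt.2 ⟨by linarith, by linarith⟩)
  refine ⟨by linarith, ?_⟩
  have h3 : (p + L * y) - (p' + L * y') = L * (y - y') := by linarith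
  rw [h3] at h
  exact (mul_dvd_mul_iff_left (by linarith)).1 h

lemma pk_code {ι : Type} [Fintype ι] (l : ι → ℕ) (hl : ∀ i, 0 < l i) (Y : ℕ) :
    ∃ code : ι → ℕ → Fin Y → ℕ, (∀ i o τ, code i o τ < (∑ i, l i) * Y) ∧
      ∀ i o τ i' o' τ', code i o τ = code i' o' τ' → i = i' ∧ τ = τ' ∧ o % l i = o' % l i := by
  classical
  let e := Fintype.equivFin ((Σ i, Fin (l i)) × Fin Y)
  refine ⟨fun i o τ => e (⟨i, ⟨o % l i, Nat.mod_lt _ (hl i)⟩⟩, τ), fun i o τ => ?_, ?_⟩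
  · refine lt_of_lt_of_eq (Fin.is_lt _) ?_
    simp
  · intro i o τ i' o' τ' h
    have h1 := e.injective (Fin.ext h)
    obtain ⟨h2, h3⟩ := Prod.mk.inj h1
    obtain ⟨rfl, h4⟩ := Sigma.mk.inj_iff.1 h2
    exact ⟨rfl, h3, by simpa using h4⟩

lemma pk_good {ι : Type} [Fintype ι] (p : ℕ) [Fact p.Prime] (l : ι → ℕ) (a : ι → ℤ)
    (ha : ∀ i, (a i : ZMod p) ≠ 0)
    (ha1 : ∀ i j, i ≠ j → (a i : ZMod p) - a j ≠ 0 ∧ (a i : ZMod p) + a j ≠ 0) :
    ∃ S : Finset (ZMod p × ZMod p),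
      p * p ≤ S.card + (∑ i, l i + 2 * Fintype.card ι ^ 2) * p ∧
      ∀ x ∈ S, (∀ i, (a i * x.1.val) % p + l i ≤ p) ∧
        Function.Injective fun i => ((a i : ZMod p) * x.2 + ((a i * x.1.val) / p : ℤ)) *
          ((a i : ZMod p) * x.2 + ((a i * x.1.val) / p : ℤ) + 1) := by
  classical
  have hp : 0 < p := (Fact.out : p.Prime).pos
  let c : ι → ZMod p → ZMod p := fun i t => ((a i * t.val) / p : ℤ)
  let B1 : Finset (ZMod p × ZMod p) :=
    (univ : Finset ((Σ i, Fin (l i)) × ZMod p)).image fun z => (-(z.1.2.val : ZMod p) / a z.1.1, z.2)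
  let B2 : Finset (ZMod p × ZMod p) :=
    (univ : Finset ((ι × ι) × ZMod p)).image fun z =>
      (z.2, (c z.1.2 z.2 - c z.1.1 z.2) / (a z.1.1 - a z.1.2))
  let B3 : Finset (ZMod p × ZMod p) :=
    (univ : Finset ((ι × ι) × ZMod p)).image fun z =>
      (z.2, (-1 - c z.1.2 z.2 - c z.1.1 z.2) / (a z.1.1 + a z.1.2))
  refine ⟨(B1 ∪ (B2 ∪ B3))ᶜ, ?_, ?_⟩
  · have h1 : B1.card ≤ (∑ i, l i) * p := card_image_le.trans (by simp)
    have h2 : B2.card ≤ Fintype.card ι ^ 2 * p := card_image_le.trans (by simp [sq])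
    have h3 : B3.card ≤ Fintype.card ι ^ 2 * p := card_image_le.trans (by simp [sq])
    have h4 := card_add_card_compl (B1 ∪ (B2 ∪ B3))
    have h5 := card_union_le B1 (B2 ∪ B3)
    have h6 := card_union_le B2 B3
    simp only [Fintype.card_prod, ZMod.card] at h4
    nlinarith
  · intro x hx
    simp only [mem_compl, mem_union, not_or] at hx
    obtain ⟨hx1, hx2, hx3⟩ := hx
    constructor
    · intro i
      by_contra hlt
      apply hx1
      have h1 : 0 ≤ (a i * x.1.val) % p := Int.emod_nonneg _ (by omega)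
      have h2 : (a i * x.1.val) % p < p := Int.emod_lt_of_pos _ (by omega)
      refine mem_image.2 ⟨(⟨i, ⟨(p - (a i * x.1.val) % p).toNat, by omega⟩⟩, x.2), mem_univ _, ?_⟩
      refine Prod.ext ?_ rfl
      simp only
      rw [div_eq_iff (ha i)]
      have h3 : (((p - (a i * x.1.val) % p).toNat : ℕ) : ZMod p) =
          ((p - (a i * x.1.val) % p : ℤ) : ZMod p) := by
        rw [← Int.cast_natCast, Int.toNat_of_nonneg (by omega)]
      rw [h3]
      simp [mul_comm]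
    · intro i j hij
      by_contra hne
      simp only at hij
      have h1 : ((a i : ZMod p) * x.2 + c i x.1 - (a j * x.2 + c j x.1)) *
          ((a i : ZMod p) * x.2 + c i x.1 + (a j * x.2 + c j x.1) + 1) = 0 := by
        simp only [c]
        linear_combination hij
      rcases mul_eq_zero.1 h1 with h2 | h2
      · apply hx2
        refine mem_image.2 ⟨((i, j), x.1), mem_univ _, Prod.ext rfl ?_⟩
        simp only
        rw [div_eq_iff (ha1 i j hne).1]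
        linear_combination -h2
      · apply hx3
        refine mem_image.2 ⟨((i, j), x.1), mem_univ _, Prod.ext rfl ?_⟩
        simp only
        rw [div_eq_iff (ha1 i j hne).2]
        linear_combination -h2

lemma pk_small {n : ℕ} {x y : ℕ} (hx : x < n) (hy : y < n) (h : (n : ℤ) ∣ (x : ℤ) - y) : x = y := by
  have := Int.eq_zero_of_abs_lt_dvd h (abs_lt.2 ⟨by omega, by omega⟩)
  omega

lemma pk_core {ι κ : Type} [Fintype ι] [Fintype κ] (l : ι → ℕ) (hl : ∀ i, 0 < l i)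
    (v : ι → κ → ℤ) (u : κ → ℤ) (U : ι → κ → ℤ) (p : ℕ) [Fact p.Prime] (Y q : ℕ) [NeZero q]
    (Q : ZMod p → ℕ) (hQ : Pairwise fun m m' => (Q m).Coprime (Q m'))
    (hQp : ∀ m, p.Coprime (Q m)) (hQa : ∀ i m, IsCoprime (v i ⬝ᵥ u) (Q m))
    (hQU : ∀ i j m, i ≠ j → IsCoprime (v j ⬝ᵥ U i) (Q m)) (hU : ∀ i, v i ⬝ᵥ U i = 0)
    (hQY : ∀ m, 2 * ((∑ i, l i) * Y) ≤ Q m) (hq : ∀ m, q ≤ Q m)
    (ha : ∀ i, ((v i ⬝ᵥ u : ℤ) : ZMod p) ≠ 0) (S : Finset (ZMod p × ZMod p))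
    (hS : ∀ x ∈ S, (∀ i, ((v i ⬝ᵥ u) * x.1.val) % p + l i ≤ p) ∧
        Function.Injective fun i =>
          (((v i ⬝ᵥ u : ℤ) : ZMod p) * x.2 + (((v i ⬝ᵥ u) * x.1.val) / p : ℤ)) *
          (((v i ⬝ᵥ u : ℤ) : ZMod p) * x.2 + (((v i ⬝ᵥ u) * x.1.val) / p : ℤ) + 1))
    (σ : ZMod q) (T : Finset (ZMod p → ZMod q)) (hT : ∀ s ∈ T, ∑ m, s m = σ) :
    ∃ g : S × Fin Y × T → κ → ℤ,
      (∀ b i (j : ℕ) b' i' (j' : ℕ), j < l i → j' < l i' →
        ((p * (p * ∏ m, Q m) : ℕ) : ℤ) ∣ (v i ⬝ᵥ g b + j) - (v i' ⬝ᵥ g b' + j') →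
          (b, i) = (b', i')) ∧
      (∀ b i (j : ℕ) b' i' (j' : ℕ), j < l i → j' < l i' →
        ¬ ((p * (p * ∏ m, Q m) : ℕ) : ℤ) ∣ (v i ⬝ᵥ g b + j) + (v i' ⬝ᵥ g b' + j') + 1) := by
  classical
  have hp : 0 < p := (Fact.out : p.Prime).pos
  obtain ⟨code, hc1, hc2⟩ := pk_code l hl Y
  obtain ⟨a, hadef⟩ : ∃ a : ι → ℤ, ∀ i, a i = v i ⬝ᵥ u := ⟨_, fun _ => rfl⟩
  simp only [← hadef] at hS ha hQa
  obtain ⟨r, hr⟩ : ∃ r : S → ι → ℤ, ∀ x i, r x i = (a i * x.1.1.val) % p := ⟨_, fun _ _ => rfl⟩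
  obtain ⟨c, hc⟩ : ∃ c : S → ι → ℤ, ∀ x i, c x i = (a i * x.1.1.val) / p := ⟨_, fun _ _ => rfl⟩
  obtain ⟨y0, hy0⟩ : ∃ y0 : S → ι → ZMod p, ∀ x i, y0 x i = a i * x.1.2 + c x i :=
    ⟨_, fun _ _ => rfl⟩
  obtain ⟨m, hm⟩ : ∃ m : S → ι → ZMod p, ∀ x i, m x i = y0 x i * (y0 x i + 1) :=
    ⟨_, fun _ _ => rfl⟩
  have hr0 : ∀ x i, 0 ≤ r x i := fun x i => by
    rw [hr]; exact Int.emod_nonneg _ (by omega)
  have hr1 : ∀ x i, r x i + l i ≤ p := fun x i => by rw [hr]; exact (hS _ x.2).1 i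
  have hminj : ∀ x i j, m x i = m x j → i = j := fun x i j h => (hS _ x.2).2 (by
    simpa only [hm, hy0, hc] using h)
  have hrc : ∀ (x : S) i, a i * x.1.1.val = r x i + p * c x i := fun x i => by
    rw [hr, hc]; exact (Int.emod_add_mul_ediv _ _).symm
  have hdir : ∀ (x : S) (k : ZMod p), ∃ d : κ → ℤ, (∀ i, m x i = k → v i ⬝ᵥ d = 0) ∧
      ∀ i, m x i ≠ k → IsCoprime (v i ⬝ᵥ d) (Q k) := by
    intro x k
    by_cases h : ∃ i, m x i = k
    · obtain ⟨i, rfl⟩ := h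
      refine ⟨U i, fun j hj => ?_, fun j hj => hQU _ _ _ ?_⟩
      · rw [hminj _ _ _ hj]; exact hU i
      · rintro rfl; exact hj rfl
    · exact ⟨u, fun i hi => absurd ⟨i, hi⟩ h, fun i _ => hadef i ▸ hQa i k⟩
  choose dir hd1 hd2 using hdir
  have halpha : ∀ (x : S) (τ : Fin Y) (k : ZMod p), ∃ α : ℤ, ∀ i, m x i = k →
      (Q k : ℤ) ∣ c x i + a i * α - code i (r x i).toNat τ := by
    intro x τ k
    by_cases h : ∃ i, m x i = k
    · obtain ⟨i, rfl⟩ := h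
      obtain ⟨e, f, hef⟩ := hQa i (m x i)
      refine ⟨e * (code i (r x i).toNat τ - c x i), fun j hj => ?_⟩
      rw [hminj _ _ _ hj]
      refine ⟨-(f * (code i (r x i).toNat τ - c x i)), ?_⟩
      linear_combination (code i (r x i).toNat τ - c x i : ℤ) * hef
    · exact ⟨0, fun i hi => absurd ⟨i, hi⟩ h⟩
  choose α hα using halpha
  have hh : ∀ (b : S × Fin Y × T) (e : κ), ∃ h : ℤ, (p : ℤ) ∣ h - b.1.1.2.val * u e ∧
      ∀ k, (Q k : ℤ) ∣ h - (α b.1 b.2.1 k * u e + (b.2.2.1 k).val * dir b.1 k e) := by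
    intro b e
    obtain ⟨h, hh⟩ := pk_crt (fun o : Option (ZMod p) => o.elim p Q) (by
      rintro (_ | i) (_ | j) hij
      · exact absurd rfl hij
      · exact hQp j
      · exact (hQp i).symm
      · exact hQ fun h => hij (congrArg _ h))
      (fun o => o.elim (b.1.1.2.val * u e)
        fun k => α b.1 b.2.1 k * u e + (b.2.2.1 k).val * dir b.1 k e)
    exact ⟨h, hh none, fun k => hh (some k)⟩
  choose h hh1 hh2 using hh
  obtain ⟨y, hy⟩ : ∃ y : S × Fin Y × T → ι → ℤ, ∀ b i, y b i = c b.1 i + v i ⬝ᵥ h b :=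
    ⟨_, fun _ _ => rfl⟩
  have hdot : ∀ (n : ℤ) (w f f' : κ → ℤ), (∀ e, n ∣ f e - f' e) → n ∣ w ⬝ᵥ f - w ⬝ᵥ f' := by
    intro n w f f' hf
    rw [← dotProduct_sub]
    exact dvd_sum fun e _ => dvd_mul_of_dvd_right (hf e) _
  have hy1 : ∀ b i, (y b i : ZMod p) = y0 b.1 i := by
    intro b i
    have h1 := hdot p (v i) (h b) ((b.1.1.2.val : ℤ) • u) (hh1 b)
    rw [dotProduct_smul, ← hadef, ← ZMod.intCast_zmod_eq_zero_iff_dvd] at h1
    rw [hy, hy0]
    simp only [smul_eq_mul, Int.cast_sub, Int.cast_mul, Int.cast_natCast,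
      ZMod.natCast_zmod_val] at h1
    push_cast
    linear_combination h1
  have hy2 : ∀ b i k, (Q k : ℤ) ∣ y b i -
      (c b.1 i + a i * α b.1 b.2.1 k + (b.2.2.1 k).val * (v i ⬝ᵥ dir b.1 k)) := by
    intro b i k
    have h1 := hdot (Q k) (v i) (h b)
      (α b.1 b.2.1 k • u + ((b.2.2.1 k).val : ℤ) • dir b.1 k) (hh2 b · k)
    rw [dotProduct_add, dotProduct_smul, dotProduct_smul, ← hadef, smul_eq_mul, smul_eq_mul] at h1
    convert h1 using 1
    rw [hy]; ring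
  have hy3 : ∀ b i, (Q (m b.1 i) : ℤ) ∣ y b i - code i (r b.1 i).toNat b.2.1 := by
    intro b i
    have h1 := hy2 b i (m b.1 i)
    rw [hd1 _ _ i rfl] at h1
    exact (dvd_add h1 (hα b.1 b.2.1 _ i rfl)).trans (dvd_of_eq (by ring))
  have hg : ∀ b i, v i ⬝ᵥ ((b.1.1.1.val : ℤ) • u + (p : ℤ) • h b) = r b.1 i + p * y b i := by
    intro b i
    rw [dotProduct_add, dotProduct_smul, dotProduct_smul, ← hadef, smul_eq_mul, smul_eq_mul, hy]
    linear_combination hrc b.1 i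
  have hN : ∀ k, (Q k : ℤ) ∣ ((p * ∏ m, Q m : ℕ) : ℤ) := fun k =>
    Int.natCast_dvd_natCast.2 (Dvd.dvd.mul_left (dvd_prod_of_mem _ (mem_univ k)) _)
  have hN' : (p : ℤ) ∣ ((p * ∏ m, Q m : ℕ) : ℤ) := Int.natCast_dvd_natCast.2 (dvd_mul_right _ _)
  refine ⟨fun b => (b.1.1.1.val : ℤ) • u + (p : ℤ) • h b, ?_, ?_⟩
  · intro b i j b' i' j' hj hj' hdvd
    have e1 := hr0 b.1 i
    have e2 := hr1 b.1 i
    have e3 := hr0 b'.1 i'
    have e4 := hr1 b'.1 i'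
    rw [hg, hg, Nat.cast_mul] at hdvd
    obtain ⟨d1, d2⟩ := pk_digits (L := p) (N := ((p * ∏ m, Q m : ℕ) : ℤ)) (p := r b.1 i + j) (p' := r b'.1 i' + j') (y := y b i)
      (y' := y b' i') (by omega) (by omega) (by omega) (by omega) (by convert hdvd using 1; ring)
    have d3 : y0 b.1 i = y0 b'.1 i' := by
      rw [← hy1, ← hy1, ← sub_eq_zero, ← Int.cast_sub, ZMod.intCast_zmod_eq_zero_iff_dvd]
      exact hN'.trans d2
    have d4 : m b.1 i = m b'.1 i' := by rw [hm, hm, d3]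
    have d5 : code i (r b.1 i).toNat b.2.1 = code i' (r b'.1 i').toNat b'.2.1 := by
      have f1 := hQY (m b.1 i)
      have f2 := hc1 i (r b.1 i).toNat b.2.1
      have f3 := hc1 i' (r b'.1 i').toNat b'.2.1
      refine pk_small (n := Q (m b.1 i)) (by omega) (by omega) ?_
      have f4 := hy3 b' i'
      rw [← d4] at f4
      exact (dvd_add (dvd_sub ((hN _).trans d2) (hy3 b i)) f4).trans
        (dvd_of_eq (by ring))
    obtain ⟨rfl, d6, d7⟩ := hc2 _ _ _ _ _ _ d5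
    have d8 : r b.1 i = r b'.1 i := by
      have f1 : (l i : ℤ) ∣ ((r b'.1 i).toNat : ℤ) - (r b.1 i).toNat := (Nat.modEq_iff_dvd.1 d7)
      have := Int.eq_zero_of_abs_lt_dvd f1 (abs_lt.2 ⟨by omega, by omega⟩)
      omega
    have d9 : b.1.1.1 = b'.1.1.1 := by
      apply mul_left_cancel₀ (ha i)
      have f1 := congrArg (Int.cast : ℤ → ZMod p) (hrc b.1 i)
      have f2 := congrArg (Int.cast : ℤ → ZMod p) (hrc b'.1 i)
      simp only [Int.cast_mul, Int.cast_natCast, ZMod.natCast_zmod_val,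
        Int.cast_add, ZMod.natCast_self, zero_mul, add_zero] at f1 f2
      rw [f1, f2, d8]
    have d10 : b.1 = b'.1 := by
      refine Subtype.ext (Prod.ext d9 ?_)
      apply mul_left_cancel₀ (ha i)
      rw [hy0, hy0, hc, hc, d9] at d3
      exact add_right_cancel d3
    have d11 : ∀ k, k ≠ m b.1 i → b.2.2.1 k = b'.2.2.1 k := by
      intro k hk
      apply ZMod.val_injective
      refine pk_small (n := Q k) ((ZMod.val_lt _).trans_le (hq k))
        ((ZMod.val_lt _).trans_le (hq k)) ?_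
      refine (hd2 b.1 k i hk.symm).symm.dvd_of_dvd_mul_right ?_
      have f1 := hy2 b' i k
      rw [← d10, ← d6] at f1
      convert dvd_add (dvd_sub ((hN _).trans d2) (hy2 b i k)) f1 using 1
      ring
    have d12 : b.2.2 = b'.2.2 := by
      refine Subtype.ext (funext fun k => ?_)
      by_cases hk : k = m b.1 i
      · have f1 := (hT _ b.2.2.2).trans (hT _ b'.2.2.2).symm
        rw [← add_sum_erase _ _ (mem_univ k), ← add_sum_erase _ _ (mem_univ k),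
          sum_congr rfl fun k' hk' => d11 k' (hk ▸ ne_of_mem_erase hk')] at f1
        exact add_right_cancel f1
      · exact d11 k hk
    exact Prod.ext (Prod.ext d10 (Prod.ext d6 d12)) rfl
  · intro b i j b' i' j' hj hj' hdvd
    have e1 := hr0 b.1 i
    have e2 := hr1 b.1 i
    have e3 := hr0 b'.1 i'
    have e4 := hr1 b'.1 i'
    rw [hg, hg, Nat.cast_mul] at hdvd
    obtain ⟨d1, d2⟩ := pk_digits (L := p) (N := ((p * ∏ m, Q m : ℕ) : ℤ)) (p := r b.1 i + j) (p' := p - 1 - (r b'.1 i' + j')) (y := y b i)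
      (y' := -1 - y b' i') (by omega) (by omega) (by omega) (by omega)
      (by convert hdvd using 1; ring)
    have d3 : y0 b.1 i = -1 - y0 b'.1 i' := by
      rw [← hy1, ← hy1, ← sub_eq_zero]
      have := (ZMod.intCast_zmod_eq_zero_iff_dvd _ _).2 (hN'.trans d2)
      push_cast at this
      exact this
    have d4 : m b.1 i = m b'.1 i' := by rw [hm, hm, d3]; ring
    have f1 := hQY (m b.1 i)
    have f2 := hc1 i (r b.1 i).toNat b.2.1
    have f3 := hc1 i' (r b'.1 i').toNat b'.2.1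
    have f4 := hy3 b' i'
    rw [← d4] at f4
    have f5 : (Q (m b.1 i) : ℤ) ∣ ((code i (r b.1 i).toNat b.2.1 +
        code i' (r b'.1 i').toNat b'.2.1 + 1 : ℕ) : ℤ) - (0 : ℕ) := by
      exact (dvd_sub (dvd_sub ((hN _).trans d2) (hy3 b i)) f4).trans
        (dvd_of_eq (by push_cast; ring))
    have := pk_small (by omega) (by omega) f5
    omega

lemma pk_fold {P : ℕ} (hP : 0 < P) (l : ℕ) (z : ℤ)
    (h : ∀ j j' : ℕ, j < l → j' < l → ¬ (P : ℤ) ∣ (z + j) + (z + j') + 1) :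
    ∃ (c : ℕ) (s : Bool), 2 * (c + l) ≤ P ∧ (P : ℤ) ∣ if s then z - c else z + c + l := by
  obtain ⟨x, hx⟩ : ∃ x : ℕ, (x : ℤ) = z % P :=
    ⟨(z % P).toNat, Int.toNat_of_nonneg (Int.emod_nonneg _ (by omega))⟩
  have hx1 : z % P < P := Int.emod_lt_of_pos _ (by omega)
  have hx2 : z = x + P * (z / P) := by rw [hx]; exact (Int.emod_add_mul_ediv _ _).symm
  have key : ∀ (j j' : ℕ) (e : ℤ), j < l → j' < l → 2 * (x : ℤ) + j + j' + 1 ≠ P * e := by
    intro j j' e hj hj' he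
    refine h j j' hj hj' ⟨e + 2 * (z / P), ?_⟩
    linear_combination he + 2 * hx2
  by_cases h1 : 2 * (x + l) ≤ P
  · exact ⟨x, true, h1, ⟨z / P, by simp only [if_true]; linear_combination hx2⟩⟩
  · have h2 : x + l ≤ P := by
      by_contra h2
      exact key (P - x) (P - x - 1) 2 (by omega) (by omega) (by omega)
    have h3 : P ≤ 2 * x := by
      by_contra h3
      exact key ((P - 1 - 2 * x) / 2) (P - 1 - 2 * x - (P - 1 - 2 * x) / 2) 1 (by omega) (by omega)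
        (by omega)
    refine ⟨P - x - l, false, by omega, ⟨z / P + 1, ?_⟩⟩
    have h4 : ((P - x - l : ℕ) : ℤ) = P - x - l := by omega
    simp only [Bool.false_eq_true, if_false, h4]
    linear_combination hx2

lemma pk_numeric {δ p X W S : ℝ} {n : ℕ} (hδ : 0 < δ) (hδ1 : δ ≤ 1) (hp : 0 < p) (hn : (n : ℝ) = p)
    (hX : 0 < X) (h1 : p * p ≤ S + W * p) (h2 : 2 * W ≤ δ * p) (h3 : 2 * (p * p) ≤ δ * X) :
    (1 - δ) * (p * (p * (X + p) ^ n)) ≤ S * X ^ n := by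
  have hXp : 0 < X + p := by linarith
  have a1 : (1 - δ / 2) * (p * p) ≤ S := by nlinarith
  have a2 : 1 + n * (-(p / (X + p))) ≤ (1 + -(p / (X + p))) ^ n :=
    one_add_mul_le_pow (by
      have : p / (X + p) ≤ 1 := by rw [div_le_one hXp]; linarith
      linarith) n
  have a3 : (1 + -(p / (X + p))) = X / (X + p) := by field_simp; ring
  have a4 : p * (p / (X + p)) ≤ δ / 2 := by
    rw [← mul_div_assoc, div_le_iff₀ hXp]; nlinarith
  rw [a3, div_pow, le_div_iff₀ (pow_pos hXp n), hn] at a2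
  have a5 : (1 - δ / 2) * (X + p) ^ n ≤ X ^ n :=
    le_trans (mul_le_mul_of_nonneg_right (by linarith) (pow_pos hXp n).le) a2
  have a6 : 0 ≤ p * p * (X + p) ^ n := by positivity
  calc (1 - δ) * (p * (p * (X + p) ^ n))
      ≤ ((1 - δ / 2) * (1 - δ / 2)) * (p * p * (X + p) ^ n) := by
        rw [← mul_assoc p p]
        exact mul_le_mul_of_nonneg_right (by nlinarith) a6
    _ = ((1 - δ / 2) * (p * p)) * ((1 - δ / 2) * (X + p) ^ n) := by ring
    _ ≤ S * X ^ n := mul_le_mul a1 a5 (mul_nonneg (by linarith) (pow_pos hXp n).le)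
        (le_trans (mul_nonneg (by linarith) (by positivity)) a1)

lemma pk_blocks {ι κ : Type} [Fintype ι] [Fintype κ] [Nonempty ι] (l : ι → ℕ) (hl : ∀ i, 0 < l i)
    (v : ι → κ → ℤ) (h0 : ∀ i, v i ≠ 0)
    (hv : ∀ i i', i ≠ i' → ∃ a b, v i a * v i' b ≠ v i b * v i' a) (δ : ℝ) (hδ : 0 < δ) :
    ∃ (P nb : ℕ) (g : Fin nb → κ → ℤ), 0 < P ∧
      (∀ b i (j : ℕ) b' i' (j' : ℕ), j < l i → j' < l i' →
        (P : ℤ) ∣ (v i ⬝ᵥ g b + j) - (v i' ⬝ᵥ g b' + j') → (b, i) = (b', i')) ∧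
      (∀ b i (j : ℕ) b' i' (j' : ℕ), j < l i → j' < l i' →
        ¬ (P : ℤ) ∣ (v i ⬝ᵥ g b + j) + (v i' ⬝ᵥ g b' + j') + 1) ∧
      (1 - δ) * P ≤ 2 * nb * ∑ i, (l i : ℝ) := by
  classical
  by_cases hδ1 : 1 < δ
  · refine ⟨1, 0, fun b => b.elim0, one_pos, fun b => b.elim0, fun b => b.elim0, ?_⟩
    simp only [Nat.cast_one, mul_one, Nat.cast_zero, mul_zero, zero_mul]
    linarith
  replace hδ1 := not_lt.1 hδ1
  obtain ⟨u, U, hu1, hu2, hU1, hU2⟩ := pk_dirs v h0 hv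
  obtain ⟨W, hW⟩ : ∃ W, W = ∑ i, l i := ⟨_, rfl⟩
  have hW0 : 0 < W := hW ▸ sum_pos (fun i _ => hl i) univ_nonempty
  obtain ⟨n1, hn1⟩ := exists_nat_ge (2 * ((W + 2 * Fintype.card ι ^ 2 : ℕ) : ℝ) / δ)
  obtain ⟨p, hp1, hp⟩ := Nat.exists_infinite_primes (n1 + 2 * ∑ i, (v i ⬝ᵥ u).natAbs + 1)
  have : Fact p.Prime := ⟨hp⟩
  have hsm : ∀ i, (v i ⬝ᵥ u).natAbs ≤ ∑ i, (v i ⬝ᵥ u).natAbs := fun i =>
    single_le_sum (f := fun i => (v i ⬝ᵥ u).natAbs) (fun _ _ => Nat.zero_le _) (mem_univ i)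
  have hnz : ∀ x : ℤ, x ≠ 0 → x.natAbs < p → (x : ZMod p) ≠ 0 := fun x hx hx' h =>
    hx (Int.eq_zero_of_dvd_of_natAbs_lt_natAbs ((ZMod.intCast_zmod_eq_zero_iff_dvd _ _).1 h)
      (by simpa using hx'))
  have ha : ∀ i, ((v i ⬝ᵥ u : ℤ) : ZMod p) ≠ 0 := fun i =>
    hnz _ (hu1 i) (by have := hsm i; omega)
  obtain ⟨S, hS1, hS2⟩ := pk_good p l (fun i => v i ⬝ᵥ u) ha (fun i j hij => by
    have h1 := hsm i
    have h2 := hsm j
    rw [← Int.cast_sub, ← Int.cast_add]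
    exact ⟨hnz _ (hu2 i j hij).1 (by omega), hnz _ (hu2 i j hij).2 (by omega)⟩)
  obtain ⟨X', hX'⟩ := exists_nat_ge (2 * ((p : ℝ) * p) / δ)
  obtain ⟨X, hX⟩ : ∃ X, X = X' + 1 := ⟨_, rfl⟩
  obtain ⟨Z', hZ'⟩ : ∃ Z', Z' = p.factorial * ((∏ i, (v i ⬝ᵥ u).natAbs) *
    ∏ x ∈ univ.filter (fun x : ι × ι => x.1 ≠ x.2), (v x.2 ⬝ᵥ U x.1).natAbs) := ⟨_, rfl⟩
  have hZ0 : 0 < Z' := by
    rw [hZ']
    refine Nat.mul_pos (Nat.factorial_pos _) (Nat.mul_pos (prod_pos fun i _ => ?_)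
      (prod_pos fun x hx => ?_))
    · exact Int.natAbs_pos.2 (hu1 i)
    · exact Int.natAbs_pos.2 (hU2 _ _ (mem_filter.1 hx).2)
  obtain ⟨Z, hZ⟩ : ∃ Z, Z = 2 * W * Z' := ⟨_, rfl⟩
  have hZ1 : 0 < Z := by rw [hZ]; positivity
  have hZd : Z' ∣ Z := hZ ▸ dvd_mul_left _ _
  have hfac : p.factorial ∣ Z := (hZ' ▸ dvd_mul_right _ _ : p.factorial ∣ Z').trans hZd
  have hcop : ∀ (d : ℕ) (k : ℕ), d ∣ Z → d.Coprime (k * Z + 1) := by
    rintro d k ⟨e, he⟩
    rw [he, show k * (d * e) + 1 = 1 + d * (k * e) by ring]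
    simp
  have hcop' : ∀ (d : ℤ) (k : ℕ), d.natAbs ∣ Z → IsCoprime d ((k * Z + 1 : ℕ) : ℤ) := by
    intro d k hd
    rw [Int.isCoprime_iff_gcd_eq_one, Int.gcd, Int.natAbs_natCast]
    exact hcop _ _ hd
  have : NeZero (X * Z) := ⟨by rw [hX]; positivity⟩
  obtain ⟨σ, hσ⟩ := Fintype.exists_le_card_fiber_of_mul_le_card
    (fun s : ZMod p → ZMod (X * Z) => ∑ m, s m) (n := (X * Z) ^ (p - 1)) (by
      simp only [ZMod.card, Fintype.card_pi, prod_const, card_univ]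
      rw [← pow_succ', Nat.sub_add_cancel hp.pos])
  obtain ⟨T, hT⟩ : ∃ T, T = univ.filter fun s : ZMod p → ZMod (X * Z) => ∑ m, s m = σ := ⟨_, rfl⟩
  rw [← hT] at hσ
  obtain ⟨g, hg1, hg2⟩ := pk_core l hl v u U p (X * Z') (X * Z)
    (fun m => (X + m.val) * Z + 1) (fun m m' hm => by
      have h1 : m.val ≠ m'.val := fun h => hm (ZMod.val_injective _ h)
      have h2 := ZMod.val_lt m
      have h3 := ZMod.val_lt m'
      rcases lt_or_gt_of_ne h1 with h | h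
      · exact Nat.coprime_mul_succ ((Nat.dvd_factorial (by omega) (by omega)).trans hfac)
      · exact (Nat.coprime_mul_succ ((Nat.dvd_factorial (by omega) (by omega)).trans hfac)).symm)
    (fun m => hcop _ _ ((Nat.dvd_factorial hp.pos le_rfl).trans hfac))
    (fun i m => hcop' _ _ (Dvd.dvd.trans (hZ' ▸ Dvd.dvd.mul_left (Dvd.dvd.mul_right
      (dvd_prod_of_mem (fun i => (v i ⬝ᵥ u).natAbs) (mem_univ i)) _) _) hZd))
    (fun i j m hij => hcop' _ _ (Dvd.dvd.trans (hZ' ▸ Dvd.dvd.mul_left (Dvd.dvd.mul_left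
      (dvd_prod_of_mem (fun x : ι × ι => (v x.2 ⬝ᵥ U x.1).natAbs) (a := (i, j))
        (by simpa using hij)) _) _) hZd))
    hU1 (fun m => by rw [← hW, hZ]; nlinarith [Nat.zero_le (m.val * (2 * W * Z'))])
    (fun m => by nlinarith [Nat.zero_le (m.val * Z)]) ha S hS2 σ T
    (fun s hs => by rw [hT] at hs; exact (mem_filter.1 hs).2)
  let e := (Fintype.equivFin (S × Fin (X * Z') × T)).symm
  refine ⟨_, _, fun b => g (e b), ?_, fun b i j b' i' j' hj hj' h => ?_,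
    fun b i j b' i' j' hj hj' => hg2 _ _ _ _ _ _ hj hj', ?_⟩
  · exact Nat.mul_pos hp.pos (Nat.mul_pos hp.pos (prod_pos fun _ _ => Nat.succ_pos _))
  · obtain ⟨h1, h2⟩ := Prod.mk.inj (hg1 _ _ _ _ _ _ hj hj' h)
    exact Prod.ext (e.injective h1) h2
  · have b1 : ∏ m : ZMod p, ((X + m.val) * Z + 1) ≤ ((X + p) * Z) ^ p := by
      refine (prod_le_pow_card _ _ ((X + p) * Z) fun m _ => ?_).trans (by simp)
      have := ZMod.val_lt m
      nlinarith
    have b2 : S.card * (X * Z) ^ p ≤ 2 * Fintype.card (S × Fin (X * Z') × T) * W := by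
      simp only [Fintype.card_prod, Fintype.card_coe, Fintype.card_fin]
      calc S.card * (X * Z) ^ p = S.card * ((X * Z) ^ (p - 1) * (X * Z)) := by
            rw [← pow_succ, Nat.sub_add_cancel hp.pos]
        _ ≤ S.card * (T.card * (X * Z)) := by gcongr
        _ = _ := by generalize T.card = t; rw [hZ]; ring
    have hpR : (0 : ℝ) < p := Nat.cast_pos.2 hp.pos
    have b3 := pk_numeric (X := X) (W := ((W + 2 * Fintype.card ι ^ 2 : ℕ) : ℝ)) (S := S.card)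
      hδ hδ1 hpR rfl (by rw [hX]; positivity) (by rw [hW]; exact_mod_cast hS1)
      (by
        rw [div_le_iff₀ hδ] at hn1
        have : (n1 : ℝ) ≤ p := by exact_mod_cast (by omega : n1 ≤ p)
        nlinarith)
      (by
        rw [div_le_iff₀ hδ] at hX'
        rw [hX]; push_cast; nlinarith)
    have b4 : ((∏ m : ZMod p, ((X + m.val) * Z + 1) : ℕ) : ℝ) ≤ ((X + p) * Z) ^ p := by
      exact_mod_cast b1
    have b5 : (S.card : ℝ) * (X * Z) ^ p ≤ 2 * Fintype.card (S × Fin (X * Z') × T) * W := by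
      exact_mod_cast b2
    rw [← Nat.cast_sum, ← hW, Nat.cast_mul, Nat.cast_mul]
    refine le_trans ?_ b5
    calc (1 - δ) * (p * (p * ((∏ m : ZMod p, ((X + m.val) * Z + 1) : ℕ) : ℝ)))
        ≤ (1 - δ) * (p * (p * ((X + p) * Z) ^ p)) :=
          mul_le_mul_of_nonneg_left (mul_le_mul_of_nonneg_left
            (mul_le_mul_of_nonneg_left b4 hpR.le) hpR.le) (by linarith)
      _ = (1 - δ) * (p * (p * (X + p) ^ p)) * Z ^ p := by rw [mul_pow]; ring
      _ ≤ S.card * X ^ p * Z ^ p := mul_le_mul_of_nonneg_right b3 (by positivity)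
      _ = _ := by rw [mul_pow]; ring

theorem packing {ι κ : Type} [Fintype ι] [Fintype κ] [Nonempty ι] (l : ι → ℕ) (hl : ∀ i, 0 < l i)
    (v : ι → κ → ℤ) (h0 : ∀ i, v i ≠ 0)
    (hv : ∀ i i', i ≠ i' → ∃ a b, v i a * v i' b ≠ v i b * v i' a) (δ : ℝ) (hδ : 0 < δ) :
    ∃ (P nb : ℕ) (g : Fin nb → κ → ℤ) (c : Fin nb → ι → ℕ) (s : Fin nb → ι → Bool), 0 < P ∧
      (∀ b i, 2 * (c b i + l i) ≤ P) ∧
      (∀ b i, (P:ℤ) ∣ if s b i then ∑ a, v i a * g b a - c b i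
        else ∑ a, v i a * g b a + c b i + l i) ∧
      (∀ b i b' i', (b, i) ≠ (b', i') → c b i + l i ≤ c b' i' ∨ c b' i' + l i' ≤ c b i) ∧
      (1 - δ) * P ≤ 2 * nb * ∑ i, (l i : ℝ) := by
  obtain ⟨P, nb, g, hP, h1, h2, h3⟩ := pk_blocks l hl v h0 hv δ hδ
  choose c s hc hs using fun b i =>
    pk_fold hP (l i) (v i ⬝ᵥ g b) fun j j' hj hj' => h2 b i j b i j' hj hj'
  refine ⟨P, nb, g, c, s, hP, hc, hs, fun b i b' i' hne => ?_, h3⟩
  by_contra hcon
  rw [not_or, not_le, not_le] at hcon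
  obtain ⟨c1, c2⟩ := hcon
  have l1 := hl i
  have l2 := hl i'
  obtain ⟨j, j', hj, hj', hjj⟩ : ∃ j j' : ℕ, j < l i ∧ j' < l i' ∧ c b i + j = c b' i' + j' :=
    ⟨c b' i' - c b i, c b i - c b' i', by omega, by omega, by omega⟩
  have hjj' : (c b i : ℤ) + j = c b' i' + j' := by exact_mod_cast hjj
  have s1 := hs b i
  have s2 := hs b' i'
  have k1 : ((l i - 1 - j : ℕ) : ℤ) = l i - 1 - j := by omega
  have k2 : ((l i' - 1 - j' : ℕ) : ℤ) = l i' - 1 - j' := by omega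
  cases e1 : s b i <;> cases e2 : s b' i' <;> rw [e1] at s1 <;> rw [e2] at s2 <;>
    simp only [Bool.false_eq_true, if_false, if_true] at s1 s2
  · refine hne (h1 b i (l i - 1 - j) b' i' (l i' - 1 - j') (by omega) (by omega) ?_)
    exact (dvd_sub s1 s2).trans (dvd_of_eq (by rw [k1, k2]; linear_combination hjj'))
  · refine h2 b i (l i - 1 - j) b' i' j' (by omega) hj' ?_
    exact (dvd_add s1 s2).trans (dvd_of_eq (by rw [k1]; linear_combination hjj'))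
  · refine h2 b i j b' i' (l i' - 1 - j') hj (by omega) ?_
    exact (dvd_add s1 s2).trans (dvd_of_eq (by rw [k2]; linear_combination -hjj'))
  · refine hne (h1 b i j b' i' j' hj hj' ?_)
    exact (dvd_sub s1 s2).trans (dvd_of_eq (by linear_combination -hjj'))

end Vale.Agent.P110
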