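import Vale.Agent.P110.PropB
import Vale.Agent.P110.Pack

open Finset Complex Filter Topology
open scoped BigOperators ComplexConjugate Real

namespace Vale.Agent.P110

theorem main_of_rounding (hR : Rounding) (c : ℝ) (hc : 0 < c) : ∃ N₀ : ℕ, ∀ N ≥ N₀,
    ∃ ε : Fin N → ℝ, (∀ k, ε k = 1 ∨ ε k = -1) ∧ ∀ z : ℂ, ‖z‖ = 1 →
      (1 - c) * √N ≤ ‖∑ k : Fin N, (ε k : ℂ) * z ^ (k : ℕ)‖ ∧
        ‖∑ k : Fin N, (ε k : ℂ) * z ^ (k : ℕ)‖ ≤ (1 + c) * √N := by
  have := final hR (fun η hη hη' => by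
    obtain ⟨ι, κ, _, _, _, l, v, a0, e, hl, ha0, hv, he, hB⟩ := propB hR hη
    obtain ⟨P, nb, g, c, s, h1, h2, h3, h4, h5⟩ := packing l hl v (fun i h => by
      have := ha0 i; rw [h] at this; have h2 := hl i; simp only [Pi.zero_apply] at this; omega) hv
      ((η / 24) ^ 2) (by positivity)
    obtain ⟨L, hL, h⟩ := theta_exists l hl v a0 ha0 e he hη hη' hB P nb g c s h1 h2 h3 h4 h5
    exact a_exists hη hL h) hc
  obtain ⟨N₀, h⟩ := eventually_atTop.1 this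
  refine ⟨N₀, fun N hN => ?_⟩
  obtain ⟨e, h1, h2⟩ := h N hN
  refine ⟨fun k => e k, fun k => h1 k, fun z hz => ?_⟩
  obtain ⟨θ, hθ⟩ := exists_polar z
  rw [hz, Complex.ofReal_one, one_mul] at hθ
  have := abs_le.1 (h2 θ)
  simp only [ee_nat_mul, ← hθ] at this
  rw [Fin.sum_univ_eq_sum_range (fun k => (e k : ℂ) * z ^ k)]
  constructor <;> linarith [this.1, this.2]

end Vale.Agent.P110
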