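import Vale.Agent.P110.Basic

open Finset Complex MeasureTheory Set Filter Topology
open scoped BigOperators ComplexConjugate Real

namespace Vale.Agent.P110

lemma hasDerivAt_ee_comp {f : ℝ → ℝ} {f' x : ℝ} (h : HasDerivAt f f' x) :
    HasDerivAt (fun y => ee (f y)) (2 * π * I * ee (f x) * f') x := by
  have := (hasDerivAt_ee (f x)).scomp x h
  refine HasDerivAt.congr_deriv this ?_
  simp [mul_comm]

lemma cont_of_deriv {f f1 : ℝ → ℝ} (hf : ∀ x, HasDerivAt f (f1 x) x) : Continuous f :=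
  continuous_iff_continuousAt.2 fun x => (hf x).continuousAt

lemma norm_integral_ee_neg (f : ℝ → ℝ) (a b : ℝ) :
    ‖∫ x in a..b, ee (-f x)‖ = ‖∫ x in a..b, ee (f x)‖ := by
  simp only [← conj_ee]
  rw [intervalIntegral.intervalIntegral_conj, Complex.norm_conj]

lemma norm_integral_ee_le (f : ℝ → ℝ) {a b : ℝ} (hab : a ≤ b) :
    ‖∫ x in a..b, ee (f x)‖ ≤ b - a := by
  have := intervalIntegral.norm_integral_le_of_norm_le_const (a := a) (b := b) (C := 1)
    (f := fun x => ee (f x)) (fun x _ => (norm_ee _).le)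
  rwa [one_mul, abs_of_nonneg (by linarith)] at this

/-- first derivative test -/
lemma L1 {f f1 f2 : ℝ → ℝ} (hf : ∀ x, HasDerivAt f (f1 x) x) (hf1 : ∀ x, HasDerivAt f1 (f2 x) x)
    (hc : Continuous f2) {a b lam : ℝ} (hab : a ≤ b) (h2 : ∀ x ∈ Icc a b, 0 ≤ f2 x)
    (hlam : 0 < lam) (h1 : ∀ x ∈ Icc a b, lam ≤ |f1 x|) :
    ‖∫ x in a..b, ee (f x)‖ ≤ 1 / lam := by
  have hcf := cont_of_deriv hf
  have hcf1 := cont_of_deriv hf1
  have hne : ∀ x ∈ Icc a b, f1 x ≠ 0 := fun x hx h => by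
    have := h1 x hx; rw [h, abs_zero] at this; linarith
  have hpi : (2 * π * I : ℂ) ≠ 0 := Complex.two_pi_I_ne_zero
  have hnpi : ‖(2 * π * I : ℂ)‖ = 2 * π := by
    simp [abs_of_pos Real.pi_pos]
  have hu : uIcc a b = Icc a b := uIcc_of_le hab
  have hcE : Continuous fun x => ee (f x) := continuous_ee.comp hcf
  have hcq : ContinuousOn (fun x => f2 x / f1 x ^ 2) (Icc a b) :=
    hc.continuousOn.div (hcf1.pow 2).continuousOn fun x hx => pow_ne_zero 2 (hne x hx)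
  have hcr : ContinuousOn (fun x => ee (f x) * ((f2 x / f1 x ^ 2 : ℝ) : ℂ) / (2 * π * I))
      (Icc a b) :=
    (hcE.continuousOn.mul (Complex.continuous_ofReal.comp_continuousOn hcq)).div_const _
  have hd : ∀ x ∈ uIcc a b, HasDerivAt (fun y => ee (f y) * (((f1 y)⁻¹ : ℝ) : ℂ) / (2 * π * I))
      (ee (f x) - ee (f x) * ((f2 x / f1 x ^ 2 : ℝ) : ℂ) / (2 * π * I)) x := by
    intro x hx
    rw [hu] at hx
    have e1 := hasDerivAt_ee_comp (hf x)
    have e2 := ((hf1 x).inv (hne x hx)).ofReal_comp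
    have := (e1.mul e2).div_const (2 * π * I)
    refine HasDerivAt.congr_deriv this ?_
    have : (f1 x : ℂ) ≠ 0 := by exact_mod_cast hne x hx
    push_cast
    simp only [Pi.inv_apply]
    push_cast
    field_simp
    ring
  have hi1 : IntervalIntegrable (fun x => ee (f x)) volume a b := hcE.intervalIntegrable a b
  have hi2 := (hu ▸ hcr).intervalIntegrable (μ := volume)
  have h3 := intervalIntegral.integral_eq_sub_of_hasDerivAt hd (hi1.sub hi2)
  rw [intervalIntegral.integral_sub hi1 hi2, sub_eq_iff_eq_add] at h3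
  have hd2 : ∀ x ∈ uIcc a b, HasDerivAt (fun y => -(f1 y)⁻¹) (f2 x / f1 x ^ 2) x := by
    intro x hx
    rw [hu] at hx
    have := ((hf1 x).inv (hne x hx)).neg
    refine HasDerivAt.congr_deriv this ?_
    ring
  have h4 := intervalIntegral.integral_eq_sub_of_hasDerivAt hd2
    ((hu ▸ hcq).intervalIntegrable (μ := volume))
  have hinv : ∀ x ∈ Icc a b, |(f1 x)⁻¹| ≤ 1 / lam := fun x hx => by
    rw [abs_inv, one_div]; exact inv_anti₀ hlam (h1 x hx)
  have h5 : ‖∫ x in a..b, ee (f x) * ((f2 x / f1 x ^ 2 : ℝ) : ℂ) / (2 * π * I)‖ ≤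
      (∫ x in a..b, f2 x / f1 x ^ 2) / (2 * π) := by
    rw [← intervalIntegral.integral_div]
    refine intervalIntegral.norm_integral_le_of_norm_le hab ?_
      (((hu ▸ hcq).intervalIntegrable (μ := volume)).div_const _)
    refine Eventually.of_forall fun x hx => ?_
    rw [norm_div, norm_mul, norm_ee, one_mul, hnpi, Complex.norm_real, Real.norm_eq_abs,
      abs_of_nonneg (div_nonneg (h2 x (Ioc_subset_Icc_self hx)) (sq_nonneg _))]
  have h6 : ∀ x ∈ Icc a b, ‖ee (f x) * (((f1 x)⁻¹ : ℝ) : ℂ) / (2 * π * I)‖ ≤ 1 / lam / (2 * π) := by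
    intro x hx
    rw [norm_div, norm_mul, norm_ee, one_mul, hnpi, Complex.norm_real, Real.norm_eq_abs]
    exact div_le_div_of_nonneg_right (hinv x hx) (by positivity)
  have ha := abs_le.1 (hinv a ⟨le_rfl, hab⟩)
  have hb := abs_le.1 (hinv b ⟨hab, le_rfl⟩)
  have h7 : (∫ x in a..b, f2 x / f1 x ^ 2) / (2 * π) ≤ 2 * (1 / lam) / (2 * π) := by
    rw [h4]; exact div_le_div_of_nonneg_right (by linarith) (by positivity)
  rw [h3]
  refine (norm_add_le _ _).trans ?_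
  have h8 := (norm_sub_le _ _).trans (add_le_add (h6 b ⟨hab, le_rfl⟩) (h6 a ⟨le_rfl, hab⟩))
  have h9 : 4 * (1 / lam) / (2 * π) ≤ 1 / lam := by
    rw [div_le_iff₀ (by positivity)]
    have : 0 < 1 / lam := by positivity
    nlinarith [Real.pi_gt_three]
  have h10 : 4 * (1 / lam) / (2 * π) = 1 / lam / (2 * π) + 1 / lam / (2 * π) +
    2 * (1 / lam) / (2 * π) := by ring
  linarith

lemma mvt_lower {g g' : ℝ → ℝ} (hg : ∀ x, HasDerivAt g (g' x) x) {a b μ : ℝ}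
    (h : ∀ x ∈ Icc a b, μ ≤ g' x) {x y : ℝ} (hx : x ∈ Icc a b) (hy : y ∈ Icc a b) (hxy : x ≤ y) :
    μ * (y - x) ≤ g y - g x :=
  (convex_Icc a b).mul_sub_le_image_sub_of_le_deriv (cont_of_deriv hg).continuousOn
    (fun x _ => (hg x).differentiableAt.differentiableWithinAt)
    (fun x hx => by rw [(hg x).deriv]; exact h x (interior_subset hx)) x hx y hy hxy

lemma mvt_abs {g g' : ℝ → ℝ} (hg : ∀ x, HasDerivAt g (g' x) x) {a b C : ℝ}
    (h : ∀ x ∈ Icc a b, |g' x| ≤ C) {x y : ℝ} (hx : x ∈ Icc a b) (hy : y ∈ Icc a b) :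
    |g y - g x| ≤ C * |y - x| :=
  (convex_Icc a b).norm_image_sub_le_of_norm_hasDerivWithin_le
    (fun x _ => (hg x).hasDerivWithinAt) h hx hy

lemma exists_cut {g g' : ℝ → ℝ} (hg : ∀ x, HasDerivAt g (g' x) x) {a b : ℝ} (hab : a ≤ b)
    (h : ∀ x ∈ Icc a b, 0 ≤ g' x) (c : ℝ) :
    ∃ m ∈ Icc a b, (m = a ∨ ∀ x ∈ Icc a m, g x ≤ c) ∧ (m = b ∨ ∀ x ∈ Icc m b, c ≤ g x) := by
  have hm : ∀ x ∈ Icc a b, ∀ y ∈ Icc a b, x ≤ y → g x ≤ g y := fun x hx y hy hxy => by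
    have := mvt_lower hg h hx hy hxy; linarith
  by_cases h1 : c ≤ g a
  · exact ⟨a, ⟨le_rfl, hab⟩, Or.inl rfl, Or.inr fun x hx => h1.trans (hm a ⟨le_rfl, hab⟩ x hx hx.1)⟩
  by_cases h2 : g b ≤ c
  · exact ⟨b, ⟨hab, le_rfl⟩, Or.inr fun x hx => (hm x hx b ⟨hab, le_rfl⟩ hx.2).trans h2, Or.inl rfl⟩
  obtain ⟨m, hm1, hm2⟩ := intermediate_value_Icc hab (cont_of_deriv hg).continuousOn
    (show c ∈ Icc (g a) (g b) from ⟨(not_le.1 h1).le, (not_le.1 h2).le⟩)
  exact ⟨m, hm1, Or.inr fun x hx => hm2 ▸ hm x ⟨hx.1, hx.2.trans hm1.2⟩ m hm1 hx.2,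
    Or.inr fun x hx => hm2 ▸ hm m hm1 x ⟨hm1.1.trans hx.1, hx.2⟩ hx.1⟩

/-- second derivative test -/
lemma L2 {f f1 f2 : ℝ → ℝ} (hf : ∀ x, HasDerivAt f (f1 x) x) (hf1 : ∀ x, HasDerivAt f1 (f2 x) x)
    (hc : Continuous f2) {a b μ : ℝ} (hab : a ≤ b) (hμ : 0 < μ) (h2 : ∀ x ∈ Icc a b, μ ≤ f2 x) :
    ‖∫ x in a..b, ee (f x)‖ ≤ 4 / √μ := by
  have hs : 0 < √μ := Real.sqrt_pos.2 hμ
  have hcE : Continuous fun x => ee (f x) := continuous_ee.comp (cont_of_deriv hf)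
  have h0 : ∀ x ∈ Icc a b, 0 ≤ f2 x := fun x hx => hμ.le.trans (h2 x hx)
  obtain ⟨m₁, hm₁, ha₁, hb₁⟩ := exists_cut hf1 hab h0 (-√μ)
  obtain ⟨m₂, hm₂, ha₂, hb₂⟩ := exists_cut hf1 hm₁.2
    (fun x hx => h0 x ⟨hm₁.1.trans hx.1, hx.2⟩) (√μ)
  rw [← intervalIntegral.integral_add_adjacent_intervals (hcE.intervalIntegrable a m₁)
    (hcE.intervalIntegrable m₁ b), ← intervalIntegral.integral_add_adjacent_intervals
    (hcE.intervalIntegrable m₁ m₂) (hcE.intervalIntegrable m₂ b)]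
  have e1 : ‖∫ x in a..m₁, ee (f x)‖ ≤ 1 / √μ := by
    rcases ha₁ with rfl | h
    · simp
    · refine L1 hf hf1 hc hm₁.1 (fun x hx => h0 x ⟨hx.1, hx.2.trans hm₁.2⟩) hs fun x hx => ?_
      have := h x hx
      rw [le_abs]; right; linarith
  have e3 : ‖∫ x in m₂..b, ee (f x)‖ ≤ 1 / √μ := by
    rcases hb₂ with rfl | h
    · simp
    · refine L1 hf hf1 hc hm₂.2 (fun x hx => h0 x ⟨hm₁.1.trans (hm₂.1.trans hx.1), hx.2⟩) hs
        fun x hx => ?_
      exact (h x hx).trans (le_abs_self _)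
  have e2 : ‖∫ x in m₁..m₂, ee (f x)‖ ≤ 2 / √μ := by
    refine (norm_integral_ee_le f hm₂.1).trans ?_
    have hpos : 0 ≤ 2 / √μ := by positivity
    rcases ha₂ with h | h
    · linarith
    rcases hb₁ with h' | h'
    · linarith [hm₂.2]
    have f1a := h m₂ ⟨hm₂.1, le_rfl⟩
    have f1b := h' m₁ ⟨le_rfl, hm₁.2⟩
    have := mvt_lower hf1 h2 hm₁ ⟨hm₁.1.trans hm₂.1, hm₂.2⟩ hm₂.1
    rw [le_div_iff₀ hs]
    have h3 : √μ * √μ = μ := Real.mul_self_sqrt hμ.le
    nlinarith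
  have : 4 / √μ = 1 / √μ + (2 / √μ + 1 / √μ) := by ring
  rw [this]
  exact (norm_add_le _ _).trans (add_le_add e1 ((norm_add_le _ _).trans (add_le_add e2 e3)))

lemma L2' {f f1 f2 : ℝ → ℝ} (hf : ∀ x, HasDerivAt f (f1 x) x) (hf1 : ∀ x, HasDerivAt f1 (f2 x) x)
    (hc : Continuous f2) {a b μ : ℝ} (hab : a ≤ b) (hμ : 0 < μ) (h2 : ∀ x ∈ Icc a b, f2 x ≤ -μ) :
    ‖∫ x in a..b, ee (f x)‖ ≤ 4 / √μ := by
  rw [← norm_integral_ee_neg]
  exact L2 (f := fun x => -f x) (f1 := fun x => -f1 x) (f2 := fun x => -f2 x)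
    (fun x => (hf x).neg) (fun x => (hf1 x).neg) hc.neg hab hμ fun x hx => by linarith [h2 x hx]

/-- truncated Fresnel integral -/
noncomputable def fres (X : ℝ) : ℂ := ∫ t in (-X)..X, ee (t ^ 2 / 2)

/-- stationary phase -/
lemma L3 {f f1 f2 : ℝ → ℝ} (hf : ∀ x, HasDerivAt f (f1 x) x) (hf1 : ∀ x, HasDerivAt f1 (f2 x) x)
    (hc : Continuous f2) {a b s X ε x₀ : ℝ} (hs : 0 < s) (hX : 0 < X) (hε : 0 ≤ ε) (hε' : ε ≤ 1 / 2)
    (h0 : f1 x₀ = 0) (ha : a ≤ x₀ - X / √s) (hb : x₀ + X / √s ≤ b)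
    (h2 : ∀ x ∈ Icc a b, 0 ≤ f2 x)
    (h3 : ∀ x ∈ Icc (x₀ - X / √s) (x₀ + X / √s), |f2 x - s| ≤ ε * s) :
    ‖(∫ x in a..b, ee (f x)) - fres X * ee (f x₀) / √s‖ ≤ (4 / X + 4 * π * ε * X ^ 3) / √s := by
  have hss : 0 < √s := Real.sqrt_pos.2 hs
  have hs2 : √s * √s = s := Real.mul_self_sqrt hs.le
  set ρ := X / √s with hρ
  have hρ0 : 0 < ρ := by positivity
  have hcE : Continuous fun x => ee (f x) := continuous_ee.comp (cont_of_deriv hf)
  have hx₀ : x₀ ∈ Icc (x₀ - ρ) (x₀ + ρ) := ⟨by linarith, by linarith⟩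
  have hg : ∀ x, HasDerivAt (fun y => f1 y - s * (y - x₀)) (f2 x - s) x := fun x =>
    ((hf1 x).sub (((hasDerivAt_id x).sub_const x₀).const_mul s)).congr_deriv (by simp)
  have hg1 : ∀ x ∈ Icc (x₀ - ρ) (x₀ + ρ), |f1 x - s * (x - x₀)| ≤ ε * s * ρ := by
    intro x hx
    have := mvt_abs hg h3 hx₀ hx
    simp only [h0, sub_self, mul_zero, sub_zero] at this
    refine this.trans (mul_le_mul_of_nonneg_left (abs_le.2 ⟨by linarith [hx.1], by linarith [hx.2]⟩)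
      (by positivity))
  have hh : ∀ x, HasDerivAt (fun y => f y - s * (y - x₀) ^ 2 / 2) (f1 x - s * (x - x₀)) x := by
    intro x
    have := (hf x).sub (((((hasDerivAt_id x).sub_const x₀).pow 2).const_mul s).div_const 2)
    refine HasDerivAt.congr_deriv this ?_
    simp; ring
  have hh1 : ∀ x ∈ Icc (x₀ - ρ) (x₀ + ρ), |f x - (f x₀ + s * (x - x₀) ^ 2 / 2)| ≤ ε * s * ρ * ρ := by
    intro x hx
    have := mvt_abs hh hg1 hx₀ hx
    have e : f x - s * (x - x₀) ^ 2 / 2 - (f x₀ - s * (x₀ - x₀) ^ 2 / 2) =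
      f x - (f x₀ + s * (x - x₀) ^ 2 / 2) := by ring
    rw [e] at this
    refine this.trans (mul_le_mul_of_nonneg_left (abs_le.2 ⟨by linarith [hx.1], by linarith [hx.2]⟩)
      (by positivity))
  have hq : ∫ x in (x₀ - ρ)..(x₀ + ρ), ee (f x₀ + s * (x - x₀) ^ 2 / 2) = fres X * ee (f x₀) / √s := by
    rw [intervalIntegral.integral_comp_sub_right (fun y => ee (f x₀ + s * y ^ 2 / 2))]
    simp only [ee_add]
    rw [intervalIntegral.integral_const_mul]
    have : (fun y : ℝ => ee (s * y ^ 2 / 2)) = fun y => (fun t => ee (t ^ 2 / 2)) (√s * y) := by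
      funext y; congr 1; rw [mul_pow, sq (√s), hs2]
    rw [this, intervalIntegral.integral_comp_mul_left (fun t => ee (t ^ 2 / 2)) hss.ne']
    have e1 : √s * (x₀ - ρ - x₀) = -X := by rw [hρ]; field_simp; ring
    have e2 : √s * (x₀ + ρ - x₀) = X := by rw [hρ]; field_simp; ring
    rw [e1, e2]
    simp only [fres, Complex.real_smul]
    push_cast
    ring
  have hcq : Continuous fun x => ee (f x₀ + s * (x - x₀) ^ 2 / 2) := continuous_ee.comp (by fun_prop)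
  have e2 : ‖(∫ x in (x₀ - ρ)..(x₀ + ρ), ee (f x)) - fres X * ee (f x₀) / √s‖ ≤
      4 * π * ε * X ^ 3 / √s := by
    rw [← hq, ← intervalIntegral.integral_sub (hcE.intervalIntegrable _ _)
      (hcq.intervalIntegrable _ _)]
    refine (intervalIntegral.norm_integral_le_of_norm_le_const (C := 2 * π * (ε * s * ρ * ρ))
      fun x hx => ?_).trans (le_of_eq ?_)
    · rw [uIoc_of_le (by linarith)] at hx
      exact (norm_ee_sub_ee_le _ _).trans
        (mul_le_mul_of_nonneg_left (hh1 x (Ioc_subset_Icc_self hx)) (by positivity))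
    · rw [abs_of_nonneg (by linarith), hρ]
      field_simp
      rw [sq (√s), hs2]
      ring
  have hlam : 0 < s * ρ / 2 := by positivity
  have hm : ∀ x ∈ Icc a b, ∀ y ∈ Icc a b, x ≤ y → f1 x ≤ f1 y := fun x hx y hy hxy => by
    have := mvt_lower hf1 h2 hx hy hxy; linarith
  have hεs : ε * s * ρ ≤ s * ρ / 2 := by nlinarith [mul_pos hs hρ0]
  have e1 : ‖∫ x in a..(x₀ - ρ), ee (f x)‖ ≤ 1 / (s * ρ / 2) := by
    refine L1 hf hf1 hc ha (fun x hx => h2 x ⟨hx.1, by linarith [hx.2]⟩) hlam fun x hx => ?_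
    have h4 := hm x ⟨hx.1, by linarith [hx.2]⟩ (x₀ - ρ) ⟨ha, by linarith⟩ hx.2
    have h5 := (abs_le.1 (hg1 (x₀ - ρ) ⟨le_rfl, by linarith⟩)).2
    rw [le_abs]; right; nlinarith
  have e3 : ‖∫ x in (x₀ + ρ)..b, ee (f x)‖ ≤ 1 / (s * ρ / 2) := by
    refine L1 hf hf1 hc hb (fun x hx => h2 x ⟨by linarith [hx.1], hx.2⟩) hlam fun x hx => ?_
    have h4 := hm (x₀ + ρ) ⟨by linarith, hb⟩ x ⟨by linarith [hx.1], hx.2⟩ hx.1
    have h5 := (abs_le.1 (hg1 (x₀ + ρ) ⟨by linarith, le_rfl⟩)).1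
    rw [le_abs]; left; nlinarith
  rw [← intervalIntegral.integral_add_adjacent_intervals (hcE.intervalIntegrable a (x₀ - ρ))
    (hcE.intervalIntegrable _ b), ← intervalIntegral.integral_add_adjacent_intervals
    (hcE.intervalIntegrable (x₀ - ρ) (x₀ + ρ)) (hcE.intervalIntegrable _ b)]
  have e4 : 1 / (s * ρ / 2) = 2 / X / √s := by
    rw [hρ]; field_simp; rw [sq (√s), hs2]
  rw [e4] at e1 e3
  have e5 : (4 / X + 4 * π * ε * X ^ 3) / √s =
    2 / X / √s + (4 * π * ε * X ^ 3 / √s + 2 / X / √s) := by ring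
  rw [e5]
  have e6 : ∀ A B C D : ℂ, A + (B + C) - D = A + ((B - D) + C) := by intros; ring
  rw [e6]
  exact (norm_add_le _ _).trans (add_le_add e1 ((norm_add_le _ _).trans (add_le_add e2 e3)))

lemma gauss_tail {b : ℂ} (hb : 0 < b.re) (hb1 : 2 ≤ ‖b‖) {X Y : ℝ} (hX : 0 < X) (hXY : X ≤ Y) :
    ‖∫ t in X..Y, cexp (-b * t ^ 2)‖ ≤ 1 / X := by
  have hb0 : b ≠ 0 := by rintro rfl; simp at hb
  have hu : uIcc X Y = Icc X Y := uIcc_of_le hXY
  have hn : ∀ t : ℝ, ‖cexp (-b * t ^ 2)‖ ≤ 1 := fun t => by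
    rw [Complex.norm_exp, Real.exp_le_one_iff]
    have : (-b * (t:ℂ) ^ 2).re = -(b.re * t ^ 2) := by
      rw [← Complex.ofReal_pow]; simp [-Complex.ofReal_pow]
    rw [this]; have : 0 ≤ b.re * t ^ 2 := by positivity
    linarith
  have hcE : Continuous fun t : ℝ => cexp (-b * t ^ 2) := by fun_prop
  have hne : ∀ t ∈ Icc X Y, t ≠ 0 := fun t ht => by linarith [ht.1] |> fun h : 0 < t => h.ne'
  have hcq : ContinuousOn (fun t : ℝ => 1 / t ^ 2) (Icc X Y) :=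
    continuousOn_const.div (by fun_prop) fun t ht => pow_ne_zero 2 (hne t ht)
  have hcr : ContinuousOn (fun t : ℝ => cexp (-b * t ^ 2) * ((1 / t ^ 2 : ℝ) : ℂ) / (2 * b))
      (Icc X Y) :=
    (hcE.continuousOn.mul (Complex.continuous_ofReal.comp_continuousOn hcq)).div_const _
  have hd : ∀ t ∈ uIcc X Y, HasDerivAt (fun y : ℝ => cexp (-b * y ^ 2) * ((-y⁻¹ : ℝ) : ℂ) / (2 * b))
      (cexp (-b * t ^ 2) + cexp (-b * t ^ 2) * ((1 / t ^ 2 : ℝ) : ℂ) / (2 * b)) t := by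
    intro t ht
    rw [hu] at ht
    have e1 : HasDerivAt (fun y : ℝ => cexp (-b * y ^ 2)) (cexp (-b * t ^ 2) * (-b * (2 * t))) t := by
      have h1 : HasDerivAt (fun y : ℝ => (y : ℂ)) 1 t := Complex.ofRealCLM.hasDerivAt
      have := ((h1.pow 2).const_mul (-b)).cexp
      simpa using this
    have e2 := ((hasDerivAt_inv (hne t ht)).neg).ofReal_comp
    have := (e1.mul e2).div_const (2 * b)
    refine HasDerivAt.congr_deriv this ?_
    have : (t : ℂ) ≠ 0 := by exact_mod_cast hne t ht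
    simp only [Pi.neg_apply]
    push_cast
    field_simp
  have hi1 := hcE.intervalIntegrable (μ := volume) X Y
  have hi2 := (hu ▸ hcr).intervalIntegrable (μ := volume)
  have h3 := intervalIntegral.integral_eq_sub_of_hasDerivAt hd (hi1.add hi2)
  rw [intervalIntegral.integral_add hi1 hi2, ← eq_sub_iff_add_eq] at h3
  have hd2 : ∀ t ∈ uIcc X Y, HasDerivAt (fun y : ℝ => -y⁻¹) (1 / t ^ 2) t := by
    intro t ht
    rw [hu] at ht
    have := (hasDerivAt_inv (hne t ht)).neg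
    refine HasDerivAt.congr_deriv this ?_
    simp
  have h4 := intervalIntegral.integral_eq_sub_of_hasDerivAt hd2
    ((hu ▸ hcq).intervalIntegrable (μ := volume))
  have hn2 : 4 ≤ ‖2 * b‖ := by rw [norm_mul]; simp; linarith
  have h5 : ‖∫ t in X..Y, cexp (-b * t ^ 2) * ((1 / t ^ 2 : ℝ) : ℂ) / (2 * b)‖ ≤
      (∫ t in X..Y, 1 / t ^ 2) / 4 := by
    rw [← intervalIntegral.integral_div]
    refine intervalIntegral.norm_integral_le_of_norm_le hXY ?_
      (((hu ▸ hcq).intervalIntegrable (μ := volume)).div_const _)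
    refine Eventually.of_forall fun x _ => ?_
    rw [norm_div, norm_mul, Complex.norm_real, Real.norm_eq_abs, abs_of_nonneg (by positivity)]
    have h0 : 0 ≤ 1 / x ^ 2 := by positivity
    exact div_le_div₀ h0 (by nlinarith [hn x]) (by norm_num) hn2
  have h6 : ∀ t ∈ Icc X Y, ‖cexp (-b * t ^ 2) * ((-t⁻¹ : ℝ) : ℂ) / (2 * b)‖ ≤ X⁻¹ / 4 := by
    intro t ht
    have ht0 : 0 < t := by linarith [ht.1]
    rw [norm_div, norm_mul, Complex.norm_real, Real.norm_eq_abs, abs_neg, abs_of_pos (inv_pos.2 ht0)]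
    have h0 : t⁻¹ ≤ X⁻¹ := inv_anti₀ hX ht.1
    have h1 : 0 < t⁻¹ := inv_pos.2 ht0
    exact div_le_div₀ (by positivity) (by nlinarith [hn t]) (by norm_num) hn2
  rw [h3]
  refine (norm_sub_le _ _).trans ?_
  have h8 := (norm_sub_le _ _).trans (add_le_add (h6 Y ⟨hXY, le_rfl⟩) (h6 X ⟨le_rfl, hXY⟩))
  rw [h4] at h5
  have h9 : 0 < Y⁻¹ := inv_pos.2 (by linarith)
  have h10 : 0 < X⁻¹ := inv_pos.2 hX
  rw [one_div]
  linarith

lemma norm_gauss_trunc {b : ℂ} (hb : 0 < b.re) (hb1 : π ≤ ‖b‖) {X : ℝ} (hX : 0 < X) :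
    ‖∫ t in (-X)..X, cexp (-b * t ^ 2)‖ ≤ 1 + 2 / X := by
  have hb2 : 2 ≤ ‖b‖ := by linarith [Real.pi_gt_three]
  have hcE : Continuous fun t : ℝ => cexp (-b * t ^ 2) := by fun_prop
  have h1 := intervalIntegral_tendsto_integral (integrable_cexp_neg_mul_sq hb)
    (tendsto_neg_atTop_atBot) (tendsto_id (x := (atTop : Filter ℝ)))
  rw [integral_gaussian_complex hb] at h1
  have h2 : ‖((π : ℂ) / b) ^ (1 / 2 : ℂ)‖ ≤ 1 := by
    have : (1 / 2 : ℂ) = ((1 / 2 : ℝ) : ℂ) := by push_cast; rfl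
    rw [this, Complex.norm_cpow_real]
    refine Real.rpow_le_one (norm_nonneg _) ?_ (by norm_num)
    rw [norm_div, Complex.norm_real, Real.norm_eq_abs, abs_of_pos Real.pi_pos,
      div_le_one (by linarith)]
    exact hb1
  have h3 : ∀ᶠ Y : ℝ in atTop, ‖∫ t in (-X)..X, cexp (-b * t ^ 2)‖ - 2 / X ≤
      ‖∫ t in (-Y)..(id Y), cexp (-b * t ^ 2)‖ := by
    filter_upwards [eventually_ge_atTop X] with Y hY
    have e1 := gauss_tail hb hb2 hX hY
    have e2 : ∫ t in (-Y)..(-X), cexp (-b * t ^ 2) = ∫ t in X..Y, cexp (-b * t ^ 2) := by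
      rw [← intervalIntegral.integral_comp_neg (fun t : ℝ => cexp (-b * t ^ 2))]
      simp
    rw [id, ← intervalIntegral.integral_add_adjacent_intervals (hcE.intervalIntegrable (-Y) (-X))
      (hcE.intervalIntegrable _ Y), ← intervalIntegral.integral_add_adjacent_intervals
      (hcE.intervalIntegrable (-X) X) (hcE.intervalIntegrable _ Y), e2]
    set A := ∫ t in X..Y, cexp (-b * t ^ 2)
    set B := ∫ t in (-X)..X, cexp (-b * t ^ 2)
    have e3 : B = (A + (B + A)) - A - A := by ring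
    have e4 : ‖B‖ ≤ ‖A + (B + A)‖ + ‖A‖ + ‖A‖ := by
      conv_lhs => rw [e3]
      exact (norm_sub_le _ _).trans (add_le_add_left (norm_sub_le _ _) _)
    have e5 : 2 / X = 1 / X + 1 / X := by ring
    linarith
  have h4 := ge_of_tendsto h1.norm h3
  linarith

lemma norm_fres_le {X : ℝ} (hX : 0 < X) : ‖fres X‖ ≤ 1 + 2 / X := by
  refine le_of_forall_pos_le_add fun η hη => ?_
  set ε := η / (2 * X ^ 3) with hε
  have hε0 : 0 < ε := by positivity
  have h1 := norm_gauss_trunc (b := ε - π * I) (by simpa using hε0) (by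
    have := Complex.abs_im_le_norm ((ε : ℂ) - π * I)
    simpa [abs_of_pos Real.pi_pos] using this) hX
  have hcE : Continuous fun t : ℝ => cexp (-((ε : ℂ) - π * I) * t ^ 2) := by fun_prop
  have hc2 : Continuous fun t : ℝ => ee (t ^ 2 / 2) := continuous_ee.comp (by fun_prop)
  have h2 : ‖fres X - ∫ t in (-X)..X, cexp (-((ε : ℂ) - π * I) * t ^ 2)‖ ≤ η := by
    rw [fres, ← intervalIntegral.integral_sub (hc2.intervalIntegrable _ _)
      (hcE.intervalIntegrable _ _)]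
    refine (intervalIntegral.norm_integral_le_of_norm_le_const (C := ε * X ^ 2)
      fun t ht => ?_).trans (le_of_eq ?_)
    · rw [uIoc_of_le (by linarith)] at ht
      have e1 : ee (t ^ 2 / 2) - cexp (-((ε : ℂ) - π * I) * t ^ 2) =
          ee (t ^ 2 / 2) * ((1 - Real.exp (-(ε * t ^ 2)) : ℝ) : ℂ) := by
        unfold ee
        push_cast
        rw [mul_sub, mul_one, ← Complex.exp_add]
        congr 2; ring
      rw [e1, norm_mul, norm_ee, one_mul, Complex.norm_real, Real.norm_eq_abs]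
      have e2 := Real.add_one_le_exp (-(ε * t ^ 2))
      have e3 : Real.exp (-(ε * t ^ 2)) ≤ 1 := Real.exp_le_one_iff.2 (by
        have : 0 ≤ ε * t ^ 2 := by positivity
        linarith)
      have e4 : t ^ 2 ≤ X ^ 2 := sq_le_sq' ht.1.le ht.2
      rw [abs_of_nonneg (by linarith)]
      nlinarith
    · rw [abs_of_nonneg (by linarith), hε]; field_simp; ring
  have h3 := norm_sub_norm_le (fres X) (∫ t in (-X)..X, cexp (-((ε : ℂ) - π * I) * t ^ 2))
  linarith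

end Vale.Agent.P110
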