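import Vale.Agent.P110.Square

open Finset Complex Filter Topology
open scoped BigOperators ComplexConjugate Real

namespace Vale.Agent.P110

/-- von Mangoldt function -/
noncomputable abbrev vM (n : ℕ) : ℝ := ArithmeticFunction.vonMangoldt n

lemma dirichlet (s : Finset ℕ) (θ : ℕ → ℝ) {N : ℕ} (hN : 0 < N) :
    ∃ n : ℕ, 0 < n ∧ n ≤ N ^ s.card ∧ ∀ m ∈ s, ∃ u : ℤ, |n * θ m - u| ≤ 1 / N := by
  have hN' : (0:ℝ) < N := by exact_mod_cast hN
  obtain ⟨x, hx, y, hy, hxy, h⟩ := exists_ne_map_eq_of_card_lt_of_maps_to (s := range (N ^ s.card + 1))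
    (t := Fintype.piFinset fun _ : s => range N) (by simp)
    (f := fun k m => ⌊N * Int.fract (k * θ m)⌋₊) (fun k _ => by
      simp only [Fintype.coe_piFinset, Set.mem_pi, Set.mem_univ, coe_range, Set.mem_Iio, forall_const]
      intro m
      exact (Nat.floor_lt (mul_nonneg hN'.le (Int.fract_nonneg _))).2
        (mul_lt_of_lt_one_right hN' (Int.fract_lt_one _)))
  wlog hlt : x < y generalizing x y
  · exact this y hy x hx hxy.symm h.symm (by omega)
  refine ⟨y - x, by omega, by have := mem_range.1 hy; omega, fun m hm =>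
    ⟨⌊y * θ m⌋ - ⌊x * θ m⌋, ?_⟩⟩
  have h1 := congrFun h ⟨m, hm⟩
  simp only at h1
  have a1 := Nat.floor_le (mul_nonneg hN'.le (Int.fract_nonneg (x * θ m)))
  have a2 := Nat.floor_le (mul_nonneg hN'.le (Int.fract_nonneg (y * θ m)))
  have a3 := Nat.lt_floor_add_one (N * Int.fract (x * θ m))
  have a4 := Nat.lt_floor_add_one (N * Int.fract (y * θ m))
  rw [h1] at a1 a3
  rw [Nat.cast_sub hlt.le, show ((y : ℝ) - x) * θ m - (⌊y * θ m⌋ - ⌊x * θ m⌋ : ℤ) =
    Int.fract (y * θ m) - Int.fract (x * θ m) by unfold Int.fract; push_cast; ring, le_div_iff₀ hN',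
    ← abs_of_pos hN', ← abs_mul, abs_le]
  constructor <;> linarith

lemma params (J : ℕ) {η : ℝ} (hη : 0 < η) (hη1 : η ≤ 1 / 2) : ∃ (q ν : ℕ) (u : ℕ → ℕ), q.Prime ∧ J < q ∧
    (∀ m ∈ Icc 1 J, m ∣ q - 1) ∧ (ν : ℝ) ≤ η * q ∧ u 1 + ∑ m ∈ Icc 2 J, u m = ν ∧
      ∀ m ∈ Icc 2 J, |u m * Real.log q - (ν + 3) * vM m| ≤ η := by
  set n₀ := 2 * J + 6 with hn₀
  have hn0 : (0:ℝ) < n₀ := by positivity
  set c : ℝ := n₀ * (n₀ / η + 1) ^ J with hc
  have hc0 : 0 < c := by positivity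
  have t1 := ((Real.tendsto_pow_log_div_mul_add_atTop 1 0 J one_ne_zero).comp
    tendsto_natCast_atTop_atTop).eventually (ge_mem_nhds (show 0 < η / c by positivity))
  have t2 := (Real.tendsto_log_atTop.comp tendsto_natCast_atTop_atTop).eventually_ge_atTop
    (2 * J * J + 1)
  obtain ⟨q, ⟨hq, hq1⟩, h1, h2, h3⟩ := ((Nat.frequently_atTop_modEq_one J.factorial_ne_zero).and_eventually
    (t1.and (t2.and (eventually_gt_atTop J)))).exists
  simp only [Function.comp, one_mul, add_zero] at h1 h2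
  have hq0 : (0:ℝ) < q := by exact_mod_cast hq.pos
  have hL1 : 1 ≤ Real.log q := by nlinarith [Nat.cast_nonneg (α := ℝ) J]
  have hL : 0 < Real.log q := by linarith
  set N := ⌈n₀ * Real.log q / η⌉₊ with hN
  have hN1 : n₀ * Real.log q / η ≤ N := Nat.le_ceil _
  have hN0 : (0:ℝ) < N := lt_of_lt_of_le (by positivity) hN1
  have hN2 : (N : ℝ) ≤ (n₀ / η + 1) * Real.log q := by
    have := (Nat.ceil_lt_add_one (show 0 ≤ n₀ * Real.log q / η by positivity)).le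
    calc (N : ℝ) ≤ n₀ * Real.log q / η + 1 := this
      _ ≤ n₀ * Real.log q / η + Real.log q := by gcongr
      _ = _ := by ring
  obtain ⟨n, hn1, hn2, hn3⟩ := dirichlet (Icc 2 J) (fun m => vM m / Real.log q) (N := N)
    (by exact_mod_cast hN0)
  choose! w hw using hn3
  have hn4 : n₀ ≤ n₀ * n := Nat.le_mul_of_pos_right _ hn1
  have hw1 : ∀ m ∈ Icc 2 J, |(n₀ * w m : ℤ) * Real.log q - (n₀ * n : ℕ) * vM m| ≤ η := by
    intro m hm
    rw [show ((n₀ * w m : ℤ) : ℝ) * Real.log q - (n₀ * n : ℕ) * vM m =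
      -(n₀ * Real.log q) * (n * (vM m / Real.log q) - w m) by push_cast; field_simp; ring, abs_mul,
      abs_neg, abs_of_pos (by positivity)]
    calc _ ≤ n₀ * Real.log q * (1 / N) := by gcongr; exact hw m hm
      _ ≤ _ := by rw [mul_one_div, div_le_iff₀ hN0]; rwa [div_le_iff₀' hη] at hN1
  have hw2 : ∀ m ∈ Icc 2 J, (((n₀ * w m).toNat : ℕ) : ℝ) = (n₀ * w m : ℤ) := by
    intro m hm
    have := (abs_le.1 (hw1 m hm)).1
    have h4 : 0 ≤ ((n₀ * n : ℕ) : ℝ) * vM m :=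
      mul_nonneg (Nat.cast_nonneg _) ArithmeticFunction.vonMangoldt_nonneg
    have h5 : (-1 : ℝ) < (n₀ * w m : ℤ) := by
      by_contra h; nlinarith
    have h6 : -1 < n₀ * w m := by exact_mod_cast h5
    exact_mod_cast Int.toNat_of_nonneg (by omega : 0 ≤ n₀ * w m)
  set U := ∑ m ∈ Icc 2 J, (n₀ * w m).toNat with hU
  have hU1 : U + 3 ≤ n₀ * n := by
    have : (U : ℝ) * Real.log q ≤ J * ((n₀ * n : ℕ) * J + 1) := by
      rw [hU, Nat.cast_sum, sum_mul]
      refine (sum_le_card_nsmul _ _ (((n₀ * n : ℕ) : ℝ) * J + 1) fun m hm => ?_).trans ?_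
      · have := (abs_le.1 (hw1 m hm)).2
        have h4 : vM m ≤ J := ArithmeticFunction.vonMangoldt_le_log.trans
          ((Real.log_le_self (Nat.cast_nonneg _)).trans (by exact_mod_cast (mem_Icc.1 hm).2))
        have h5 := mul_le_mul_of_nonneg_left h4 (Nat.cast_nonneg (α := ℝ) (n₀ * n))
        rw [hw2 m hm]; linarith
      · rw [nsmul_eq_mul]; gcongr; simp
    have h5 : (2 * J + 6 : ℝ) ≤ (n₀ * n : ℕ) := by exact_mod_cast hn4
    have h6 : (U : ℝ) ≤ (n₀ * n : ℕ) / 2 + J := by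
      refine le_of_mul_le_mul_right (this.trans ?_) hL
      have hJ := Nat.cast_nonneg (α := ℝ) J
      have : 0 ≤ ((n₀ * n : ℕ) : ℝ) := Nat.cast_nonneg _
      nlinarith [mul_le_mul_of_nonneg_left h2 this, mul_le_mul_of_nonneg_left hL1 hJ]
    have h7 : (U : ℝ) + 3 ≤ (n₀ * n : ℕ) := by linarith
    exact_mod_cast h7
  refine ⟨q, n₀ * n - 3, fun m => if m = 1 then n₀ * n - 3 - U else (n₀ * w m).toNat, hq, h3,
    fun m hm => ?_, ?_, ?_, fun m hm => ?_⟩
  · exact (Nat.dvd_factorial (mem_Icc.1 hm).1 (mem_Icc.1 hm).2).trans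
      ((Nat.modEq_iff_dvd' hq.pos).1 hq1.symm)
  · have e1 : (n : ℝ) ≤ N ^ J := by
      have : N ^ (Icc 2 J).card ≤ N ^ J := Nat.pow_le_pow_right (by exact_mod_cast hN0) (by simp)
      exact_mod_cast hn2.trans this
    rw [div_le_div_iff₀ hq0 hc0] at h1
    calc ((n₀ * n - 3 : ℕ) : ℝ) ≤ (n₀ * n : ℕ) := by exact_mod_cast Nat.sub_le _ _
      _ ≤ n₀ * ((n₀ / η + 1) * Real.log q) ^ J := by
          rw [Nat.cast_mul]; gcongr; exact e1.trans (by gcongr)
      _ = Real.log q ^ J * c := by rw [hc, mul_pow]; ring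
      _ ≤ _ := h1
  · beta_reduce
    rw [if_pos rfl, sum_congr rfl fun m hm => if_neg (by have := (mem_Icc.1 hm).1; omega), ← hU]
    omega
  · beta_reduce
    rw [if_neg (by have := (mem_Icc.1 hm).1; omega), hw2 m hm]
    have : ((n₀ * n - 3 : ℕ) : ℝ) + 3 = (n₀ * n : ℕ) := by
      exact_mod_cast (by omega : n₀ * n - 3 + 3 = n₀ * n)
    rw [this]; exact hw1 m hm

/-- a real trigonometric polynomial with small crest factor -/
def PropB (η : ℝ) : Prop := ∃ (ι κ : Type) (_ : Fintype ι) (_ : Fintype κ) (_ : Nonempty ι)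
  (l : ι → ℕ) (v : ι → κ → ℤ) (a0 : κ) (e : ι → ℂ), (∀ i, 0 < l i) ∧ (∀ i, v i a0 = l i) ∧
  (∀ i i', i ≠ i' → ∃ a b, v i a * v i' b ≠ v i b * v i' a) ∧ (∀ i, ‖e i‖ = 1) ∧
  ∀ y : κ → ℝ, |2 * (∑ i, (√(l i) : ℂ) * e i * ee (∑ a, v i a * y a)).re| ≤
    (1 + η) * √(2 * ∑ i, (l i : ℝ))

lemma assemble {γ β : Type} [Fintype γ] (Λ : Finset ℕ) (h0 : ∀ l ∈ Λ, 0 < l)
    (S : γ → ℕ → Finset β) (c : γ → ℕ → β → ℂ) (fr : γ → β → ℤ) (a : γ → ℕ → ℝ) (d : ℕ → ℂ)
    {c₀ A B E η : ℝ} (hc₀ : 0 < c₀) (hE : 0 < E) (hη : 0 < η)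
    (hinj : ∀ j, ∀ l ∈ Λ, Set.InjOn (fr j) (S j l))
    (hnp : ∀ l ∈ Λ, ∀ l' ∈ Λ, l ≠ l' → ∃ j, ∀ n ∈ S j l, ∀ n' ∈ S j l', l * fr j n' ≠ fr j n * l')
    (hc : ∀ j, ∀ l ∈ Λ, ∀ n ∈ S j l, ‖c j l n‖ ^ 2 = a j l)
    (hd : ∀ l ∈ Λ, ‖d l‖ ^ 2 * ∏ j, a j l = c₀ ^ 2 * l)
    (hcard : ∀ j, ∀ l ∈ Λ, E ≤ (S j l).card * a j l)
    (hadm : ∀ j y, Adm Λ A fun l => ∑ n ∈ S j l, c j l n * ee (fr j n * y)) (hB : Bd Λ d B)
    (hpos : 0 < ∑ l ∈ Λ, ‖d l‖ ^ 2)
    (hfin : 2 * (A ^ Fintype.card γ * B) ≤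
      (1 + η) * √(E ^ Fintype.card γ * (2 * ∑ l ∈ Λ, ‖d l‖ ^ 2))) : PropB η := by
  classical
  set I := Λ.sigma fun l => Fintype.piFinset fun j => S j l with hI
  have hmem : ∀ i : I, i.1.1 ∈ Λ ∧ ∀ j, i.1.2 j ∈ S j i.1.1 := fun i => by
    have := mem_sigma.1 i.2
    exact ⟨this.1, Fintype.mem_piFinset.1 this.2⟩
  have hsum : E ^ Fintype.card γ * ∑ l ∈ Λ, ‖d l‖ ^ 2 ≤ c₀ ^ 2 * ∑ i : I, (i.1.1 : ℝ) := by
    rw [sum_coe_sort I fun i => (i.1 : ℝ), hI, sum_sigma, mul_sum, mul_sum]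
    refine sum_le_sum fun l hl => ?_
    simp only [sum_const, Fintype.card_piFinset, nsmul_eq_mul, Nat.cast_prod]
    rw [mul_left_comm, ← hd l hl, mul_left_comm, ← prod_mul_distrib, mul_comm, ← card_univ,
      ← prod_const]
    gcongr with j
    exact hcard j l hl
  have hne : Nonempty I := by
    by_contra h
    rw [not_nonempty_iff] at h
    rw [univ_eq_empty (α := I), sum_empty, mul_zero] at hsum
    exact absurd hsum (not_le.2 (by positivity))
  refine ⟨I, Option γ, inferInstance, inferInstance, hne, fun i => i.1.1,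
    fun i a => a.elim i.1.1 fun j => fr j (i.1.2 j), none,
    fun i => d i.1.1 * (∏ j, c j i.1.1 (i.1.2 j)) / (c₀ * √(i.1.1) : ℝ), fun i => h0 _ (hmem i).1,
    fun i => rfl, fun i i' hii => ?_, fun i => ?_, fun y => ?_⟩
  · by_cases h : i.1.1 = i'.1.1
    · by_contra hcon
      push Not at hcon
      apply hii
      obtain ⟨⟨l, f⟩, hf⟩ := i
      obtain ⟨⟨l', f'⟩, hf'⟩ := i'
      simp only at h
      subst h
      have h1 := hmem ⟨_, hf⟩
      have h2 := hmem ⟨_, hf'⟩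
      congr
      funext j
      have := hcon none (some j)
      simp only [Option.elim] at this h1 h2
      refine hinj j l h1.1 (h1.2 j) (h2.2 j) ?_
      have hl : (l : ℤ) ≠ 0 := by exact_mod_cast (h0 l h1.1).ne'
      exact mul_left_cancel₀ hl (by linarith)
    · obtain ⟨j, hj⟩ := hnp _ (hmem i).1 _ (hmem i').1 h
      exact ⟨none, some j, hj _ ((hmem i).2 j) _ ((hmem i').2 j)⟩
  · have hl : (0:ℝ) < i.1.1 := by exact_mod_cast h0 _ (hmem i).1
    rw [← sq_eq_sq₀ (norm_nonneg _) zero_le_one, norm_div, norm_mul, norm_prod, div_pow, mul_pow,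
      ← prod_pow, prod_congr rfl fun j _ => hc j _ (hmem i).1 _ ((hmem i).2 j), hd _ (hmem i).1,
      Complex.norm_real, Real.norm_eq_abs, sq_abs, mul_pow, Real.sq_sqrt hl.le, one_pow,
      div_self (by positivity)]
  · have e1 : ∑ i : I, (√(i.1.1) : ℂ) * (d i.1.1 * (∏ j, c j i.1.1 (i.1.2 j)) / (c₀ * √(i.1.1) : ℝ)) *
        ee (∑ a : Option γ, (a.elim (i.1.1 : ℤ) fun j => fr j (i.1.2 j) : ℤ) * y a) =
        ((1 / c₀ : ℝ) : ℂ) * ∑ l ∈ Λ, d l * (∏ j, ∑ n ∈ S j l, c j l n * ee (fr j n * y (some j))) *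
          ee (l * y none) := by
      rw [sum_coe_sort I fun i => (√(i.1) : ℂ) * (d i.1 * (∏ j, c j i.1 (i.2 j)) / (c₀ * √(i.1) : ℝ)) *
        ee (∑ a : Option γ, (a.elim (i.1 : ℤ) fun j => fr j (i.2 j) : ℤ) * y a), hI, sum_sigma,
        mul_sum]
      refine sum_congr rfl fun l hl => ?_
      have hl : ((√l : ℝ) : ℂ) ≠ 0 := by
        exact_mod_cast (Real.sqrt_pos.2 (by exact_mod_cast h0 l hl)).ne'
      have hc' : (c₀ : ℂ) ≠ 0 := by exact_mod_cast hc₀.ne'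
      rw [prod_univ_sum, mul_sum, sum_mul, mul_sum]
      refine sum_congr rfl fun f _ => ?_
      rw [Fintype.sum_option, ee_add, ee_sum, prod_mul_distrib]
      simp only [Option.elim]
      push_cast; field_simp
    rw [e1, Complex.re_ofReal_mul, abs_mul, abs_mul, abs_two, abs_of_pos (by positivity)]
    have e2 := Adm.prod univ (fun j => hadm j (y (some j))) d B hB (y none)
    rw [card_univ] at e2
    have e3 : √(E ^ Fintype.card γ * (2 * ∑ l ∈ Λ, ‖d l‖ ^ 2)) ≤ c₀ * √(2 * ∑ i : I, (i.1.1 : ℝ)) := by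
      rw [← Real.sqrt_sq hc₀.le, ← Real.sqrt_mul (sq_nonneg _)]
      exact Real.sqrt_le_sqrt (by linarith)
    calc _ ≤ 2 * (1 / c₀ * (A ^ Fintype.card γ * B)) := by gcongr
      _ = 1 / c₀ * (2 * (A ^ Fintype.card γ * B)) := by ring
      _ ≤ 1 / c₀ * ((1 + η) * (c₀ * √(2 * ∑ i : I, (i.1.1 : ℝ)))) := by
          exact mul_le_mul_of_nonneg_left (hfin.trans (by gcongr)) (by positivity)
      _ = _ := by field_simp

set_option maxHeartbeats 800000 in
lemma propB (hR : Rounding) {η : ℝ} (hη : 0 < η) : PropB η := by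
  classical
  obtain ⟨x, hx, hx1, hx2⟩ : ∃ x : ℝ, 0 < x ∧ 100 * x ≤ η ∧ 100 * x ≤ 1 :=
    ⟨min η 1 / 100, by positivity, by linarith [min_le_left η 1], by linarith [min_le_right η 1]⟩
  have hnum : 2 * ((1 + 2 * x) * (1 / 2 + x + x)) ≤ (1 + 100 * x) * ((1 - x) * (1 - x)) := by
    nlinarith [mul_pos hx hx, mul_pos hx (mul_pos hx hx)]
  obtain ⟨Λ, hodd, hBd, hL2⟩ := square hR hx
  have h0 : ∀ l ∈ Λ, 0 < l := fun l hl => (hodd l hl).pos
  obtain ⟨J, hJ, hJ1⟩ : ∃ J, (∀ l ∈ Λ, l ≤ J) ∧ 1 ≤ J :=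
    ⟨Λ.sup id + 1, fun l hl => (le_sup (f := id) hl).trans (Nat.le_succ _), by omega⟩
  have hJ' : (1:ℝ) ≤ J := by exact_mod_cast hJ1
  have hΛ : (Λ.card : ℝ) ≤ J := by
    have : Λ ⊆ Icc 1 J := fun l hl => mem_Icc.2 ⟨h0 l hl, hJ l hl⟩
    exact_mod_cast (card_le_card this).trans (by simp)
  obtain ⟨η', hη'⟩ : ∃ e : ℝ, e = x / J ^ 2 := ⟨_, rfl⟩
  have hη0 : 0 < η' := by rw [hη']; positivity
  have hη1 : J * (J * η') = x := by rw [hη']; field_simp
  have hη2 : J * η' ≤ x := by nlinarith [mul_pos (show (0:ℝ) < J by linarith) hη0]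
  have hη3 : η' ≤ x := by nlinarith
  obtain ⟨q, ν, u, hq, hqJ, hqm, hν, hu, hu2⟩ := params J hη0 (by linarith)
  have hq0 : (0:ℝ) < q := by exact_mod_cast hq.pos
  have hq2 : (2:ℝ) ≤ q := by exact_mod_cast hq.two_le
  set Γ := (Icc 1 J).sigma fun m => range (u m) with hΓ
  have hIcc : Icc 1 J = insert 1 (Icc 2 J) := by ext; simp; omega
  have hcardΓ : Fintype.card Γ = ν := by
    rw [Fintype.card_coe, card_sigma, hIcc, sum_insert (by simp)]; simpa using hu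
  have hΓm : ∀ j : Γ, j.1.1 ∈ Icc 1 J := fun j => (mem_sigma.1 j.2).1
  choose M S c fr hM hinj hc hcard hadm using fun j : Γ => gadget hR h0 hq (hqm _ (hΓm j))
    (mem_Icc.1 (hΓm j)).1 (ε := 1 / q) (by positivity) ((div_le_one hq0).2 (by linarith))
  set r : ℕ → ℝ := fun l => ∑ m ∈ (Icc 2 J).filter (· ∣ l), (u m * Real.log q - (ν + 3) * vM m)
    with hr
  have hr1 : ∀ l, |r l| ≤ J * η' := fun l => (abs_sum_le_sum_abs _ _).trans
    ((sum_le_card_nsmul _ _ η' fun m hm => hu2 m (mem_filter.1 hm).1).trans (by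
      rw [nsmul_eq_mul]; gcongr
      exact (card_filter_le _ _).trans (by simp)))
  have hMp : 0 < ∏ j, 1 / (M j : ℝ) := prod_pos fun j _ => by have := hM j; positivity
  have hnd : ∀ l, ‖sqc l * (Real.exp (-r l / 2) : ℝ)‖ ^ 2 = ‖sqc l‖ ^ 2 * Real.exp (-r l) := by
    intro l
    rw [norm_mul, mul_pow, Complex.norm_real, Real.norm_eq_abs, sq_abs, ← Real.exp_nat_mul]
    congr 2; push_cast; ring
  have hL3 : (1 - x) * (1 - x) ≤ 2 * ∑ l ∈ Λ, ‖sqc l * (Real.exp (-r l / 2) : ℝ)‖ ^ 2 := by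
    calc _ ≤ (∑ l ∈ Λ, 2 * ‖sqc l‖ ^ 2) * (1 - x) := by gcongr; linarith
      _ ≤ _ := by
        rw [sum_mul, mul_sum]
        refine sum_le_sum fun l _ => ?_
        rw [hnd, mul_assoc]
        gcongr
        linarith [Real.add_one_le_exp (-r l), (abs_le.1 (hr1 l)).2]
  refine assemble Λ h0 S c fr (fun j l => 1 / (l * M j) * if j.1.1 ∣ l then 1 else 1 / (q : ℝ))
    (fun l => sqc l * (Real.exp (-r l / 2) : ℝ))
    (c₀ := √((2 / π) ^ 2 * (∏ j, 1 / (M j : ℝ)) * (1 / q) ^ ∑ m ∈ Icc 2 J, u m))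
    (E := (1 - 1 / q) * (1 - 1 / q)) (B := 1 / 2 + x + x) (by positivity) ?_ hη hinj ?_
    (fun j l hl n hn => (hc j l hl n hn).2) ?_ hcard hadm (hBd.perturb ?_) (by nlinarith) ?_
  · have : 1 / (q:ℝ) < 1 := (div_lt_one hq0).2 (by linarith)
    exact mul_pos (by linarith) (by linarith)
  · have key : ∀ l ∈ Λ, ∀ l' ∈ Λ, ¬ l ∣ l' → ∃ j, ∀ n ∈ S j l, ∀ n' ∈ S j l',
        l * fr j n' ≠ fr j n * l' := by
      intro l hl l' hl' hd
      rw [Nat.dvd_iff_prime_pow_dvd_dvd] at hd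
      push Not at hd
      obtain ⟨p, k, hp, h1, h2⟩ := hd
      have hk : k ≠ 0 := by rintro rfl; simp at h2
      have hm : p ^ k ∈ Icc 2 J := mem_Icc.2 ⟨Nat.one_lt_pow hk hp.one_lt,
        (Nat.le_of_dvd (h0 l hl) h1).trans (hJ l hl)⟩
      have hu0 : 0 < u (p ^ k) := by
        by_contra h
        have h3 := hu2 _ hm
        rw [show u (p ^ k) = 0 by omega, vM, ArithmeticFunction.vonMangoldt_apply_pow hk,
          ArithmeticFunction.vonMangoldt_apply_prime hp] at h3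
        have h4 : Real.log 2 ≤ Real.log p := Real.log_le_log two_pos (by exact_mod_cast hp.two_le)
        have h5 := Real.log_two_gt_d9
        have := (abs_le.1 h3).1
        have h6 := mul_nonneg (Nat.cast_nonneg (α := ℝ) ν) (show 0 ≤ Real.log p by linarith)
        simp only [Nat.cast_zero, zero_mul, add_mul] at this
        linarith
      refine ⟨⟨⟨p ^ k, 0⟩, mem_sigma.2 ⟨mem_Icc.2 ⟨le_trans one_le_two (mem_Icc.1 hm).1,
        (mem_Icc.1 hm).2⟩, mem_range.2 hu0⟩⟩, fun n hn n' hn' heq => ?_⟩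
      have a1 := (hc _ l hl n hn).1.2 h1
      have a2 := mt (hc _ l' hl' n' hn').1.1 h2
      rcases (Nat.prime_iff_prime_int.1 hq).dvd_or_dvd (heq ▸ a1.mul_right l') with h | h
      · have := Nat.le_of_dvd (h0 l hl) (Int.natCast_dvd_natCast.1 h)
        have := hJ l hl
        omega
      · exact a2 h
    intro l hl l' hl' hne
    by_cases h : l ∣ l'
    · obtain ⟨j, hj⟩ := key l' hl' l hl fun h' => hne (Nat.dvd_antisymm h h')
      exact ⟨j, fun n hn n' hn' heq => hj n' hn' n hn (by linarith)⟩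
    · exact key l hl l' hl' h
  · intro l hl
    have hl0 : (0:ℝ) < l := by exact_mod_cast h0 l hl
    have e1 : ∏ j : Γ, (if j.1.1 ∣ l then 1 else 1 / (q : ℝ)) = (1 / q) ^ (∑ m ∈ Icc 2 J, u m) *
        Real.exp (∑ m ∈ (Icc 2 J).filter (· ∣ l), u m * Real.log q) := by
      rw [prod_coe_sort Γ fun j => if j.1 ∣ l then 1 else 1 / (q : ℝ), hΓ, prod_sigma, hIcc,
        prod_insert (by simp), sum_filter, Real.exp_sum, ← prod_pow_eq_pow_sum, ← prod_mul_distrib]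
      simp only [one_dvd, if_true, prod_const_one, one_mul, prod_const, card_range]
      refine prod_congr rfl fun m _ => ?_
      split_ifs
      · rw [Real.exp_nat_mul, Real.exp_log hq0, ← mul_pow, one_div_mul_cancel hq0.ne']; simp
      · simp
    have e2 : ∑ m ∈ (Icc 2 J).filter (· ∣ l), vM m = Real.log l := by
      rw [← ArithmeticFunction.vonMangoldt_sum]
      refine sum_subset (fun m hm => Nat.mem_divisors.2 ⟨(mem_filter.1 hm).2, (h0 l hl).ne'⟩)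
        fun m hm hm' => ?_
      have h1 := Nat.dvd_of_mem_divisors hm
      have h2 := Nat.pos_of_mem_divisors hm
      have h3 := (Nat.le_of_dvd (h0 l hl) h1).trans (hJ l hl)
      have : m = 1 := by
        by_contra h; exact hm' (mem_filter.2 ⟨mem_Icc.2 ⟨by omega, h3⟩, h1⟩)
      rw [this]; exact ArithmeticFunction.vonMangoldt_apply_one
    have e3 : Real.exp (-r l) * Real.exp (∑ m ∈ (Icc 2 J).filter (· ∣ l), u m * Real.log q) =
        l ^ (ν + 3) := by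
      rw [← Real.exp_add, hr]
      simp only [sum_sub_distrib, ← mul_sum, e2]
      rw [← Real.exp_log (pow_pos hl0 _), Real.log_pow]; congr 1; push_cast; ring
    have e4 : ∏ j : Γ, 1 / ((l : ℝ) * M j) = (1 / l) ^ ν * ∏ j, 1 / (M j : ℝ) := by
      rw [← hcardΓ, ← card_univ, ← prod_const, ← prod_mul_distrib]
      exact prod_congr rfl fun j _ => by rw [one_div_mul_one_div]
    have e5 : ‖sqc l‖ = 2 / π / l := by
      simp [sqc, hodd l hl, abs_of_pos Real.pi_pos, div_div]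
    rw [hnd, prod_mul_distrib, e1, e4, e5, Real.sq_sqrt (by positivity)]
    calc _ = (2 / π / l) ^ 2 * (1 / l) ^ ν * (∏ j, 1 / (M j : ℝ)) * (1 / q) ^ (∑ m ∈ Icc 2 J, u m) *
          (Real.exp (-r l) * Real.exp (∑ m ∈ (Icc 2 J).filter (· ∣ l), u m * Real.log q)) := by ring
      _ = _ := by rw [e3, one_div_pow]; field_simp; ring
  · refine (sum_le_card_nsmul _ _ (J * η') fun l hl => ?_).trans ?_
    · have hl1 : (1:ℝ) ≤ l := by exact_mod_cast h0 l hl
      rw [← mul_sub_one, norm_mul, ← Complex.ofReal_one, ← Complex.ofReal_sub, Complex.norm_real,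
        Real.norm_eq_abs]
      have h1 := hr1 l
      have h2 : |-r l / 2| = |r l| / 2 := by rw [abs_div, abs_neg, abs_two]
      have h3 := Real.abs_exp_sub_one_le (x := -r l / 2) (by linarith)
      have h4 : ‖sqc l‖ ≤ 1 := (norm_sqc_le l).trans ((div_le_one (by linarith)).2 hl1)
      calc _ ≤ 1 * (J * η') := by gcongr; linarith
        _ = _ := one_mul _
    · rw [nsmul_eq_mul, ← hη1]; gcongr
  · rw [hcardΓ]
    have h1 : ν * (1 / (q:ℝ)) ≤ x := by rw [mul_one_div, div_le_iff₀ hq0]; nlinarith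
    have h1' : 0 ≤ ν * (1 / (q:ℝ)) := by positivity
    have h2 : (1 + 1 / (q:ℝ)) ^ ν ≤ 1 + 2 * x := by
      calc _ ≤ Real.exp (1 / q) ^ ν := by gcongr; linarith [Real.add_one_le_exp (1 / (q:ℝ))]
        _ ≤ Real.exp x := by rw [← Real.exp_nat_mul]; gcongr
        _ ≤ _ := by
          have := Real.abs_exp_sub_one_le (x := x) (by rw [abs_of_pos hx]; linarith)
          rw [abs_of_pos hx] at this; linarith [le_abs_self (Real.exp x - 1)]
    have h3 : 1 - x ≤ (1 - 1 / (q:ℝ)) ^ ν := by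
      have : 1 / (q:ℝ) ≤ 1 := (div_le_one hq0).2 (by linarith)
      have := one_add_mul_le_pow (a := -(1 / (q:ℝ))) (by linarith) ν
      rw [← sub_eq_add_neg] at this; linarith
    have h4 : (1 - x) * (1 - x) ≤ √(((1 - 1 / (q:ℝ)) * (1 - 1 / q)) ^ ν *
        (2 * ∑ l ∈ Λ, ‖sqc l * (Real.exp (-r l / 2) : ℝ)‖ ^ 2)) := by
      have hx3 : 0 ≤ 1 - x := by linarith
      refine Real.le_sqrt_of_sq_le ?_
      have hx4 := hx3.trans h3
      rw [mul_pow _ _ ν, sq]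
      gcongr
    calc _ ≤ 2 * ((1 + 2 * x) * (1 / 2 + x + x)) := by gcongr
      _ ≤ (1 + 100 * x) * ((1 - x) * (1 - x)) := hnum
      _ ≤ _ := mul_le_mul (by linarith) h4 (mul_self_nonneg _) (by linarith)

end Vale.Agent.P110
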