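import Vale.Agent.P110.Basic

open Finset

namespace Vale.Agent.P110

/-- sign of a Boolean -/
noncomputable def sg (b : Bool) : ℝ := if b then 1 else -1

lemma rd_mgf {ι : Type} [Fintype ι] [DecidableEq ι] (a : ι → ℝ) :
    ∑ x : ι → Bool, Real.exp (∑ k, a k * sg (x k)) ≤
      2 ^ Fintype.card ι * Real.exp (∑ k, a k ^ 2 / 2) := by
  simp only [Real.exp_sum]
  rw [← Fintype.piFinset_univ, ← prod_univ_sum (fun _ => univ) fun k b => Real.exp (a k * sg b),
    ← card_univ, ← prod_const, ← prod_mul_distrib]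
  refine prod_le_prod (fun k _ => sum_nonneg fun _ _ => (Real.exp_pos _).le) fun k _ => ?_
  have := Real.cosh_le_exp_half_sq (a k)
  rw [Real.cosh_eq] at this
  simp only [Fintype.sum_bool, sg, if_true, mul_one, Bool.false_eq_true, if_false, mul_neg]
  linarith

lemma rd_fourth {ι : Type} [Fintype ι] [DecidableEq ι] (a : ι → ℝ) (ha : ∀ k, |a k| ≤ 1) {v : ℝ}
    (hv : 0 < v) (hn : (Fintype.card ι : ℝ) ≤ v ^ 2) :
    ∑ x : ι → Bool, (∑ k, a k * sg (x k)) ^ 4 ≤ 2 ^ Fintype.card ι * (144 * v ^ 4) := by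
  have h1 : ∀ y : ℝ, y ^ 4 ≤ 24 * v ^ 4 * (Real.exp (y / v) + Real.exp (-y / v)) := by
    intro y
    have e1 := Real.pow_div_factorial_le_exp |y / v| (abs_nonneg _) 4
    have e2 : Real.exp |y / v| ≤ Real.exp (y / v) + Real.exp (-y / v) := by
      rcases abs_cases (y / v) with h | h
      · rw [h.1]; linarith [Real.exp_pos (-y / v)]
      · rw [h.1, neg_div]; linarith [Real.exp_pos (y / v)]
    rw [show (4 : ℕ) = 2 * 2 from rfl, pow_mul, sq_abs, ← pow_mul, div_pow, div_div,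
      div_le_iff₀ (by positivity)] at e1
    have e3 : ((2 * 2 : ℕ).factorial : ℝ) = 24 := by norm_num [Nat.factorial]
    rw [e3] at e1
    calc y ^ 4 ≤ Real.exp |y / v| * (v ^ 4 * 24) := e1
      _ ≤ (Real.exp (y / v) + Real.exp (-y / v)) * (v ^ 4 * 24) := by gcongr
      _ = _ := by ring
  have h2 : ∀ a : ι → ℝ, (∀ k, |a k| ≤ 1) →
      ∑ x : ι → Bool, Real.exp ((∑ k, a k * sg (x k)) / v) ≤ 2 ^ Fintype.card ι * 3 := by
    intro a ha
    have e1 := rd_mgf fun k => a k / v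
    have e2 : ∑ k, (a k / v) ^ 2 / 2 ≤ 1 := by
      calc _ ≤ ∑ _k : ι, 1 / v ^ 2 := sum_le_sum fun k _ => by
            have := sq_le_one_iff_abs_le_one (a k) |>.2 (ha k)
            have h3 : (a k / v) ^ 2 ≤ 1 / v ^ 2 := by rw [div_pow]; gcongr
            linarith [sq_nonneg (a k / v)]
        _ ≤ 1 := by
            rw [sum_const, card_univ, nsmul_eq_mul, mul_one_div, div_le_one (by positivity)]
            exact hn
    have e3 : Real.exp (∑ k, (a k / v) ^ 2 / 2) ≤ 3 :=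
      (Real.exp_le_exp.2 e2).trans (by linarith [Real.exp_one_lt_d9])
    calc _ = ∑ x : ι → Bool, Real.exp (∑ k, a k / v * sg (x k)) :=
          sum_congr rfl fun x _ => by
            rw [sum_div]; congr 1; exact sum_congr rfl fun k _ => by ring
      _ ≤ _ := e1
      _ ≤ _ := by gcongr
  have h3 := h2 a ha
  have h4 := h2 (fun k => -a k) (fun k => by rw [abs_neg]; exact ha k)
  simp only [neg_mul, sum_neg_distrib] at h4
  calc _ ≤ ∑ x : ι → Bool, 24 * v ^ 4 * (Real.exp ((∑ k, a k * sg (x k)) / v) +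
        Real.exp (-(∑ k, a k * sg (x k)) / v)) := sum_le_sum fun x _ => h1 _
    _ = 24 * v ^ 4 * (∑ x : ι → Bool, Real.exp ((∑ k, a k * sg (x k)) / v) +
        ∑ x : ι → Bool, Real.exp (-(∑ k, a k * sg (x k)) / v)) := by
          rw [← mul_sum, sum_add_distrib]
    _ ≤ 24 * v ^ 4 * (2 ^ Fintype.card ι * 3 + 2 ^ Fintype.card ι * 3) := by gcongr
    _ = _ := by ring

lemma rd_ball {ι : Type} [Fintype ι] [DecidableEq ι] (x : ι → Bool) (F : Finset (ι → Bool))
    (hF : ∀ y ∈ F, 4 * (univ.filter fun k => x k ≠ y k).card ≤ Fintype.card ι) :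
    (F.card : ℝ) ≤ (16 / 9) ^ Fintype.card ι := by
  have h1 : ∑ y : ι → Bool, ∏ k, (if x k ≠ y k then (3 / 4 : ℝ) ^ 4 else 1) =
      (1 + (3 / 4) ^ 4) ^ Fintype.card ι := by
    rw [← Fintype.piFinset_univ,
      ← prod_univ_sum (fun _ => univ) fun k b => if x k ≠ b then (3 / 4 : ℝ) ^ 4 else 1,
      ← card_univ, ← prod_const]
    refine prod_congr rfl fun k _ => ?_
    cases x k <;> simp [add_comm]
  have h2 : (F.card : ℝ) * (3 / 4) ^ Fintype.card ι ≤ (1 + (3 / 4) ^ 4) ^ Fintype.card ι := by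
    rw [← h1, ← nsmul_eq_mul]
    refine (card_nsmul_le_sum F _ _ fun y hy => ?_).trans
      (sum_le_sum_of_subset_of_nonneg (subset_univ F) fun y _ _ =>
        prod_nonneg fun k _ => by split_ifs <;> norm_num)
    rw [prod_ite, prod_const_one, mul_one, prod_const, ← pow_mul]
    exact pow_le_pow_of_le_one (by norm_num) (by norm_num) (hF y hy)
  rw [← le_div_iff₀ (by positivity), ← div_pow] at h2
  exact h2.trans (pow_le_pow_left₀ (by norm_num) (by norm_num) _)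

lemma rd_fibre {X I : Type} [Fintype X] [Fintype I] [DecidableEq I] (f : X → I → ℕ) {N ρ : ℝ}
    (hN : ∀ γ, ((univ.filter fun x => f x = γ).card : ℝ) ≤ N) (h0 : 0 ≤ ρ) (h1 : ρ ≤ 1 / 2) :
    ∑ x, ∏ i, ρ ^ f x i ≤ N * Real.exp (2 * ρ * Fintype.card I) := by
  classical
  obtain ⟨M, hM⟩ : ∃ M, ∀ x i, f x i < M := ⟨∑ x, ∑ i, f x i + 1, fun x i =>
    Nat.lt_succ_of_le ((single_le_sum (f := f x) (fun _ _ => Nat.zero_le _) (mem_univ i)).trans
      (single_le_sum (f := fun x => ∑ i, f x i) (fun _ _ => Nat.zero_le _) (mem_univ x)))⟩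
  have hN0 : 0 ≤ N := le_trans (Nat.cast_nonneg _) (hN 0)
  have hg : ∑ j ∈ range M, ρ ^ j ≤ Real.exp (2 * ρ) := by
    have e1 := mul_neg_geom_sum ρ M
    have e2 := Real.add_one_le_exp (2 * ρ)
    have e3 : 0 ≤ ρ ^ M := pow_nonneg h0 _
    refine le_trans (le_of_mul_le_mul_left ?_ (by linarith : 0 < 1 - ρ)) e2
    nlinarith
  rw [← sum_fiberwise_of_maps_to (t := Fintype.piFinset fun _ : I => range M) (g := f)
    (fun x _ => Fintype.mem_piFinset.2 fun i => mem_range.2 (hM x i))]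
  calc _ ≤ ∑ γ ∈ Fintype.piFinset fun _ : I => range M, N * ∏ i, ρ ^ γ i :=
        sum_le_sum fun γ _ => by
          rw [sum_congr rfl (g := fun _ => ∏ i, ρ ^ γ i) fun x hx => by rw [(mem_filter.1 hx).2],
            sum_const, nsmul_eq_mul]
          exact mul_le_mul_of_nonneg_right (hN γ) (prod_nonneg fun _ _ => pow_nonneg h0 _)
    _ = N * ∏ _i : I, ∑ j ∈ range M, ρ ^ j := by
        rw [← mul_sum, prod_univ_sum]
    _ ≤ _ := by
        refine mul_le_mul_of_nonneg_left ?_ hN0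
        rw [prod_const, card_univ, mul_comm _ (Fintype.card I : ℝ), Real.exp_nat_mul]
        exact pow_le_pow_left₀ (sum_nonneg fun _ _ => pow_nonneg h0 _) hg _

lemma rd_round {y : ℝ} : ((round (y / 2)).natAbs : ℝ) ≤ y ^ 4 := by
  have h1 := abs_sub_round (y / 2)
  rw [← Int.cast_natCast, Int.natCast_natAbs, Int.cast_abs]
  by_cases h : |y| < 1
  · have h2 : round (y / 2) = 0 := by
      rw [round_eq_zero_iff]
      have := abs_lt.1 h
      constructor <;> linarith [this.1, this.2]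
    rw [h2]; simp only [Int.cast_zero, abs_zero]; positivity
  · rw [not_lt] at h
    have h2 : |((round (y / 2) : ℤ) : ℝ)| ≤ |y| := by
      have e1 := abs_sub_abs_le_abs_sub ((round (y / 2) : ℤ) : ℝ) (y / 2)
      rw [abs_sub_comm, abs_div, abs_two] at e1
      linarith
    calc _ ≤ |y| := h2
      _ ≤ |y| ^ 4 := le_self_pow₀ h (by norm_num)
      _ = y ^ 4 := by rw [show (4 : ℕ) = 2 * 2 from rfl, pow_mul, sq_abs, ← pow_mul]

lemma rd_half {ι I : Type} [Fintype ι] [DecidableEq ι] [Fintype I] (a : I → ι → ℝ)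
    (ha : ∀ i k, |a i k| ≤ 1) {u w : ℝ} (hu : 0 < u) (hn : (Fintype.card ι : ℝ) = u ^ 6)
    (hw : 0 < w) (hm : (Fintype.card I : ℝ) ≤ w ^ 3) (hnm : u ^ 6 ≤ w ^ 3) :
    ∃ x y : ι → Bool, Fintype.card ι < 4 * (univ.filter fun k => x k ≠ y k).card ∧
      ∀ i, |∑ k, a i k * sg (x k) - ∑ k, a i k * sg (y k)| ≤ 40 * (w * u) := by
  classical
  by_contra hcon
  obtain ⟨L, hL⟩ : ∃ L : (ι → Bool) → I → ℝ, ∀ x i, L x i = ∑ k, a i k * sg (x k) :=
    ⟨_, fun _ _ => rfl⟩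
  obtain ⟨Δ, hΔ⟩ : ∃ Δ, Δ = 20 * (w * u) := ⟨_, rfl⟩
  have hΔ0 : 0 < Δ := by rw [hΔ]; positivity
  obtain ⟨β, hβ⟩ : ∃ β : (ι → Bool) → I → ℤ, ∀ x i, β x i = round (L x i / Δ / 2) :=
    ⟨_, fun _ _ => rfl⟩
  obtain ⟨f, hf⟩ : ∃ f : (ι → Bool) → I → ℕ, ∀ x i,
    f x i = (2 * β x i).toNat + (-2 * β x i - 1).toNat := ⟨_, fun _ _ => rfl⟩
  obtain ⟨r, hr⟩ : ∃ r, r = u ^ 2 / (4 * w) := ⟨_, rfl⟩
  have hr0 : 0 < r := by rw [hr]; positivity
  have hr3 : r ^ 3 = u ^ 6 / (64 * w ^ 3) := by rw [hr]; field_simp; norm_num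
  have hw3 : 0 < w ^ 3 := by positivity
  have h1 := rd_fibre f (N := (16 / 9) ^ Fintype.card ι) (ρ := r ^ 3) (fun γ => by
    rcases (univ.filter fun x => f x = γ).eq_empty_or_nonempty with h | ⟨x, hx⟩
    · rw [h]; simp only [card_empty, Nat.cast_zero]; positivity
    refine rd_ball x _ fun y hy => ?_
    by_contra hlt
    refine hcon ⟨x, y, not_le.1 hlt, fun i => ?_⟩
    have e1 : f x i = f y i := by rw [(mem_filter.1 hx).2, (mem_filter.1 hy).2]
    have e2 : β x i = β y i := by rw [hf, hf] at e1; omega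
    have e3 := abs_le.1 (abs_sub_round (L x i / Δ / 2))
    have e4 := abs_le.1 (abs_sub_round (L y i / Δ / 2))
    rw [← hβ] at e3 e4
    rw [e2] at e3
    have e5 : |(L x i - L y i) / Δ| ≤ 2 := by
      rw [sub_div, abs_le]; constructor <;> linarith [e3.1, e3.2, e4.1, e4.2]
    rw [abs_div, abs_of_pos hΔ0, div_le_iff₀ hΔ0] at e5
    rw [← hL, ← hL]
    linarith) (by positivity) (by
      rw [hr3, div_le_iff₀ (by positivity)]; linarith)
  obtain ⟨lam, hlam⟩ : ∃ lam, lam = -Real.log (r ^ 3) := ⟨_, rfl⟩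
  have hlam1 : lam ≤ 12 * w / u ^ 2 := by
    have e1 := Real.log_le_sub_one_of_pos (inv_pos.2 hr0)
    rw [Real.log_inv] at e1
    have e2 : r⁻¹ = 4 * w / u ^ 2 := by rw [hr, inv_div]
    rw [hlam, Real.log_pow, show 12 * w / u ^ 2 = 3 * (4 * w / u ^ 2) by ring, ← e2]
    push_cast
    linarith
  have h2 : ∀ x, ∏ i, (r ^ 3) ^ f x i = Real.exp (-(lam * ∑ i, (f x i : ℝ))) := by
    intro x
    rw [prod_pow_eq_pow_sum, hlam, neg_mul, neg_neg, ← Nat.cast_sum, mul_comm, Real.exp_nat_mul,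
      Real.exp_log (by positivity)]
  have h3 : ∑ x, lam * ∑ i, (f x i : ℝ) ≤ 2 ^ Fintype.card ι * (u ^ 6 / 20) := by
    have e1 : ∀ x i, (f x i : ℝ) ≤ 2 * (L x i ^ 4 / Δ ^ 4) := by
      intro x i
      have e2 : f x i ≤ 2 * (β x i).natAbs := by rw [hf]; omega
      have e3 : (f x i : ℝ) ≤ 2 * ((β x i).natAbs : ℝ) := by exact_mod_cast e2
      have e4 := rd_round (y := L x i / Δ)
      rw [← hβ, div_pow] at e4
      linarith
    have e2 : ∀ i, ∑ x, (f x i : ℝ) ≤ 2 * (2 ^ Fintype.card ι * (144 * (u ^ 3) ^ 4) / Δ ^ 4) := by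
      intro i
      refine (sum_le_sum fun x _ => e1 x i).trans ?_
      rw [← mul_sum, ← sum_div]
      simp only [hL]
      gcongr
      exact rd_fourth (a i) (ha i) (by positivity) (by rw [hn]; exact le_of_eq (by ring))
    rw [← mul_sum, sum_comm]
    calc lam * ∑ i, ∑ x, (f x i : ℝ) ≤ (12 * w / u ^ 2) * ∑ i, ∑ x, (f x i : ℝ) :=
          mul_le_mul_of_nonneg_right hlam1 (by positivity)
      _ ≤ (12 * w / u ^ 2) *
          (w ^ 3 * (2 * (2 ^ Fintype.card ι * (144 * (u ^ 3) ^ 4) / Δ ^ 4))) := by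
          refine mul_le_mul_of_nonneg_left ((sum_le_sum fun i _ => e2 i).trans ?_) (by positivity)
          rw [sum_const, card_univ, nsmul_eq_mul]
          gcongr
      _ = 2 ^ Fintype.card ι * (u ^ 6 * (27 / 1250)) := by rw [hΔ]; field_simp; norm_num
      _ ≤ _ := by
          refine mul_le_mul_of_nonneg_left ?_ (by positivity)
          linarith [pow_pos hu 6]
  have h4 : 2 ^ Fintype.card ι * Real.exp (-(u ^ 6 / 20)) ≤ ∑ x, ∏ i, (r ^ 3) ^ f x i := by
    have e1 : ∀ x, Real.exp (-(u ^ 6 / 20)) * (1 + u ^ 6 / 20 - lam * ∑ i, (f x i : ℝ)) ≤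
        ∏ i, (r ^ 3) ^ f x i := by
      intro x
      rw [h2, show -(lam * ∑ i, (f x i : ℝ)) =
        -(u ^ 6 / 20) + (u ^ 6 / 20 - lam * ∑ i, (f x i : ℝ)) by ring, Real.exp_add]
      refine mul_le_mul_of_nonneg_left ?_ (Real.exp_pos _).le
      linarith [Real.add_one_le_exp (u ^ 6 / 20 - lam * ∑ i, (f x i : ℝ))]
    refine le_trans ?_ (sum_le_sum fun x _ => e1 x)
    rw [← mul_sum, sum_sub_distrib, sum_const, card_univ, nsmul_eq_mul, mul_comm]
    refine mul_le_mul_of_nonneg_left ?_ (Real.exp_pos _).le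
    simp only [Fintype.card_pi, Fintype.card_bool, prod_const, card_univ, Nat.cast_pow,
      Nat.cast_ofNat]
    linarith
  have h5 : 2 * r ^ 3 * Fintype.card I ≤ u ^ 6 / 20 := by
    calc 2 * r ^ 3 * Fintype.card I ≤ 2 * r ^ 3 * w ^ 3 := by gcongr
      _ = u ^ 6 / 32 := by rw [hr3]; field_simp; norm_num
      _ ≤ _ := by linarith [pow_pos hu 6]
  have h6 : (2 : ℝ) ^ Fintype.card ι * Real.exp (-(u ^ 6 / 20)) ≤
      (16 / 9) ^ Fintype.card ι * Real.exp (u ^ 6 / 20) :=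
    h4.trans (h1.trans (by gcongr))
  rw [Real.exp_neg, ← div_eq_mul_inv, div_le_iff₀ (Real.exp_pos _), mul_assoc, ← Real.exp_add,
    ← hn, show (Fintype.card ι : ℝ) / 20 + Fintype.card ι / 20 = Fintype.card ι * (1 / 10) by ring,
    Real.exp_nat_mul, ← mul_pow] at h6
  have h7 : Fintype.card ι ≠ 0 := by
    intro h; rw [h] at hn; have := pow_pos hu 6; simp only [Nat.cast_zero] at hn; linarith
  have h8 : Real.exp (1 / 10) ≤ 10 / 9 := by
    have e1 := Real.add_one_le_exp (-(1 / 10))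
    rw [Real.exp_neg, le_inv_comm₀ (by norm_num) (Real.exp_pos _)] at e1
    exact e1.trans (by norm_num)
  exact absurd h6 (not_le.2 (pow_lt_pow_left₀ (by linarith) (by positivity) h7))

lemma rd_half' {I : Type} [Fintype I] (a : I → ℕ → ℝ) (ha : ∀ i k, |a i k| ≤ 1) (O : Finset ℕ)
    {u w : ℝ} (hu : 0 < u) (hn : (O.card : ℝ) = u ^ 6)
    (hw : 0 < w) (hm : (Fintype.card I : ℝ) ≤ w ^ 3) (hnm : u ^ 6 ≤ w ^ 3) :
    ∃ x y : ℕ → Bool, O.card < 4 * (O.filter fun k => x k ≠ y k).card ∧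
      ∀ i, |∑ k ∈ O, a i k * sg (x k) - ∑ k ∈ O, a i k * sg (y k)| ≤ 40 * (w * u) := by
  obtain ⟨x, y, h1, h2⟩ := rd_half (ι := O) (fun i k => a i k) (fun i k => ha i k) hu
    (by simpa using hn) hw hm hnm
  refine ⟨fun k => if h : k ∈ O then x ⟨k, h⟩ else false,
    fun k => if h : k ∈ O then y ⟨k, h⟩ else false, ?_, fun i => ?_⟩
  · rw [card_filter, ← sum_coe_sort O]
    rw [card_filter, Fintype.card_coe] at h1
    simpa using h1
  · rw [← sum_coe_sort O, ← sum_coe_sort O]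
    simpa using h2 i

lemma rd_full {I : Type} [Fintype I] (a : I → ℕ → ℝ) (ha : ∀ i k, |a i k| ≤ 1) {w : ℝ}
    (hw : 0 < w) (hm : (Fintype.card I : ℝ) ≤ w ^ 3) (n : ℕ) :
    ∀ O : Finset ℕ, O.card = n → (O.card : ℝ) ≤ w ^ 3 → ∀ u : ℝ, 0 ≤ u → (O.card : ℝ) ≤ u ^ 6 →
      ∃ χ : ℕ → ℤ, (∀ k, χ k = 1 ∨ χ k = -1) ∧ ∀ i, |∑ k ∈ O, a i k * χ k| ≤ 500 * (w * u) := by
  induction n using Nat.strong_induction_on with
  | _ n ih =>
  intro O hO hOw u hu hOu
  rcases Nat.eq_zero_or_pos n with rfl | hn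
  · rw [card_eq_zero] at hO
    subst hO
    exact ⟨fun _ => 1, fun _ => Or.inl rfl, fun i => by simp only [sum_empty, abs_zero]; positivity⟩
  have hn' : (0 : ℝ) < O.card := by rw [hO]; exact_mod_cast hn
  obtain ⟨v, hv0, hv⟩ : ∃ v : ℝ, 0 < v ∧ (O.card : ℝ) = v ^ 6 :=
    ⟨(O.card : ℝ) ^ ((6 : ℕ) : ℝ)⁻¹, Real.rpow_pos_of_pos hn' _,
      (Real.rpow_inv_natCast_pow hn'.le (by norm_num)).symm⟩
  have hvu : v ≤ u := by
    rw [hv] at hOu
    exact (pow_le_pow_iff_left₀ hv0.le hu (by norm_num)).1 hOu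
  obtain ⟨x, y, h1, h2⟩ := rd_half' a ha O hv0 hv hw hm (hv ▸ hOw)
  have h3 := card_filter_add_card_filter_not (s := O) fun k => x k = y k
  have h4 : 4 * (O.filter fun k => x k = y k).card < 3 * O.card := by
    simp only [ne_eq] at h1; omega
  have h5 : 4 * ((O.filter fun k => x k = y k).card : ℝ) < 3 * O.card := by exact_mod_cast h4
  obtain ⟨χ, c1, c2⟩ := ih _ (by omega) (O.filter fun k => x k = y k) rfl (by linarith)
    (24 / 25 * v) (by positivity) (by rw [mul_pow, ← hv]; linarith)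
  refine ⟨fun k => if x k = y k then χ k else if x k then 1 else -1, fun k => ?_, fun i => ?_⟩
  · simp only
    split_ifs
    exacts [c1 k, Or.inl rfl, Or.inr rfl]
  · have e1 : ∑ k ∈ O, a i k * ((if x k = y k then χ k else if x k then 1 else -1 : ℤ) : ℝ) =
        ∑ k ∈ O.filter fun k => x k = y k, a i k * χ k +
          (∑ k ∈ O, a i k * sg (x k) - ∑ k ∈ O, a i k * sg (y k)) / 2 := by
      rw [sum_filter, ← sum_sub_distrib, sum_div, ← sum_add_distrib]
      refine sum_congr rfl fun k _ => ?_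
      cases x k <;> cases y k <;> simp [sg]
      ring
    rw [e1]
    have e2 := abs_le.1 (h2 i)
    have e3 := abs_le.1 (c2 i)
    have e4 : w * v ≤ w * u := mul_le_mul_of_nonneg_left hvu hw.le
    rw [abs_le]
    constructor <;> linarith [e2.1, e2.2, e3.1, e3.2]

open scoped ComplexConjugate in
lemma rd_parseval (M : ℕ) (s : Finset ℕ) (hs : ∀ i ∈ s, i < M) (θ ε : ℝ) (e : ℤ) (he : ε = e)
    (he' : e = 1 ∨ e = -1) (hM : 0 < M) :
    ∑ j ∈ range M, ‖∑ i ∈ s, ee (ε * i * (θ - j / M))‖ ^ 2 = M * s.card := by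
  apply Complex.ofReal_injective
  push_cast
  simp only [← Complex.mul_conj', map_sum, conj_ee, sum_mul_sum]
  rw [sum_comm, card_eq_sum_ones, Nat.cast_sum, mul_sum]
  refine sum_congr rfl fun i hi => ?_
  rw [sum_comm]
  have : ∀ i' ∈ s, ∑ j ∈ range M, ee (ε * i * (θ - j / M)) * ee (-(ε * i' * (θ - j / M))) =
      if i = i' then (M : ℂ) else 0 := by
    intro i' hi'
    have e1 : ∀ j : ℕ, ee (ε * i * (θ - j / M)) * ee (-(ε * i' * (θ - j / M))) =
        ee (ε * (i - i') * θ) * ee ((e * (i' - i) : ℤ) * j / M) := fun j => by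
      rw [← ee_add, ← ee_add, he]; congr 1; push_cast; ring
    simp only [e1]
    rw [← mul_sum, sum_ee_div M hM]
    by_cases h : i = i'
    · subst h; simp
    · rw [if_neg h, if_neg, mul_zero]
      intro hh
      have h1 := hs i hi
      have h2 := hs i' hi'
      have := Int.eq_zero_of_abs_lt_dvd hh (by
        rw [abs_lt]; rcases he' with rfl | rfl <;> constructor <;> omega)
      rcases he' with rfl | rfl <;> omega
  rw [sum_congr rfl this, sum_ite_eq, if_pos hi]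
  simp

lemma rd_grid (D : ℕ) (z : ℕ → ℂ) {B : ℝ} (hB : 0 ≤ B)
    (h : ∀ j < 2 * D, ‖∑ k ∈ range D, z k * ee (k * (j / (2 * D : ℕ)))‖ ≤ B) (θ : ℝ) :
    ‖∑ k ∈ range D, z k * ee (k * θ)‖ ≤ 3 / 2 * B := by
  rcases Nat.eq_zero_or_pos D with rfl | hD
  · simp only [range_zero, sum_empty, norm_zero]; positivity
  obtain ⟨M, hM⟩ : ∃ M, M = 2 * D := ⟨_, rfl⟩
  rw [← hM] at h
  have hM0 : 0 < M := by omega
  have key : ∑ j ∈ range M, (∑ k ∈ range D, z k * ee (k * (j / M))) *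
      ((∑ b ∈ range D, ee (-1 * b * (θ - j / M))) * ∑ a ∈ range M, ee (1 * a * (θ - j / M))) =
      (M * D : ℝ) * ∑ k ∈ range D, z k * ee (k * θ) := by
    simp only [sum_mul]
    rw [sum_comm, mul_sum]
    refine sum_congr rfl fun k hk => ?_
    simp only [mul_sum]
    rw [sum_comm]
    have e1 : ∀ b ∈ range D, ∑ j ∈ range M, ∑ a ∈ range M, z k * ee (k * (j / M)) *
        (ee (-1 * b * (θ - j / M)) * ee (1 * a * (θ - j / M))) = M * (z k * ee (k * θ)) := by
      intro b hb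
      rw [sum_comm]
      rw [mem_range] at hk hb
      have e2 : ∀ a ∈ range M, ∑ j ∈ range M, z k * ee (k * (j / M)) *
          (ee (-1 * b * (θ - j / M)) * ee (1 * a * (θ - j / M))) =
          if k + b = a then M * (z k * ee (k * θ)) else 0 := by
        intro a ha
        rw [mem_range] at ha
        have e3 : ∀ j : ℕ, z k * ee (k * (j / M)) *
            (ee (-1 * b * (θ - j / M)) * ee (1 * a * (θ - j / M))) =
            z k * ee ((a - b) * θ) * ee ((k + b - a : ℤ) * j / M) := fun j => by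
          rw [mul_assoc (z k), mul_assoc (z k), ← ee_add, ← ee_add, ← ee_add]; congr 2; push_cast; ring
        simp only [e3]
        rw [← mul_sum, sum_ee_div M hM0]
        by_cases hab : k + b = a
        · subst hab
          rw [if_pos rfl, if_pos (by simp), mul_comm]
          congr 3; push_cast; ring
        · rw [if_neg hab, if_neg, mul_zero]
          intro hh
          have := Int.eq_zero_of_abs_lt_dvd hh (by rw [abs_lt]; constructor <;> omega)
          omega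
      rw [sum_congr rfl e2, sum_ite_eq, if_pos (mem_range.2 (by omega))]
    rw [sum_congr rfl e1, sum_const, card_range, nsmul_eq_mul]
    push_cast
    ring
  have p1 := rd_parseval M (range D) (fun i hi => by rw [mem_range] at hi; omega) θ (-1) (-1)
    (by simp) (Or.inr rfl) hM0
  have p2 := rd_parseval M (range M) (fun i hi => mem_range.1 hi) θ 1 1
    (by simp) (Or.inl rfl) hM0
  rw [card_range] at p1 p2
  have hMD : (0 : ℝ) < M * D := by positivity
  have hMR : (M : ℝ) = 2 * D := by rw [hM]; push_cast; ring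
  refine le_of_mul_le_mul_left ?_ hMD
  calc (M * D : ℝ) * ‖∑ k ∈ range D, z k * ee (k * θ)‖
      = ‖((M * D : ℝ) : ℂ) * ∑ k ∈ range D, z k * ee (k * θ)‖ := by
        rw [norm_mul, Complex.norm_real, Real.norm_eq_abs, abs_of_pos hMD]
    _ ≤ ∑ j ∈ range M, B * ((‖∑ b ∈ range D, ee (-1 * b * (θ - j / M))‖ ^ 2 +
        ‖∑ a ∈ range M, ee (1 * a * (θ - j / M))‖ ^ 2) / 2) := by
        rw [← key]
        refine (norm_sum_le _ _).trans (sum_le_sum fun j hj => ?_)
        rw [norm_mul, norm_mul]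
        refine mul_le_mul (h j (mem_range.1 hj)) ?_ (by positivity) hB
        nlinarith [sq_nonneg (‖∑ b ∈ range D, ee (-1 * b * (θ - j / M))‖ -
          ‖∑ a ∈ range M, ee (1 * a * (θ - j / M))‖)]
    _ = _ := by
        rw [← mul_sum, ← sum_div, sum_add_distrib, p1, p2]
        nth_rewrite 3 [hMR]
        ring

lemma rd_colour (D : ℕ) (c : ℕ → ℂ) (hc : ∀ k, ‖c k‖ ≤ 1) {w : ℝ} (hw : 0 < w)
    (hm : 4 * (D : ℝ) ≤ w ^ 3) (O : ℕ → Prop) [DecidablePred O] {u : ℝ} (hu : 0 ≤ u)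
    (hO : (((range D).filter O).card : ℝ) ≤ u ^ 6) :
    ∃ χ : ℕ → ℤ, (∀ k, O k → χ k = 1 ∨ χ k = -1) ∧ (∀ k, ¬ O k → χ k = 0) ∧
      ∀ θ : ℝ, ‖∑ k ∈ range D, (χ k : ℂ) * c k * ee (k * θ)‖ ≤ 1500 * (w * u) := by
  have hn : ∀ (k : ℕ) (x : ℝ), ‖c k * ee x‖ ≤ 1 := fun k x => by
    rw [norm_mul, norm_ee, mul_one]; exact hc k
  obtain ⟨χ, h1, h2⟩ := rd_full (I := Fin (2 * D) × Bool)
    (fun i k => if i.2 then (c k * ee (k * (i.1 / (2 * D : ℕ)))).re
      else (c k * ee (k * (i.1 / (2 * D : ℕ)))).im) (fun i k => by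
        split_ifs
        exacts [(Complex.abs_re_le_norm _).trans (hn _ _), (Complex.abs_im_le_norm _).trans (hn _ _)])
    hw (by simp only [Fintype.card_prod, Fintype.card_fin, Fintype.card_bool]; push_cast; linarith)
    _ ((range D).filter O) rfl (by
      have : ((range D).filter O).card ≤ D := (card_filter_le _ _).trans (card_range D).le
      have : (((range D).filter O).card : ℝ) ≤ D := by exact_mod_cast this
      linarith [Nat.cast_nonneg (α := ℝ) D]) u hu hO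
  refine ⟨fun k => if O k then χ k else 0, fun k hk => by simpa [hk] using h1 k,
    fun k hk => by simp [hk], fun θ => ?_⟩
  refine (rd_grid D _ (B := 1000 * (w * u)) (by positivity) (fun j hj => ?_) θ).trans
    (le_of_eq (by ring))
  have e1 := h2 (⟨j, hj⟩, true)
  have e2 := h2 (⟨j, hj⟩, false)
  simp only [if_true, Bool.false_eq_true, if_false] at e1 e2
  have e3 : ∑ k ∈ range D, (((if O k then χ k else 0 : ℤ) : ℂ)) * c k * ee (k * (j / (2 * D : ℕ))) =
      ∑ k ∈ (range D).filter O, c k * ee (k * (j / (2 * D : ℕ))) * ((χ k : ℝ) : ℂ) := by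
    rw [sum_filter]
    refine sum_congr rfl fun k _ => ?_
    split_ifs
    · push_cast; ring
    · simp
  rw [e3]
  refine (Complex.norm_le_abs_re_add_abs_im _).trans ?_
  simp only [Complex.re_sum, Complex.im_sum, Complex.re_mul_ofReal, Complex.im_mul_ofReal]
  linarith

lemma rd_dyadic (D : ℕ) (c : ℕ → ℂ) (hc : ∀ k, ‖c k‖ ≤ 1) {w : ℝ} (hw : 0 < w)
    (hm : 4 * (D : ℝ) ≤ w ^ 3) {u : ℝ} (hu : 0 ≤ u) (t : ℕ) :
    ∀ β : ℕ → ℤ, (∀ k, 0 ≤ β k ∧ β k ≤ 2 ^ t) →
      ((∑ k ∈ range D, min (β k) (2 ^ t - β k) : ℤ) : ℝ) ≤ 2 ^ t * u ^ 6 →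
      ∃ σ : ℕ → ℤ, (∀ k, σ k = 0 ∨ σ k = 1) ∧ (∀ k, β k = 0 → σ k = 0) ∧
        (∀ k, β k = 2 ^ t → σ k = 1) ∧
        ∀ θ : ℝ, ‖∑ k ∈ range D, ((σ k - β k / 2 ^ t : ℝ) : ℂ) * c k * ee (k * θ)‖ ≤
          1500 * (w * u) * (2 - 2 * (9 / 16) ^ t) := by
  induction t with
  | zero =>
    intro β h1 _
    refine ⟨β, fun k => by have := h1 k; omega, fun k h => h, fun k h => by simpa using h,
      fun θ => by simp⟩
  | succ t ih =>
    intro β h1 h2
    obtain ⟨T, hT⟩ : ∃ T : ℤ, T = 2 ^ t := ⟨_, rfl⟩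
    have hT2 : (2 : ℤ) ^ (t + 1) = 2 * T := by rw [hT]; ring
    rw [hT2] at h1 h2 ⊢
    rw [← hT] at ih
    have hO : (((range D).filter fun k => β k % 2 = 1).card : ℝ) ≤ (u * (9 / 8) ^ (t + 1)) ^ 6 := by
      have e1 : (((range D).filter fun k => β k % 2 = 1).card : ℤ) ≤
          ∑ k ∈ range D, min (β k) (2 * T - β k) := by
        rw [card_filter]
        push_cast
        refine sum_le_sum fun k _ => ?_
        have := h1 k
        split_ifs <;> omega
      have e2 : (((range D).filter fun k => β k % 2 = 1).card : ℝ) ≤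
          ((∑ k ∈ range D, min (β k) (2 * T - β k) : ℤ) : ℝ) := by exact_mod_cast e1
      refine e2.trans (h2.trans ?_)
      rw [mul_pow, ← pow_mul, mul_comm (t + 1), pow_mul, mul_comm]
      gcongr
      norm_num
    obtain ⟨χ, c1, c2, c3, c4⟩ : ∃ χ : ℕ → ℤ, (∀ k, β k % 2 = 1 → χ k = 1 ∨ χ k = -1) ∧
        (∀ k, ¬ β k % 2 = 1 → χ k = 0) ∧
        (∀ θ : ℝ, ‖∑ k ∈ range D, (χ k : ℂ) * c k * ee (k * θ)‖ ≤
          1500 * (w * (u * (9 / 8) ^ (t + 1)))) ∧
        ∑ k ∈ range D, min (β k + χ k) (2 * T - (β k + χ k)) ≤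
          ∑ k ∈ range D, min (β k) (2 * T - β k) := by
      obtain ⟨χ, c1, c2, c3⟩ := rd_colour D c hc hw hm (fun k => β k % 2 = 1) (by positivity) hO
      have e1 : ∑ k ∈ range D, min (β k + χ k) (2 * T - (β k + χ k)) +
          ∑ k ∈ range D, min (β k + -χ k) (2 * T - (β k + -χ k)) ≤
          2 * ∑ k ∈ range D, min (β k) (2 * T - β k) := by
        rw [← sum_add_distrib, mul_sum]
        exact sum_le_sum fun k _ => by omega
      by_cases h : ∑ k ∈ range D, min (β k + χ k) (2 * T - (β k + χ k)) ≤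
          ∑ k ∈ range D, min (β k) (2 * T - β k)
      · exact ⟨χ, c1, c2, c3, h⟩
      · refine ⟨fun k => -χ k, fun k hk => by have := c1 k hk; beta_reduce; omega,
          fun k hk => by have := c2 k hk; beta_reduce; omega, fun θ => ?_, by beta_reduce; omega⟩
        simp only [Int.cast_neg, neg_mul, sum_neg_distrib, norm_neg]
        exact c3 θ
    have hc' : ∀ k, (β k % 2 = 1 ∧ (χ k = 1 ∨ χ k = -1)) ∨ (β k % 2 = 0 ∧ χ k = 0) := fun k => by
      by_cases h : β k % 2 = 1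
      · exact Or.inl ⟨h, c1 k h⟩
      · exact Or.inr ⟨by omega, c2 k h⟩
    obtain ⟨σ, s1, s2, s3, s4⟩ := ih (fun k => (β k + χ k) / 2)
      (fun k => by have := h1 k; have := hc' k; omega) (by
        have e1 : 2 * ∑ k ∈ range D, min ((β k + χ k) / 2) (T - (β k + χ k) / 2) ≤
            ∑ k ∈ range D, min (β k) (2 * T - β k) := by
          refine le_trans ?_ c4
          rw [mul_sum]
          exact sum_le_sum fun k _ => by have := hc' k; omega
        have e2 : 2 * ((∑ k ∈ range D, min ((β k + χ k) / 2) (T - (β k + χ k) / 2) : ℤ) : ℝ) ≤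
            ((∑ k ∈ range D, min (β k) (2 * T - β k) : ℤ) : ℝ) := by exact_mod_cast e1
        rw [pow_succ (2 : ℝ) t] at h2
        linarith)
    refine ⟨σ, s1, fun k hk => s2 k (by have := hc' k; omega),
      fun k hk => s3 k (by have := hc' k; omega), fun θ => ?_⟩
    have e1 : ∑ k ∈ range D, ((σ k - β k / 2 ^ (t + 1) : ℝ) : ℂ) * c k * ee (k * θ) =
        ∑ k ∈ range D, ((σ k - ((β k + χ k) / 2 : ℤ) / 2 ^ t : ℝ) : ℂ) * c k * ee (k * θ) +
        ((1 / 2 ^ (t + 1) : ℝ) : ℂ) * ∑ k ∈ range D, (χ k : ℂ) * c k * ee (k * θ) := by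
      rw [mul_sum, ← sum_add_distrib]
      refine sum_congr rfl fun k _ => ?_
      have e2 : β k = 2 * ((β k + χ k) / 2) - χ k := by have := hc' k; omega
      have e3 : (β k : ℝ) = 2 * ((β k + χ k) / 2 : ℤ) - χ k := by exact_mod_cast e2
      have e4 : (σ k - β k / 2 ^ (t + 1) : ℝ) =
          (σ k - ((β k + χ k) / 2 : ℤ) / 2 ^ t) + 1 / 2 ^ (t + 1) * χ k := by
        nth_rewrite 1 [e3]
        field_simp
        ring
      rw [e4, Complex.ofReal_add, Complex.ofReal_mul, Complex.ofReal_intCast]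
      ring
    rw [e1]
    refine (norm_add_le _ _).trans ?_
    rw [norm_mul, Complex.norm_real, Real.norm_eq_abs, abs_of_pos (by positivity)]
    have e2 : 1 / 2 ^ (t + 1) * ‖∑ k ∈ range D, (χ k : ℂ) * c k * ee (k * θ)‖ ≤
        1500 * (w * u) * (9 / 16) ^ (t + 1) :=
      (mul_le_mul_of_nonneg_left (c3 θ) (by positivity)).trans (le_of_eq (by
        rw [show (9 / 16 : ℝ) = 9 / 8 * (1 / 2) by norm_num, mul_pow, one_div_pow]; ring))
    have e3 := s4 θ
    have e4 : 0 ≤ 1500 * (w * u) * (9 / 16 : ℝ) ^ t := by positivity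
    rw [pow_succ (9 / 16 : ℝ) t] at e2 ⊢
    linarith

theorem rounding : ∃ C : ℝ, 0 < C ∧ ∀ (D : ℕ) (c : ℕ → ℂ) (b : ℕ → ℝ) (s : ℝ),
    (∀ k, ‖c k‖ ≤ 1) → (∀ k, 0 ≤ b k ∧ b k ≤ 1) → 0 ≤ s →
    ∑ k ∈ range D, min (b k) (1 - b k) ≤ s ^ 6 * D → ∃ σ : ℕ → ℝ, (∀ k, σ k = 0 ∨ σ k = 1) ∧
      (∀ k, b k = 0 → σ k = 0) ∧ (∀ k, b k = 1 → σ k = 1) ∧
      ∀ θ : ℝ, ‖∑ k ∈ range D, ((σ k - b k : ℝ) : ℂ) * c k * ee (k * θ)‖ ≤ C * s * √D + 1 := by
  refine ⟨6000, by norm_num, fun D c b s hc hb hs hsum => ?_⟩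
  rcases Nat.eq_zero_or_pos D with rfl | hD
  · refine ⟨fun k => if b k = 1 then 1 else 0, fun k => ?_, fun k hk => by simp [hk],
      fun k hk => by simp [hk], fun θ => by simp⟩
    simp only
    split_ifs
    exacts [Or.inr rfl, Or.inl rfl]
  have hD' : (0 : ℝ) < D := by exact_mod_cast hD
  obtain ⟨r, hr0, hr⟩ : ∃ r : ℝ, 0 < r ∧ (D : ℝ) = r ^ 6 :=
    ⟨(D : ℝ) ^ ((6 : ℕ) : ℝ)⁻¹, Real.rpow_pos_of_pos hD' _,
      (Real.rpow_inv_natCast_pow hD'.le (by norm_num)).symm⟩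
  have hsq : √D = r ^ 3 := by
    rw [hr, show r ^ 6 = (r ^ 3) ^ 2 by ring, Real.sqrt_sq (by positivity)]
  obtain ⟨T, hT⟩ : ∃ T : ℝ, T = 2 ^ D := ⟨_, rfl⟩
  have hT0 : 0 < T := by rw [hT]; positivity
  have hTD : (D : ℝ) ≤ T := by rw [hT]; exact_mod_cast Nat.lt_two_pow_self.le
  have hTZ : (((2 : ℤ) ^ D : ℤ) : ℝ) = T := by rw [hT]; push_cast; rfl
  obtain ⟨β, hβ⟩ : ∃ β : ℕ → ℤ, ∀ k, β k = if b k ≤ 1 / 2 then ⌊b k * T⌋ else ⌈b k * T⌉ :=
    ⟨_, fun _ => rfl⟩
  have b1 : ∀ k, 0 ≤ β k ∧ β k ≤ 2 ^ D ∧ |(β k : ℝ) - b k * T| ≤ 1 ∧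
      min (β k : ℝ) (T - β k) ≤ T * min (b k) (1 - b k) := by
    intro k
    obtain ⟨e1, e2⟩ := hb k
    have e3 : 0 ≤ b k * T := by positivity
    have e4 : b k * T ≤ T := mul_le_of_le_one_left hT0.le e2
    rw [hβ]
    split_ifs with h
    · have f1 := Int.floor_le (b k * T)
      have f2 := Int.lt_floor_add_one (b k * T)
      refine ⟨Int.floor_nonneg.2 e3, ?_, abs_le.2 ⟨by linarith, by linarith⟩, ?_⟩
      · rw [← Int.cast_le (R := ℝ), hTZ]; linarith
      · rw [min_eq_left (by linarith : b k ≤ 1 - b k)]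
        exact (min_le_left _ _).trans (by linarith)
    · have f1 := Int.le_ceil (b k * T)
      have f2 := Int.ceil_lt_add_one (b k * T)
      refine ⟨Int.ceil_nonneg e3, ?_, abs_le.2 ⟨by linarith, by linarith⟩, ?_⟩
      · rw [Int.ceil_le, hTZ]; exact e4
      · rw [min_eq_right (by linarith : 1 - b k ≤ b k)]
        exact (min_le_right _ _).trans (by linarith)
  obtain ⟨σ, s1, s2, s3, s4⟩ := rd_dyadic D c hc (w := 2 * r ^ 2) (by positivity)
    (by rw [hr]; nlinarith [pow_pos hr0 6]) (u := s * r) (by positivity) D β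
    (fun k => ⟨(b1 k).1, (b1 k).2.1⟩) (by
      simp only [Int.cast_sum, Int.cast_min, Int.cast_sub, hTZ]
      rw [← hT, mul_pow, ← hr]
      refine (sum_le_sum fun k _ => (b1 k).2.2.2).trans ?_
      rw [← mul_sum]
      exact mul_le_mul_of_nonneg_left hsum hT0.le)
  refine ⟨fun k => σ k, fun k => ?_, fun k hk => ?_, fun k hk => ?_, fun θ => ?_⟩
  · rcases s1 k with h | h <;> simp [h]
  · simp [s2 k (by rw [hβ, hk]; simp)]
  · have : β k = 2 ^ D := by
      rw [hβ, hk, if_neg (by norm_num), one_mul, ← hTZ, Int.ceil_intCast]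
    simp [s3 k this]
  · have e1 : ∑ k ∈ range D, ((σ k - b k : ℝ) : ℂ) * c k * ee (k * θ) =
        ∑ k ∈ range D, ((σ k - β k / 2 ^ D : ℝ) : ℂ) * c k * ee (k * θ) +
        ∑ k ∈ range D, (((β k - b k * T) / T : ℝ) : ℂ) * c k * ee (k * θ) := by
      rw [← sum_add_distrib, ← hT]
      refine sum_congr rfl fun k _ => ?_
      rw [← add_mul, ← add_mul, ← Complex.ofReal_add]
      congr 3
      field_simp
      ring
    rw [e1]
    refine (norm_add_le _ _).trans (add_le_add ((s4 θ).trans ?_) ?_)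
    · have e2 : 0 ≤ 1500 * (2 * r ^ 2 * (s * r)) * (9 / 16 : ℝ) ^ D := by positivity
      rw [hsq]
      linarith
    · refine (norm_sum_le _ _).trans ((sum_le_card_nsmul _ _ (1 / T) fun k _ => ?_).trans ?_)
      · rw [norm_mul, norm_mul, norm_ee, mul_one, Complex.norm_real, Real.norm_eq_abs, abs_div,
          abs_of_pos hT0]
        calc _ ≤ 1 / T * 1 := by gcongr; exacts [(b1 k).2.2.1, hc k]
          _ = _ := mul_one _
      · rw [card_range, nsmul_eq_mul, mul_one_div, div_le_one hT0]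
        exact hTD

end Vale.Agent.P110
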