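import Vale.Agent.P110.Gadget

open Finset Complex Filter Topology
open scoped BigOperators ComplexConjugate Real

namespace Vale.Agent.P110

lemma fejer (J : ℕ) (t : ℝ) : ‖∑ k ∈ range J, ee (k * t)‖ ^ 2 =
    J + 2 * (∑ l ∈ range J, ((J : ℂ) - (l + 1)) * ee ((l + 1 : ℕ) * t)).re := by
  induction J with
  | zero => simp
  | succ J ih =>
    have e1 : conj (∑ k ∈ range J, ee (k * t)) * ee (J * t) = ∑ l ∈ range J, ee ((l + 1 : ℕ) * t) := by
      rw [map_sum, sum_mul, ← sum_range_reflect]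
      refine sum_congr rfl fun l hl => ?_
      rw [conj_ee, ← ee_add]; congr 1
      have : J - 1 - l + (l + 1) = J := by have := mem_range.1 hl; omega
      have : ((J - 1 - l : ℕ) : ℝ) + (l + 1 : ℕ) = J := by exact_mod_cast this
      rw [← this]; ring
    have e2 : ∑ l ∈ range (J + 1), (((J + 1 : ℕ) : ℂ) - (l + 1)) * ee ((l + 1 : ℕ) * t) =
        ∑ l ∈ range J, ((J : ℂ) - (l + 1)) * ee ((l + 1 : ℕ) * t) +
          ∑ l ∈ range J, ee ((l + 1 : ℕ) * t) := by
      rw [sum_range_succ, ← sum_add_distrib]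
      simp only [Nat.cast_add, Nat.cast_one, sub_self, zero_mul, add_zero]
      exact sum_congr rfl fun l _ => by ring
    rw [sum_range_succ, e2, ← e1, Complex.add_re, ← Complex.normSq_eq_norm_sq, Complex.normSq_add,
      Complex.normSq_eq_norm_sq, Complex.normSq_eq_norm_sq, ih, norm_ee, ← Complex.conj_re (_ * conj _),
      map_mul, Complex.conj_conj]
    push_cast; ring

/-- Fourier coefficients of the square wave -/
noncomputable def sqc (l : ℕ) : ℂ := if Odd l then 2 / (π * l * I) else 0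

lemma norm_sqc_le (l : ℕ) : ‖sqc l‖ ≤ 1 / l := by
  unfold sqc
  split_ifs with h
  · have : (0:ℝ) < l := by exact_mod_cast h.pos
    simp only [norm_div, norm_mul, Complex.norm_real, Complex.norm_natCast, Complex.norm_I,
      Complex.norm_two, Real.norm_eq_abs, abs_of_pos Real.pi_pos, mul_one]
    rw [div_le_div_iff₀ (by positivity) this]; nlinarith [Real.pi_gt_three]
  · simp

lemma fejer_sq {J : ℕ} (hJ : 0 < J) (x : ℝ) :
    |(∑ l ∈ range (J + 1), ((1 - l / J : ℝ) : ℂ) * sqc l * ee (l * x)).re| ≤ 1 / 2 := by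
  have hJ' : (0:ℝ) < J := by exact_mod_cast hJ
  set G : ℝ → ℂ := fun x => ∑ l ∈ range J, ((J : ℂ) - (l + 1)) * ee ((l + 1 : ℕ) * x) /
    (2 * π * I * (l + 1 : ℕ)) with hG
  have hne : ∀ l : ℕ, (2 * π * I * (l + 1 : ℕ) : ℂ) ≠ 0 := fun l => by
    have : ((l + 1 : ℕ) : ℂ) ≠ 0 := by exact_mod_cast l.succ_ne_zero
    exact mul_ne_zero (by simp [Real.pi_ne_zero]) this
  have hd : ∀ x, HasDerivAt G (∑ l ∈ range J, ((J : ℂ) - (l + 1)) * ee ((l + 1 : ℕ) * x)) x := by
    intro x
    refine HasDerivAt.fun_sum fun l _ => ?_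
    have := ((hasDerivAt_ee_comp ((hasDerivAt_id x).const_mul ((l + 1 : ℕ) : ℝ))).const_mul
      ((J : ℂ) - (l + 1))).div_const (2 * π * I * (l + 1 : ℕ))
    refine HasDerivAt.congr_deriv this ?_
    rw [div_eq_iff (hne l)]; push_cast; simp only [id]; ring
  have hd2 : ∀ x, HasDerivAt (fun x => J * x + 2 * (G x).re) (‖∑ k ∈ range J, ee (k * x)‖ ^ 2) x := by
    intro x
    rw [fejer]
    have := ((hasDerivAt_id x).const_mul (J : ℝ)).add
      ((Complex.reCLM.hasFDerivAt.comp_hasDerivAt x (hd x)).const_mul 2)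
    refine HasDerivAt.congr_deriv this (by simp)
  have hm : Monotone fun x => J * x + 2 * (G x).re :=
    monotone_of_deriv_nonneg (fun x => (hd2 x).differentiableAt) fun x => by
      rw [(hd2 x).deriv]; positivity
  have h1 := hm (show x - 1 / 2 ≤ x by linarith)
  have h2 := hm (show x - 1 ≤ x - 1 / 2 by linarith)
  have h3 : G (x - 1) = G x := sum_congr rfl fun l _ => by
    rw [mul_sub, mul_one, sub_eq_add_neg (_ * x), ee_add, ← conj_ee, ee_natCast]; simp
  have h4 : ∑ l ∈ range (J + 1), ((1 - l / J : ℝ) : ℂ) * sqc l * ee (l * x) =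
      ((2 / J : ℝ) : ℂ) * (G x - G (x - 1 / 2)) := by
    rw [sum_range_succ', ← sum_sub_distrib, mul_sum]
    simp only [sqc, Nat.not_odd_zero, if_false, mul_zero, zero_mul, add_zero]
    refine sum_congr rfl fun l _ => ?_
    have e1 : ee ((l + 1 : ℕ) * (x - 1 / 2)) = ee ((l + 1 : ℕ) * x) * (-1) ^ (l + 1) := by
      rw [mul_sub, sub_eq_add_neg, ee_add, ← mul_neg, ee_nat_mul (l + 1) (-(1 / 2))]
      congr 2
      rw [← conj_ee, ee_eq, show 2 * π * (1 / 2) = π by ring, Complex.exp_pi_mul_I]; simp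
    have hJc : (J : ℂ) ≠ 0 := by exact_mod_cast hJ.ne'
    have : ((l + 1 : ℕ) : ℂ) ≠ 0 := by exact_mod_cast l.succ_ne_zero
    have hπ : (π : ℂ) ≠ 0 := by exact_mod_cast Real.pi_ne_zero
    rw [e1]
    split_ifs with h
    · rw [h.neg_one_pow]; push_cast at this ⊢; field_simp; ring
    · rw [(Nat.not_odd_iff_even.1 h).neg_one_pow]; simp
  rw [h4, Complex.re_ofReal_mul, Complex.sub_re, abs_mul, abs_of_pos (by positivity)]
  simp only [h3] at h1 h2
  calc _ ≤ (2:ℝ) / J * (J / 4) := by gcongr; exact abs_le.2 ⟨by linarith, by linarith⟩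
    _ = _ := by field_simp; norm_num

lemma sqc_sum : HasSum (fun l => 2 * ‖sqc l‖ ^ 2) 1 := by
  have h1 := hasSum_zeta_two
  have h2 : HasSum (fun n : ℕ => if Odd n then 0 else 1 / (n : ℝ) ^ 2) (π ^ 2 / 6 / 4) := by
    rw [← (mul_right_injective₀ (two_ne_zero' ℕ)).hasSum_iff (fun n hn => if_pos (by
      rw [← Nat.not_even_iff_odd]; rintro ⟨k, rfl⟩; exact hn ⟨k, two_mul k⟩))]
    have : ((fun n : ℕ => if Odd n then 0 else 1 / (n : ℝ) ^ 2) ∘ fun x => 2 * x) =
        fun n : ℕ => 1 / (n : ℝ) ^ 2 / 4 := by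
      funext n
      simp only [Function.comp]
      rw [if_neg (Nat.not_odd_iff_even.2 (even_two_mul n))]; push_cast; ring
    rw [this]; exact h1.div_const 4
  have h3 := (h1.sub h2).mul_left (8 / π ^ 2)
  rw [show 8 / π ^ 2 * (π ^ 2 / 6 - π ^ 2 / 6 / 4) = 1 by field_simp; norm_num] at h3
  have : (fun l => 2 * ‖sqc l‖ ^ 2) = fun i : ℕ =>
      8 / π ^ 2 * (1 / (i : ℝ) ^ 2 - if Odd i then 0 else 1 / (i : ℝ) ^ 2) := by
    funext l
    unfold sqc
    split_ifs with h
    · simp only [norm_div, norm_mul, Complex.norm_real, Complex.norm_natCast, Complex.norm_I,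
        Complex.norm_two, Real.norm_eq_abs, abs_of_pos Real.pi_pos, mul_one]
      ring
    · simp
  rw [this]; exact h3

lemma square (hR : Rounding) {η : ℝ} (hη : 0 < η) : ∃ Λ : Finset ℕ, (∀ l ∈ Λ, Odd l) ∧
    Bd Λ sqc (1 / 2 + η) ∧ 1 - η ≤ ∑ l ∈ Λ, 2 * ‖sqc l‖ ^ 2 := by
  classical
  obtain ⟨C, hC, hR⟩ := hR
  obtain ⟨K, hK⟩ := exists_nat_ge (4 / η + 2)
  have hK2 : (2:ℝ) ≤ K := by have : 0 < 4 / η := by positivity
                             linarith
  have hK3 : 4 ≤ η * K := by rw [← div_le_iff₀' hη]; linarith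
  obtain ⟨a, h1, h2, ha⟩ := ((sqc_sum.tendsto_sum_nat.eventually
    (le_mem_nhds (show 1 - η < 1 by linarith))).and ((ev_div_sqrt (C * √(K + 1) + 1) one_pos
      (show 0 < η / 2 by positivity)).and (eventually_gt_atTop 0))).exists
  have ha' : (1:ℝ) ≤ a := by exact_mod_cast ha
  set J := K * a with hJ
  have hJ1 : (J : ℝ) = K * a := by rw [hJ]; push_cast; rfl
  have hJ0 : (0:ℝ) < J := by rw [hJ1]; positivity
  obtain ⟨σ, s1, -, s3, s4⟩ := hR (J + 1) (fun l => if l < a then 0 else a * sqc l)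
    (fun l => if l < a then 1 else max 0 (1 - l / J)) 1 (fun l => by
      split_ifs with h
      · simp
      · have : (a : ℝ) ≤ l := by exact_mod_cast not_lt.1 h
        rw [norm_mul, Complex.norm_natCast]
        calc _ ≤ (l : ℝ) * (1 / l) := by gcongr; exact norm_sqc_le l
          _ = 1 := mul_one_div_cancel (by linarith))
    (fun l => by
      split_ifs
      · simp
      · exact ⟨le_max_left _ _, max_le zero_le_one (sub_le_self _ (by positivity))⟩) zero_le_one
    ((sum_le_card_nsmul _ _ 1 fun l _ => by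
      rcases le_total (if l < a then (1:ℝ) else max 0 (1 - l / J)) 1 with h | h
      · exact (min_le_left _ _).trans h
      · exact (min_le_right _ _).trans (by linarith)).trans (by simp))
  have hσ : ∀ l < a, σ l = 1 := fun l hl => s3 l (if_pos hl)
  have haJ : a ≤ J + 1 := by
    have : (a : ℝ) ≤ J + 1 := by nlinarith
    exact_mod_cast this
  refine ⟨(range (J + 1)).filter fun l => Odd l ∧ σ l = 1, fun l hl => (mem_filter.1 hl).2.1,
    fun φ => ?_, h1.trans ?_⟩
  · have e1 : ∑ l ∈ (range (J + 1)).filter (fun l => Odd l ∧ σ l = 1), sqc l * ee (l * φ) =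
        ∑ l ∈ range (J + 1), ((1 - l / J : ℝ) : ℂ) * sqc l * ee (l * φ) +
        (∑ l ∈ range a, ((l / J : ℝ) : ℂ) * sqc l * ee (l * φ) + ((1 / a : ℝ) : ℂ) *
          ∑ l ∈ range (J + 1), ((σ l - (if l < a then (1:ℝ) else max 0 (1 - (l:ℝ) / J)) : ℝ) : ℂ) *
            (if l < a then 0 else a * sqc l) * ee (l * φ)) := by
      have e2 : range a = (range (J + 1)).filter (· < a) := by ext; simp; omega
      rw [e2, sum_filter, sum_filter, mul_sum, ← sum_add_distrib, ← sum_add_distrib]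
      refine sum_congr rfl fun l hl => ?_
      have hac : (a : ℂ) ≠ 0 := by exact_mod_cast ha.ne'
      by_cases h0 : Odd l
      · by_cases h : l < a
        · simp [h, h0, hσ l h]; ring
        · have : (l : ℝ) ≤ J := by exact_mod_cast Nat.lt_succ_iff.1 (mem_range.1 hl)
          rw [if_neg h, if_neg h, if_neg h, max_eq_right (by rwa [sub_nonneg, div_le_one hJ0])]
          rcases s1 l with h' | h' <;> simp [h0, h'] <;> field_simp <;> ring
      · simp [h0, sqc]
    rw [e1, Complex.add_re]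
    refine (abs_add_le _ _).trans (add_le_add (fejer_sq (by exact_mod_cast hJ0) φ)
      ((Complex.abs_re_le_norm _).trans ((norm_add_le _ _).trans ?_)))
    have e3 : ‖∑ l ∈ range a, ((l / J : ℝ) : ℂ) * sqc l * ee (l * φ)‖ ≤ η / 2 := by
      refine (norm_sum_le _ _).trans ((sum_le_card_nsmul _ _ (1 / J : ℝ) fun l _ => ?_).trans ?_)
      · rw [norm_mul, norm_mul, norm_ee, mul_one, Complex.norm_real, Real.norm_eq_abs,
          abs_of_nonneg (by positivity)]
        calc _ ≤ (l : ℝ) / J * (1 / l) := by gcongr; exact norm_sqc_le l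
          _ = (l / l) / J := by ring
          _ ≤ _ := by gcongr; exact div_self_le_one _
      · rw [card_range, nsmul_eq_mul, hJ1, mul_one_div, div_le_iff₀ (by positivity)]; nlinarith
    have e4 := s4 φ
    rw [norm_mul, Complex.norm_real, Real.norm_eq_abs, abs_of_pos (by positivity)]
    have hs : 1 ≤ √(a:ℝ) := Real.one_le_sqrt.2 ha'
    have e5 : √((J + 1 : ℕ) : ℝ) ≤ √(K + 1) * √a := by
      rw [← Real.sqrt_mul (by positivity)]; apply Real.sqrt_le_sqrt; push_cast; nlinarith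
    have e6 : 1 / (a:ℝ) * (C * 1 * √((J + 1 : ℕ) : ℝ) + 1) ≤ η / 2 := by
      refine le_trans ?_ h2
      calc _ ≤ 1 / (a:ℝ) * (C * 1 * (√(K + 1) * √a) + √a) := by gcongr
        _ = _ := by rw [mul_one (a:ℝ)]; nth_rewrite 1 [← Real.mul_self_sqrt (show (0:ℝ) ≤ a by positivity)]; field_simp
    have := mul_le_mul_of_nonneg_left e4 (show 0 ≤ 1 / (a:ℝ) by positivity)
    linarith
  · rw [← sum_filter_of_ne (p := fun l => Odd l) fun l _ h => by
      by_contra h'; simp [sqc, h'] at h]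
    refine sum_le_sum_of_subset_of_nonneg (fun l hl => ?_) fun _ _ _ => by positivity
    simp only [mem_filter, mem_range] at hl ⊢
    exact ⟨by omega, hl.2, hσ l hl.1⟩

end Vale.Agent.P110
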