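import Vale.Agent.P110.Block

open Finset Complex MeasureTheory Filter Topology Set
open scoped BigOperators ComplexConjugate Real

namespace Vale.Agent.P110

lemma cover {β : Type} [Fintype β] (c l : β → ℕ) (P : ℕ) (hc : ∀ x, 2 * (c x + l x) ≤ P)
    (hd : ∀ x y, x ≠ y → c x + l x ≤ c y ∨ c y + l y ≤ c x) :
    ∃ Fr : Finset ℕ, (∀ j ∈ Fr, j < P ∧ ∀ x, j + 1 ≤ 2 * c x ∨ 2 * (c x + l x) ≤ j) ∧
      Fr.card + 2 * ∑ x, l x = P ∧
      ∀ f : ℕ → ℂ, ∑ j ∈ range P, f j =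
        ∑ x, ∑ j ∈ Finset.Ico (2 * c x) (2 * (c x + l x)), f j + ∑ j ∈ Fr, f j := by
  classical
  set U := univ.biUnion fun x => Finset.Ico (2 * c x) (2 * (c x + l x)) with hU
  have hsub : U ⊆ range P := by
    intro j hj
    obtain ⟨x, -, hx⟩ := mem_biUnion.1 hj
    have := hc x
    rw [Finset.mem_Ico] at hx
    exact Finset.mem_range.2 (by omega)
  have hdis : Set.PairwiseDisjoint (↑(univ : Finset β))
      fun x => Finset.Ico (2 * c x) (2 * (c x + l x)) := by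
    intro x _ y _ hxy
    have := hd x y hxy
    refine Finset.disjoint_left.2 fun j h1 h2 => ?_
    rw [Finset.mem_Ico] at h1 h2
    omega
  have key : ∀ {M : Type} [AddCommMonoid M] (f : ℕ → M), ∑ j ∈ range P, f j =
        ∑ x, ∑ j ∈ Finset.Ico (2 * c x) (2 * (c x + l x)), f j + ∑ j ∈ range P \ U, f j := by
    intro M _ f
    rw [← sum_biUnion hdis, add_comm, sum_sdiff hsub]
  refine ⟨range P \ U, fun j hj => ?_, ?_, key⟩
  · rw [Finset.mem_sdiff, Finset.mem_range] at hj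
    refine ⟨hj.1, fun x => ?_⟩
    by_contra hcon
    exact hj.2 (mem_biUnion.2 ⟨x, Finset.mem_univ _, Finset.mem_Ico.2 (by omega)⟩)
  · have := key (fun _ => (1:ℕ))
    simp only [sum_const, card_range, smul_eq_mul, mul_one, Nat.card_Ico] at this
    rw [mul_sum]
    have h2 : ∑ x, (2 * (c x + l x) - 2 * c x) = ∑ x, 2 * l x := sum_congr rfl fun x _ => by omega
    omega

lemma three_active {n : ℕ} {N t ω k : ℝ} (hN : 0 < N) (hω : 0 < ω) :
    (univ.filter fun r : Fin n =>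
      N * (t + r * ω - ω) < k ∧ k < N * (t + r * ω + 2 * ω)).card ≤ 3 := by
  set x := (k / N - t) / ω with hx
  have : (Finset.Icc (⌊x⌋ - 1) (⌊x⌋ + 1)).card = 3 := by simp; omega
  rw [← this]
  refine card_le_card_of_injOn (fun r => ((r : ℕ) : ℤ)) (fun r hr => ?_) fun r _ r' _ h => ?_
  · simp only [coe_filter, Finset.mem_univ, true_and, Set.mem_ofPred_eq] at hr
    have h1 : (r : ℝ) - 1 < x := by
      rw [hx, lt_div_iff₀ hω, lt_sub_iff_add_lt, lt_div_iff₀ hN]; linarith [hr.1]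
    have h2 : x < r + 2 := by
      rw [hx, div_lt_iff₀ hω, sub_lt_iff_lt_add, div_lt_iff₀ hN]; linarith [hr.2]
    have h3 : ((r : ℕ) : ℤ) - 1 ≤ ⌊x⌋ := Int.le_floor.2 (by push_cast; linarith)
    have h4 : ⌊x⌋ < ((r : ℕ) : ℤ) + 2 := Int.floor_lt.2 (by push_cast; linarith)
    simp only [coe_Icc, Set.mem_Icc]
    omega
  · exact Fin.ext (by simpa using h)

lemma one_active {n : ℕ} {t w a b τ : ℝ} (hw : 0 < w) (ha : 0 < a) (hb : b < w) :
    (univ.filter fun r : Fin n => t + r * w + a ≤ τ ∧ τ ≤ t + r * w + b).card ≤ 1 := by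
  refine card_le_one.2 fun r hr r' hr' => ?_
  simp only [Finset.mem_filter, Finset.mem_univ, true_and] at hr hr'
  have h1 : (r : ℝ) < r' + 1 := lt_of_mul_lt_mul_right (by linarith [hr.1, hr'.2]) hw.le
  have h2 : (r' : ℝ) < r + 1 := lt_of_mul_lt_mul_right (by linarith [hr.2, hr'.1]) hw.le
  have h3 : (r : ℕ) < r' + 1 := by exact_mod_cast h1
  have h4 : (r' : ℕ) < r + 1 := by exact_mod_cast h2
  exact Fin.ext (by omega)

lemma ev_div_sqrt (C : ℝ) {a : ℝ} (ha : 0 < a) {e : ℝ} (he : 0 < e) :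
    ∀ᶠ N : ℕ in atTop, C / √(N * a) ≤ e := by
  have : Tendsto (fun N : ℕ => C / √(N * a)) atTop (𝓝 0) :=
    tendsto_const_nhds.div_atTop (Real.tendsto_sqrt_atTop.comp
      (tendsto_natCast_atTop_atTop.atTop_mul_const ha))
  exact this.eventually (ge_mem_nhds he)

lemma ev_ge (C : ℝ) {a : ℝ} (ha : 0 < a) : ∀ᶠ N : ℕ in atTop, C ≤ a * N :=
  (tendsto_natCast_atTop_atTop.const_mul_atTop ha).eventually_ge_atTop C

lemma main_num {η P υ N nb W X : ℝ} (hη : 0 < η) (hη' : η ≤ 1 / 6) (hP : 0 < P) (hυ : 0 < υ)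
    (hN : 0 < N) (hnb : 0 < nb) (hWP : 2 * nb * W ≤ P) (hυn : nb * (υ * (1 + η)) = 1 - 3 * η)
    (hX : 0 < X) (hX1 : 2 / X ≤ η) :
    (1 + 2 / X) * ((1 + η) * √(2 * W)) / √(P * υ * N) ≤ (1 + 8 * η) / √N := by
  have e1 : √(2 * W) ≤ (1 + 4 * η) * √(P * υ) := by
    rw [← Real.sqrt_sq (show 0 ≤ 1 + 4 * η by positivity), ← Real.sqrt_mul (sq_nonneg _)]
    refine Real.sqrt_le_sqrt (le_of_mul_le_mul_left ?_ hnb)
    have e2 : 1 ≤ (1 + 4 * η) ^ 2 * (nb * υ) := by
      refine le_of_mul_le_mul_right ?_ (show 0 < 1 + η by positivity)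
      rw [mul_assoc, mul_assoc, hυn]
      nlinarith [mul_nonneg hη.le hη.le, mul_nonneg hη.le (mul_nonneg hη.le hη.le)]
    nlinarith
  have hPυ : 0 < √(P * υ) := Real.sqrt_pos.2 (by positivity)
  have hsN : 0 < √N := Real.sqrt_pos.2 hN
  rw [Real.sqrt_mul (x := P * υ) (by positivity)]
  calc _ ≤ (1 + η) * ((1 + η) * ((1 + 4 * η) * √(P * υ))) / (√(P * υ) * √N) := by gcongr
    _ = ((1 + η) ^ 2 * (1 + 4 * η)) / √N := by field_simp
    _ ≤ _ := by gcongr; nlinarith [mul_nonneg hη.le hη.le]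

set_option maxHeartbeats 1000000 in
lemma theta_exists {ι κ : Type} [Fintype ι] [Fintype κ] [Nonempty ι] (l : ι → ℕ)
    (hl : ∀ i, 0 < l i) (v : ι → κ → ℤ) (a0 : κ) (ha0 : ∀ i, v i a0 = l i) (e : ι → ℂ)
    (he : ∀ i, ‖e i‖ = 1) {η : ℝ} (hη : 0 < η) (hη' : η ≤ 1 / 6)
    (hB : ∀ y : κ → ℝ, |2 * (∑ i, (√(l i) : ℂ) * e i * ee (∑ a, v i a * y a)).re| ≤
      (1 + η) * √(2 * ∑ i, (l i : ℝ)))
    (P nb : ℕ) (g : Fin nb → κ → ℤ) (c : Fin nb → ι → ℕ) (s : Fin nb → ι → Bool) (hP : 0 < P)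
    (hc : ∀ b i, 2 * (c b i + l i) ≤ P)
    (hdiv : ∀ b i, (P:ℤ) ∣ if s b i then ∑ a, v i a * g b a - c b i
      else ∑ a, v i a * g b a + c b i + l i)
    (hdisj : ∀ b i b' i', (b, i) ≠ (b', i') → c b i + l i ≤ c b' i' ∨ c b' i' + l i' ≤ c b i)
    (heff : (1 - (η / 24) ^ 2) * P ≤ 2 * nb * ∑ i, (l i : ℝ)) :
    ∃ L : ℝ, 0 ≤ L ∧ ∀ᶠ N : ℕ in atTop, ∃ Θ : ℝ → ℝ, Continuous Θ ∧ Function.Periodic Θ 1 ∧
      (∃ n : ℤ, ∫ x in (0:ℝ)..1, Θ x = n) ∧ (∀ x y, |Θ x - Θ y| ≤ L * N * |x - y|) ∧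
      (∀ x, Θ x ∈ Icc 0 ((1 - η) * N)) ∧ ∀ k : ℤ, ∃ r : ℝ,
        ∫ s in (-1 / 2 : ℝ)..(1 / 2), ee ((∫ x in (0:ℝ)..s, Θ x) - k * s) = r ∧
          |r| ≤ (1 + 14 * η) / √N := by
  classical
  obtain ⟨Fr, hFr, hcard, hsum⟩ := cover (β := Fin nb × ι) (fun x => c x.1 x.2) (fun x => l x.2) P
    (fun x => hc x.1 x.2) (fun x y hxy => hdisj x.1 x.2 y.1 y.2 hxy)
  obtain ⟨W, hW⟩ : ∃ W : ℝ, W = ∑ i, (l i : ℝ) := ⟨_, rfl⟩
  obtain ⟨δ, hδ⟩ : ∃ δ : ℝ, δ = (η / 24) ^ 2 := ⟨_, rfl⟩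
  rw [← hW] at hB heff
  rw [← hδ] at heff
  have hδ0 : 0 < δ := by rw [hδ]; positivity
  have hδ1 : δ < 1 := by rw [hδ]; nlinarith
  have hP' : (0:ℝ) < P := by exact_mod_cast hP
  have hP1 : (1:ℝ) ≤ P := by exact_mod_cast hP
  have hcard' : (Fr.card : ℝ) + 2 * nb * W = P := by
    rw [← hcard, Fintype.sum_prod_type]; push_cast; simp [hW]; ring
  have hF : (Fr.card : ℝ) ≤ δ * P := by linarith
  have hWP : 2 * nb * W ≤ P := by linarith [Nat.cast_nonneg (α := ℝ) Fr.card]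
  have hW0 : 0 ≤ W := by rw [hW]; positivity
  have hnb : (0:ℝ) < nb := by
    rcases Nat.eq_zero_or_pos nb with h | h
    · exfalso
      have : (nb : ℝ) = 0 := by exact_mod_cast h
      rw [this] at heff; nlinarith
    · exact_mod_cast h
  obtain ⟨nι, hnι⟩ : ∃ n : ℝ, n = (Fintype.card ι : ℝ) := ⟨_, rfl⟩
  have hι : 0 < nι := by rw [hnι]; exact_mod_cast Fintype.card_pos
  have h3η : 0 < 1 - 3 * η := by linarith
  obtain ⟨υ, hυd⟩ : ∃ υ : ℝ, υ = (1 - 3 * η) / (nb * (1 + η)) := ⟨_, rfl⟩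
  have hυ : 0 < υ := by rw [hυd]; positivity
  have hυn : nb * (υ * (1 + η)) = 1 - 3 * η := by rw [hυd]; field_simp
  obtain ⟨ω, hωd⟩ : ∃ ω : ℝ, ω = (1 - 3 * η) / (δ * P) := ⟨_, rfl⟩
  have hω : 0 < ω := by rw [hωd]; positivity
  have hsυ : 0 < √υ := Real.sqrt_pos.2 hυ
  obtain ⟨X, hX, hX1, hX2⟩ : ∃ X : ℝ, 0 < X ∧ 2 / X ≤ η ∧ 8 * nι / (X * √υ) ≤ η := by
    have h1 : 0 < 2 / η := by positivity
    have h2 : 0 < 8 * nι / (η * √υ) := by positivity
    refine ⟨2 / η + 8 * nι / (η * √υ), by positivity, ?_, ?_⟩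
    · calc _ ≤ 2 / (2 / η) := by gcongr; linarith
        _ = η := by field_simp
    · calc _ ≤ 8 * nι / (8 * nι / (η * √υ) * √υ) := by gcongr; linarith
        _ = η := by field_simp
  obtain ⟨ε, hε, hε1, hε2⟩ : ∃ ε : ℝ, 0 < ε ∧ ε ≤ 1 / 2 ∧ 8 * π * nι * X ^ 3 * ε / √υ ≤ η := by
    refine ⟨min (1 / 2) (η * √υ / (8 * π * nι * X ^ 3)), by positivity, min_le_left _ _, ?_⟩
    calc _ ≤ 8 * π * nι * X ^ 3 * (η * √υ / (8 * π * nι * X ^ 3)) / √υ := by
          gcongr; exact min_le_right _ _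
      _ = η := by field_simp
  obtain ⟨D, hDd⟩ : ∃ D : ℝ, D = 2 * (8 * nb * nι / η) ^ 2 / υ := ⟨_, rfl⟩
  have hD : 0 < D := by rw [hDd]; positivity
  obtain ⟨T, T', u₀, Λ, h⟩ := exists_prof hD.le hη
  have hu0 := h.u0
  have hu1 := h.u1
  obtain ⟨nT, hnT⟩ : ∃ n : ℝ, n = nb * nι + P := ⟨_, rfl⟩
  have hnT0 : 0 < nT := by rw [hnT]; positivity
  obtain ⟨σ, hσ, hσ1, hσ2⟩ : ∃ σ : ℝ, 0 < σ ∧ σ ≤ u₀ / 4 ∧ σ ≤ η * (η / (16 * nT)) ^ 2 :=
    ⟨min (u₀ / 4) (η * (η / (16 * nT)) ^ 2), by positivity, min_le_left _ _, min_le_right _ _⟩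
  obtain ⟨L₀, hL₀⟩ : ∃ L : ℝ, L = υ * (1 + D) * P + 4 * ω * P + 8 * P / σ := ⟨_, rfl⟩
  have hL00 : 0 ≤ L₀ := by rw [hL₀]; positivity
  refine ⟨nT * L₀, by positivity, ?_⟩
  choose φ hφ using fun i => exists_phase (fres X) (e i) (he i)
  filter_upwards [ev_ge (24 * P / σ) hη, ev_div_sqrt X (a := υ / P) (by positivity)
    (e := u₀ / 4) (by positivity), ev_div_sqrt (Λ * X) (a := υ / P) (by positivity) hε,
    ev_div_sqrt (4 * nb * nι / (υ * u₀) + 2 * P / ω) one_pos hη, eventually_gt_atTop 0]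
    with N hN1 hN2 hN3 hN4 hN0
  have hN : (0:ℝ) < N := by exact_mod_cast hN0
  have hsN : 0 < √(N:ℝ) := Real.sqrt_pos.2 hN
  have hlam : ∀ i, (1:ℝ) / P ≤ l i / P ∧ (l i / P : ℝ) ≤ 1 / 2 := fun i => by
    have h1 : (1:ℝ) ≤ l i := by exact_mod_cast hl i
    have h2 : 2 * (l i : ℝ) ≤ P := by
      have := hc ⟨0, by exact_mod_cast hnb⟩ i
      exact_mod_cast (by omega : 2 * l i ≤ P)
    exact ⟨by gcongr, by rw [div_le_iff₀ hP']; linarith⟩
  have hlam0 : ∀ i, (0:ℝ) < l i / P := fun i => lt_of_lt_of_le (by positivity) (hlam i).1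
  have hlo : ∀ lam : ℝ, 1 / (2 * P) ≤ lam → 12 / (σ * lam) ≤ η * N := fun lam hh =>
    calc 12 / (σ * lam) ≤ 12 / (σ * (1 / (2 * P))) := by gcongr
      _ = 24 * P / σ := by field_simp; norm_num
      _ ≤ _ := hN1
  have hh2 : (1:ℝ) / (2 * P) ≤ 1 / P := by gcongr; linarith
  have herr : ∀ lam : ℝ, 0 < lam → lam ≤ 1 / 2 →
      8 / √(η * N / (2 * (σ * lam))) ≤ η / (2 * nT) / √N := fun lam h0 h1 => by
    have e1 : (16 * nT / η) ^ 2 * N ≤ η * N / (2 * (σ * lam)) := by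
      rw [le_div_iff₀ (by positivity)]
      calc (16 * nT / η) ^ 2 * N * (2 * (σ * lam)) ≤
          (16 * nT / η) ^ 2 * N * (2 * (η * (η / (16 * nT)) ^ 2 * (1 / 2))) := by gcongr
        _ = _ := by field_simp
    have e2 := Real.sqrt_le_sqrt e1
    rw [Real.sqrt_mul (sq_nonneg _), Real.sqrt_sq (by positivity)] at e2
    calc _ ≤ 8 / (16 * nT / η * √N) := by gcongr
      _ = _ := by field_simp; norm_num
  have hhi : (0:ℝ) ≤ (1 - 2 * η) * N := mul_nonneg (by linarith) hN.le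
  have hhi2 : ∀ lam : ℝ, 1 / (2 * P) ≤ lam → (1 - 2 * η) * N + 2 / (σ * lam) ≤ (1 - η) * N := by
    intro lam hh
    have h1 := hlo lam hh
    have h0 : 0 < lam := lt_of_lt_of_le (by positivity) hh
    have : 2 / (σ * lam) ≤ 12 / (σ * lam) := by gcongr; norm_num
    linarith
  have hLc : ∀ lam : ℝ, 1 / (2 * P) ≤ lam → 4 * ((1 - 2 * η) * N) / (σ * lam) ≤ 8 * P / σ * N :=
    fun lam hh => calc _ ≤ 4 * (1 * N) / (σ * (1 / (2 * P))) := by gcongr; linarith
      _ = _ := by field_simp; norm_num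
  choose ϑ₁ a1 a2 a3 a4 a5 a6 a7 using fun x : Fin nb × ι =>
    h.main_tile (α := c x.1 x.2 / P) (lam := l x.2 / P) (σ := σ) (N := N) (t := η + x.1 * (υ * (1 + η))) (υ := υ)
      (lo := η * N) (hi := (1 - 2 * η) * N) hD.le (hlam0 x.2) hσ (by linarith) hN hυ
      (by rw [mul_comm]; gcongr; exact le_add_of_nonneg_right (by positivity))
      (by
        rw [mul_comm]; gcongr
        have : ((x.1 : ℕ) : ℝ) + 1 ≤ nb := by exact_mod_cast x.1.2
        have := mul_le_mul_of_nonneg_right this (show 0 ≤ υ * (1 + η) by positivity)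
        linarith)
      (hlo _ (hh2.trans (hlam x.2).1)) (s x.1 x.2) (φ x.2)
  obtain ⟨jj, hjj⟩ : ∃ jj : Fin Fr.card → ℕ, ∀ r, jj r = Fr.equivFin.symm r := ⟨_, fun _ => rfl⟩
  choose ϑ₂ b1 b2 b3 b4 b5 b6 b7 using fun r : Fin Fr.card =>
    free_tile (α := jj r / (2 * P)) (lam := 1 / (2 * P)) (σ := σ) (N := N) (t := η + r * ω) (ω := ω)
      (lo := η * N) (hi := (1 - 2 * η) * N) (by positivity) hσ (by linarith) hN hω
      (by rw [mul_comm]; gcongr; exact le_add_of_nonneg_right (by positivity))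
      (by
        rw [mul_comm]; gcongr
        have h1 : ((r : ℕ) : ℝ) + 1 ≤ Fr.card := by exact_mod_cast r.2
        have h2 := mul_le_mul_of_nonneg_right (h1.trans hF) hω.le
        have h3 : δ * P * ω = 1 - 3 * η := by rw [hωd]; field_simp
        linarith)
      (hlo _ le_rfl)
  have hjF : ∀ r, jj r ∈ Fr := fun r => hjj r ▸ (Fr.equivFin.symm r).2
  obtain ⟨Θ, c1, c2, c3, c4, c5, c6⟩ := glue (τ := (Fin nb × ι) ⊕ Fin Fr.card)
    (Sum.elim (fun x => c x.1 x.2 / P) fun r => jj r / (2 * P))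
    (Sum.elim (fun x => c x.1 x.2 / P + l x.2 / P) fun r => jj r / (2 * P) + 1 / (2 * P))
    (by rintro (x | r) <;> simp only [Sum.elim_inl, Sum.elim_inr] <;> positivity)
    (by rintro (x | r) <;> simp only [Sum.elim_inl, Sum.elim_inr] <;>
      exact le_add_of_nonneg_right (by positivity))
    (by
      rintro (x | r) <;> simp only [Sum.elim_inl, Sum.elim_inr] <;> rw [← add_div, div_le_iff₀ (by positivity)]
      · have : (2 * (c x.1 x.2 + l x.2) : ℝ) ≤ P := by exact_mod_cast hc x.1 x.2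
        linarith
      · have : (jj r + 1 : ℝ) ≤ P := by exact_mod_cast (hFr _ (hjF r)).1
        linarith)
    (by
      have hmix : ∀ (x : Fin nb × ι) r, (c x.1 x.2 / P + l x.2 / P : ℝ) ≤ jj r / (2 * P) ∨
          (jj r / (2 * P) + 1 / (2 * P) : ℝ) ≤ c x.1 x.2 / P := by
        intro x r
        rcases (hFr _ (hjF r)).2 x with h1 | h1
        · right
          have : (jj r + 1 : ℝ) ≤ 2 * c x.1 x.2 := by exact_mod_cast h1
          rw [← add_div, div_le_div_iff₀ (by positivity) hP']; nlinarith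
        · left
          have : (2 * (c x.1 x.2 + l x.2) : ℝ) ≤ jj r := by exact_mod_cast h1
          rw [← add_div, div_le_div_iff₀ hP' (by positivity)]; nlinarith
      rintro (x | r) (y | r') hne <;> simp only [Sum.elim_inl, Sum.elim_inr]
      · rcases hdisj x.1 x.2 y.1 y.2 (fun hh => hne (congrArg Sum.inl hh)) with h1 | h1
        · left; rw [← add_div]; gcongr; exact_mod_cast h1
        · right; rw [← add_div]; gcongr; exact_mod_cast h1
      · exact hmix x r'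
      · exact (hmix y r).symm
      · have : jj r ≠ jj r' := fun hh => hne (congrArg Sum.inr
          (Fr.equivFin.symm.injective (Subtype.ext (by rw [← hjj, ← hjj, hh]))))
        rcases this.lt_or_gt with h1 | h1
        · left; rw [← add_div]; gcongr; exact_mod_cast h1
        · right; rw [← add_div]; gcongr; exact_mod_cast h1)
    (by
      intro f hf
      have e1 := intervalIntegral.sum_integral_adjacent_intervals (μ := volume) (f := f)
        (a := fun j : ℕ => (j : ℝ) / (2 * P)) (n := P) fun _ _ => hf.intervalIntegrable _ _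
      rw [show ((P : ℕ) : ℝ) / (2 * P) = 1 / 2 by field_simp, Nat.cast_zero, zero_div] at e1
      rw [← e1, hsum, Fintype.sum_sum_type]
      simp only [Sum.elim_inl, Sum.elim_inr]
      congr 1
      · refine sum_congr rfl fun x _ => ?_
        rw [intervalIntegral.sum_integral_adjacent_intervals_Ico (μ := volume) (f := f)
          (a := fun j : ℕ => (j : ℝ) / (2 * P)) (by omega) fun _ _ => hf.intervalIntegrable _ _]
        congr 1 <;> push_cast <;> field_simp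
      · rw [← Finset.sum_coe_sort Fr, ← Fr.equivFin.symm.sum_comp]
        refine sum_congr rfl fun r _ => ?_
        rw [← add_div, hjj]; push_cast; rfl)
    (Sum.elim ϑ₁ ϑ₂) (by rintro (x | r); exacts [a1 x, b1 r]) (by rintro (x | r); exacts [a2 x, b2 r])
    (by rintro (x | r); exacts [a3 x, b3 r]) (L := L₀ * N) (hi := (1 - η) * N) (by positivity)
    (mul_nonneg (by linarith) hN.le)
    (by
      rintro (x | r) y z
      · refine (a4 x y z).trans (mul_le_mul_of_nonneg_right ?_ (abs_nonneg _))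
        have h1 := hLc _ (hh2.trans (hlam x.2).1)
        have h2 : N * υ * (1 + D) / (l x.2 / P) ≤ υ * (1 + D) * P * N :=
          calc _ ≤ N * υ * (1 + D) / (1 / P) := by have := (hlam x.2).1; gcongr
            _ = _ := by field_simp
        have h3 : 0 ≤ 4 * ω * P * N := by positivity
        rw [hL₀]; linarith
      · refine (b4 r y z).trans (mul_le_mul_of_nonneg_right ?_ (abs_nonneg _))
        have h1 := hLc _ le_rfl
        have h2 : 2 * N * ω / (1 / (2 * P)) = 4 * ω * P * N := by field_simp; norm_num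
        have h3 : 0 ≤ υ * (1 + D) * P * N := by positivity
        rw [hL₀]; linarith)
    (by
      rintro (x | r) y
      · exact ⟨(a5 x y).1, (a5 x y).2.trans (hhi2 _ (hh2.trans (hlam x.2).1))⟩
      · exact ⟨(b5 r y).1, (b5 r y).2.trans (hhi2 _ le_rfl)⟩)
    (by rintro (x | r); exacts [a6 x, b6 r])
  have hFP : (Fr.card : ℝ) ≤ P := by linarith [mul_nonneg (mul_nonneg zero_le_two hnb.le) hW0]
  refine ⟨Θ, c1, c2, c3, fun x y => (c4 x y).trans ?_, c5, fun k => ⟨_, c6 k, ?_⟩⟩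
  · rw [mul_assoc nT]; gcongr
    simp only [Fintype.card_sum, Fintype.card_prod, Fintype.card_fin, hnT, hnι]
    push_cast; linarith
  set m : Fin nb × ι → ℝ := fun x => (l x.2 / P : ℝ) * (ee (φ x.2 - k * (if s x.1 x.2 then
    (c x.1 x.2 / P : ℝ) else -(c x.1 x.2 / P + l x.2 / P))) *
      JJ T (η + x.1 * (υ * (1 + η))) υ σ (l x.2 / P * N) (k / N)).re with hm
  rw [Complex.re_sum, Fintype.sum_sum_type]
  simp only [Sum.elim_inl, Sum.elim_inr]
  set I₁ : Fin nb × ι → ℝ := fun x => (∫ θ in (c x.1 x.2 / P : ℝ)..(c x.1 x.2 / P + l x.2 / P),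
    ee ((∫ y in (c x.1 x.2 / P : ℝ)..θ, ϑ₁ x y) - k * θ)).re with hI₁
  set I₂ : Fin Fr.card → ℝ := fun r => (∫ θ in (jj r / (2 * P) : ℝ)..(jj r / (2 * P) + 1 / (2 * P)),
    ee ((∫ y in (jj r / (2 * P) : ℝ)..θ, ϑ₂ r y) - k * θ)).re with hI₂
  have E1 : |∑ x, (I₁ x - m x)| ≤ nb * nι * (η / (2 * nT) / √N) := by
    refine (abs_sum_le_sum_abs _ _).trans ((sum_le_card_nsmul _ _ _ fun x _ =>
      (a7 x k).trans (herr _ (hlam0 x.2) (hlam x.2).2)).trans (le_of_eq ?_))
    simp [hnι]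
  have E2 : |∑ r, I₂ r| ≤ P * (η / (2 * nT) / √N) + (η / 2 / √N + P * (1 / (N * ω))) := by
    refine (abs_sum_le_sum_abs _ _).trans ((sum_le_sum fun r _ => b7 r k).trans ?_)
    rw [sum_add_distrib]
    refine add_le_add ((sum_le_card_nsmul _ _ _ fun x _ => herr _ (by positivity)
      (by rw [div_le_div_iff₀ (by positivity) (by positivity)]; linarith)).trans ?_) ?_
    · simp only [card_univ, Fintype.card_fin, nsmul_eq_mul]; gcongr
    · refine (sum_ite_le _ (three_active hN hω) (by positivity) (by positivity)).trans ?_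
      rw [Fintype.card_fin]
      gcongr
      have e1 : (24 / η) ^ 2 * N ≤ N * ω / (1 / (2 * P)) := by
        have : N * ω / (1 / (2 * P)) = (24 / η) ^ 2 * N * (2 * (1 - 3 * η)) := by
          rw [hωd, hδ]; field_simp
        rw [this]; exact le_mul_of_one_le_right (by positivity) (by linarith)
      have e2 := Real.sqrt_le_sqrt e1
      rw [Real.sqrt_mul (sq_nonneg _), Real.sqrt_sq (by positivity)] at e2
      calc _ ≤ (3:ℕ) * (4 / (24 / η * √N)) := by gcongr
        _ = _ := by push_cast; field_simp; norm_num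
  have hT1 := h.range (x := u₀ / 2) ⟨by linarith, by linarith⟩
  have hT2 := h.range (x := 1 - u₀ / 2) ⟨by linarith, by linarith⟩
  have E3 : |2 * ∑ x, m x| ≤ (1 + 10 * η) / √N +
      nb * (2 * (nι * (4 / √(N * υ * (D / 2)) + 1 / (N * υ * (u₀ / 2))))) := by
    rw [Fintype.sum_prod_type, mul_sum]
    refine (abs_sum_le_sum_abs _ _).trans ((sum_le_sum (g := fun b : Fin nb => if
      η + b * (υ * (1 + η)) + υ * T (u₀ / 2) ≤ k / N ∧ k / N ≤ η + b * (υ * (1 + η)) +
        υ * T (1 - u₀ / 2) then (1 + 10 * η) / √N else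
        2 * (nι * (4 / √(N * υ * (D / 2)) + 1 / (N * υ * (u₀ / 2))))) fun b _ => ?_).trans ?_)
    · split_ifs with hact
      · refine (h.block_active l hl v a0 ha0 e hB (P := P) (fun i => by have := hc b i; omega) (g b)
          (fun i => if s b i then (c b i / P : ℝ) else -(c b i / P + l i / P)) (fun i => ?_) φ hφ k hυ
          hN hσ.le hσ1 hX hε.le hε1 hP hact (by rwa [mul_div_assoc])
          (by rwa [mul_div_assoc (N:ℝ), ← mul_div_assoc])).trans ?_
        · obtain ⟨n, hn⟩ := hdiv b i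
          refine ⟨-n, ?_⟩
          split_ifs at hn ⊢
          · have : ((∑ a, v i a * g b a : ℤ) : ℝ) = P * n + c b i := by
              exact_mod_cast (by linarith : ∑ a, v i a * g b a = P * n + c b i)
            rw [this]; push_cast; field_simp; ring
          · have : ((∑ a, v i a * g b a : ℤ) : ℝ) = P * n - c b i - l i := by
              exact_mod_cast (by linarith : ∑ a, v i a * g b a = P * n - c b i - l i)
            rw [this]; push_cast; field_simp; ring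
        · have e3 := main_num hη hη' hP' hυ hN hnb hWP hυn hX hX1
          rw [← hnι]
          have e4 : 2 * (nι * ((4 / X + 4 * π * ε * X ^ 3) / √(N * υ))) ≤ 2 * η / √N := by
            rw [Real.sqrt_mul hN.le]
            calc _ = (8 * nι / (X * √υ) + 8 * π * nι * X ^ 3 * ε / √υ) / √N := by field_simp; ring
              _ ≤ _ := by gcongr; linarith
          calc _ ≤ (1 + 8 * η) / √N + 2 * η / √N := add_le_add e3 e4
            _ = _ := by ring
      · rw [abs_mul, abs_two, hnι]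
        refine mul_le_mul_of_nonneg_left ?_ zero_le_two
        rw [not_and_or, not_le, not_le] at hact
        have := h.block_inactive (fun i => l i / P) hlam0 (fun i => (hlam i).2.trans (by norm_num))
          (fun i => φ i - k * (if s b i then (c b i / P : ℝ) else -(c b i / P + l i / P)))
          hD hυ hN hσ.le hσ1 (hact.imp le_of_lt le_of_lt)
        simp only [hm]
        exact this
    · refine (sum_ite_le _ (one_active (by positivity) (mul_pos hυ (by linarith))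
        (by gcongr; linarith)) (by positivity) (by positivity)).trans ?_
      simp
  have E4 : nb * (2 * (nι * (4 / √(N * υ * (D / 2))))) = η / √N := by
    rw [show N * υ * (D / 2) = (8 * nb * nι / η) ^ 2 * N by rw [hDd]; field_simp,
      Real.sqrt_mul (sq_nonneg _), Real.sqrt_sq (by positivity)]
    field_simp; norm_num
  have E5 : nb * (2 * (nι * (1 / (N * υ * (u₀ / 2))))) + 2 * (P * (1 / (N * ω))) ≤ η / √N := by
    rw [mul_one] at hN4
    calc _ = (4 * nb * nι / (υ * u₀) + 2 * P / ω) / √N / √N := by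
          rw [div_div, Real.mul_self_sqrt hN.le]; field_simp; ring
      _ ≤ _ := by gcongr
  have E6 : 2 * (nb * nι * (η / (2 * nT) / √N) + P * (η / (2 * nT) / √N)) = η / √N := by
    rw [← add_mul, ← hnT]; field_simp
  have E7 : 2 * (∑ x, I₁ x + ∑ r, I₂ r) = 2 * ∑ x, m x + 2 * (∑ x, (I₁ x - m x) + ∑ r, I₂ r) := by
    rw [sum_sub_distrib]; ring
  rw [E7]
  refine (abs_add_le _ _).trans ?_
  rw [abs_mul 2 (_ + _), abs_two]
  have E8 := abs_add_le (∑ x, (I₁ x - m x)) (∑ r, I₂ r)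
  have E9 : (1 + 14 * η) / √N = (1 + 10 * η) / √N + 4 * (η / √N) := by ring
  have E10 : η / 2 / √N = η / √N / 2 := by ring
  simp only [mul_add] at E3 E6
  linarith

end Vale.Agent.P110
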