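import Vale.Agent.P110.Kernel

open Finset Complex MeasureTheory Filter Topology Set
open scoped BigOperators ComplexConjugate Real

namespace Vale.Agent.P110

/-- clamp to an interval -/
def clamp (a b x : ℝ) : ℝ := max a (min x b)

lemma clamp_mem {a b : ℝ} (h : a ≤ b) (x : ℝ) : clamp a b x ∈ Icc a b :=
  ⟨le_max_left _ _, max_le h (min_le_right _ _)⟩

lemma clamp_of_mem {a b x : ℝ} (h1 : a ≤ x) (h2 : x ≤ b) : clamp a b x = x := by
  unfold clamp; rw [min_eq_left h2, max_eq_right h1]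

lemma clamp_of_le {a b x : ℝ} (h1 : x ≤ a) : clamp a b x = a := by
  unfold clamp; exact max_eq_left ((min_le_left _ _).trans h1)

lemma clamp_of_ge {a b x : ℝ} (h : a ≤ b) (h1 : b ≤ x) : clamp a b x = b := by
  unfold clamp; rw [min_eq_right h1, max_eq_right h]

lemma clamp_lip (a b x y : ℝ) : |clamp a b x - clamp a b y| ≤ |x - y| := by
  unfold clamp
  refine (abs_max_sub_max_le_max _ _ _ _).trans (max_le (by simp) ?_)
  exact (abs_min_sub_min_le_max _ _ _ _).trans (max_le le_rfl (by simp))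

lemma continuous_clamp (a b : ℝ) : Continuous (clamp a b) := by unfold clamp; fun_prop

/-- connector -/
noncomputable def conn (a σ ca cb κ x : ℝ) : ℝ :=
  ca + (cb - ca) * (x - a) / σ + 6 * κ * ((x - a) * (a + σ - x)) / σ ^ 3

noncomputable def conn' (a σ ca cb κ x : ℝ) : ℝ :=
  (cb - ca) / σ + 6 * κ * (2 * a + σ - 2 * x) / σ ^ 3

lemma conn_deriv (a σ ca cb κ x : ℝ) : HasDerivAt (conn a σ ca cb κ) (conn' a σ ca cb κ x) x := by
  have h1 := (hasDerivAt_id x).sub_const a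
  have := (((h1.const_mul (cb - ca)).div_const σ).const_add ca).add
    (((h1.mul ((hasDerivAt_id x).const_sub (a + σ))).const_mul (6 * κ)).div_const (σ ^ 3))
  refine HasDerivAt.congr_deriv this ?_
  simp only [conn', id]; ring

lemma continuous_conn' (a σ ca cb κ : ℝ) : Continuous (conn' a σ ca cb κ) := by
  unfold conn'; fun_prop

lemma conn_left (a σ ca cb κ : ℝ) : conn a σ ca cb κ a = ca := by simp [conn]

lemma conn_right (a : ℝ) {σ : ℝ} (hσ : 0 < σ) (ca cb κ : ℝ) : conn a σ ca cb κ (a + σ) = cb := by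
  unfold conn; field_simp; ring

lemma conn_integral (a : ℝ) {σ : ℝ} (hσ : 0 < σ) (ca cb κ : ℝ) :
    ∫ x in a..(a + σ), conn a σ ca cb κ x = (ca + cb) * σ / 2 + κ := by
  have hd : ∀ x ∈ uIcc a (a + σ), HasDerivAt (fun x => ca * x + (cb - ca) * (x - a) ^ 2 / (2 * σ) +
      κ * (3 * σ * (x - a) ^ 2 - 2 * (x - a) ^ 3) / σ ^ 3) (conn a σ ca cb κ x) x := by
    intro x _
    have h1 := (hasDerivAt_id x).sub_const a
    have := (((hasDerivAt_id x).const_mul ca).add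
      (((h1.pow 2).const_mul (cb - ca)).div_const (2 * σ))).add
      (((((h1.pow 2).const_mul (3 * σ)).sub ((h1.pow 3).const_mul 2)).const_mul κ).div_const (σ ^ 3))
    refine HasDerivAt.congr_deriv this ?_
    simp only [conn, id]; field_simp; ring
  rw [intervalIntegral.integral_eq_sub_of_hasDerivAt hd
    ((cont_of_deriv (conn_deriv a σ ca cb κ)).intervalIntegrable _ _)]
  field_simp; ring

lemma conn'_sub {a σ ca cb κ x : ℝ} (hσ : 0 < σ) (h0 : 0 ≤ κ) (h1 : κ ≤ 1) (hx : x ∈ Icc a (a + σ)) :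
    |conn' a σ ca cb κ x - (cb - ca) / σ| ≤ 6 / σ ^ 2 := by
  unfold conn'
  rw [add_sub_cancel_left, abs_div, abs_of_pos (pow_pos hσ 3), div_le_div_iff₀ (by positivity)
    (by positivity), abs_mul, abs_of_nonneg (by positivity)]
  have : |2 * a + σ - 2 * x| ≤ σ := abs_le.2 ⟨by linarith [hx.2], by linarith [hx.1]⟩
  calc 6 * κ * |2 * a + σ - 2 * x| * σ ^ 2 ≤ 6 * 1 * σ * σ ^ 2 := by gcongr
    _ = _ := by ring

lemma conn_range {a σ ca cb κ x hi : ℝ} (hσ : 0 < σ) (h0 : 0 ≤ κ) (h1 : κ ≤ 1)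
    (hx : x ∈ Icc a (a + σ)) (ha : ca ∈ Icc 0 hi) (hb : cb ∈ Icc 0 hi) :
    conn a σ ca cb κ x ∈ Icc 0 (hi + 2 / σ) := by
  obtain ⟨t, ht0, ht1, rfl⟩ : ∃ t, 0 ≤ t ∧ t ≤ 1 ∧ x = a + σ * t :=
    ⟨(x - a) / σ, div_nonneg (by linarith [hx.1]) hσ.le,
      (div_le_one hσ).2 (by linarith [hx.2]), by field_simp; ring⟩
  have e : conn a σ ca cb κ (a + σ * t) = ca * (1 - t) + cb * t + 6 * κ * (t * (1 - t)) / σ := by
    unfold conn; field_simp; ring
  rw [e]
  have h2 : 0 ≤ t * (1 - t) := mul_nonneg ht0 (by linarith)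
  have h3 : 6 * κ * (t * (1 - t)) / σ ≤ 2 / σ :=
    div_le_div_of_nonneg_right (by nlinarith [sq_nonneg (2 * t - 1)]) hσ.le
  have h4 : 0 ≤ 6 * κ * (t * (1 - t)) / σ := by positivity
  constructor
  · nlinarith [ha.1, hb.1]
  · nlinarith [ha.2, hb.2]

lemma prim_deriv {g : ℝ → ℝ} (hg : Continuous g) (c a k x : ℝ) :
    HasDerivAt (fun θ => c + (∫ y in a..θ, g y) - k * θ) (g x - k) x :=
  ((((hg.integral_hasStrictDerivAt a x).hasDerivAt).const_add c).sub
    ((hasDerivAt_id x).const_mul k)).congr_deriv (by simp)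

lemma tile {α β σ lo hi Lc : ℝ} (hσ : 0 < σ) (hαβ : α + σ ≤ β - σ) {Cc : ℝ → ℝ}
    (hc : Continuous Cc) (hr : ∀ x ∈ Icc (α + σ) (β - σ), Cc x ∈ Icc lo hi)
    (hL : ∀ x ∈ Icc (α + σ) (β - σ), ∀ y ∈ Icc (α + σ) (β - σ), |Cc x - Cc y| ≤ Lc * |x - y|)
    (hLc : 0 ≤ Lc) (hlo : 12 / σ ≤ lo) (φ₀ : ℝ) :
    ∃ ϑ : ℝ → ℝ, Continuous ϑ ∧ (∀ x ≤ α, ϑ x = 0) ∧ (∀ x ≥ β, ϑ x = 0) ∧
      (∀ x y, |ϑ x - ϑ y| ≤ (Lc + 4 * hi / σ) * |x - y|) ∧ (∀ x, ϑ x ∈ Icc 0 (hi + 2 / σ)) ∧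
      (∃ n : ℤ, ∫ x in α..β, ϑ x = n) ∧
      ∀ k : ℝ, ‖(∫ θ in α..β, ee ((∫ x in α..θ, ϑ x) - k * θ)) -
        ∫ θ in (α + σ)..(β - σ), ee (φ₀ + (∫ x in (α + σ)..θ, Cc x) - k * θ)‖ ≤
          8 / √(lo / (2 * σ)) := by
  set α' := α + σ with hα'
  set β' := β - σ with hβ'
  have hβ : β = β' + σ := by rw [hβ']; ring
  have hlo0 : 0 < lo := lt_of_lt_of_le (by positivity) hlo
  have hc1 := hr α' ⟨le_rfl, hαβ⟩
  have hc2 := hr β' ⟨hαβ, le_rfl⟩
  have hhi : lo ≤ hi := hc1.1.trans hc1.2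
  have hαα : α ≤ α' := by linarith
  have hββ : β' ≤ β := by linarith
  set κ₁ := Int.fract (φ₀ - Cc α' * σ / 2) with hκ₁
  set κ₂ := Int.fract (-(φ₀ + (∫ x in α'..β', Cc x) + Cc β' * σ / 2)) with hκ₂
  have k10 : 0 ≤ κ₁ := Int.fract_nonneg _
  have k11 : κ₁ ≤ 1 := (Int.fract_lt_one _).le
  have k20 : 0 ≤ κ₂ := Int.fract_nonneg _
  have k21 : κ₂ ≤ 1 := (Int.fract_lt_one _).le
  set A := conn α σ 0 (Cc α') κ₁ with hA
  set B := conn β' σ (Cc β') 0 κ₂ with hB
  have hAc : Continuous A := cont_of_deriv (conn_deriv _ _ _ _ _)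
  have hBc : Continuous B := cont_of_deriv (conn_deriv _ _ _ _ _)
  have hA1 : A α' = Cc α' := conn_right _ hσ _ _ _
  have hA0 : A α = 0 := conn_left _ _ _ _ _
  have hB0 : B β' = Cc β' := conn_left _ _ _ _ _
  have hB1 : B β = 0 := by rw [hβ]; exact conn_right _ hσ _ _ _
  have h6 : 6 / σ ^ 2 ≤ lo / (2 * σ) := by
    calc 6 / σ ^ 2 = (12 / σ) / (2 * σ) := by field_simp; ring
      _ ≤ _ := by gcongr
  have hlo2 : lo / σ = lo / (2 * σ) + lo / (2 * σ) := by field_simp; ring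
  have hA' : ∀ x ∈ Icc α α', lo / (2 * σ) ≤ conn' α σ 0 (Cc α') κ₁ x ∧
      conn' α σ 0 (Cc α') κ₁ x ≤ 2 * hi / σ := by
    intro x hx
    have h1 := abs_le.1 (conn'_sub (ca := 0) (cb := Cc α') hσ k10 k11 hx)
    have h2 : lo / σ ≤ (Cc α' - 0) / σ := by gcongr; linarith [hc1.1]
    have h3 : (Cc α' - 0) / σ ≤ hi / σ := by gcongr; linarith [hc1.2]
    have h4 : lo / σ ≤ hi / σ := by gcongr
    have h5 : 2 * hi / σ = hi / σ + hi / σ := by ring
    have h7 : 0 < lo / (2 * σ) := by positivity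
    constructor <;> linarith [h1.1, h1.2]
  have hB' : ∀ x ∈ Icc β' β, conn' β' σ (Cc β') 0 κ₂ x ≤ -(lo / (2 * σ)) ∧
      -(2 * hi / σ) ≤ conn' β' σ (Cc β') 0 κ₂ x := by
    intro x hx
    have h1 := abs_le.1 (conn'_sub (ca := Cc β') (cb := 0) hσ k20 k21 (hβ ▸ hx))
    have h2 : lo / σ ≤ Cc β' / σ := by gcongr; exact hc2.1
    have h3 : Cc β' / σ ≤ hi / σ := by gcongr; exact hc2.2
    have h4 : lo / σ ≤ hi / σ := by gcongr
    have h5 : 2 * hi / σ = hi / σ + hi / σ := by ring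
    have h7 : 0 < lo / (2 * σ) := by positivity
    have h8 : (0 - Cc β') / σ = -(Cc β' / σ) := by ring
    constructor <;> linarith [h1.1, h1.2]
  have h7 : 0 < lo / (2 * σ) := by positivity
  set ϑ : ℝ → ℝ := fun x => A (clamp α α' x) - Cc α' + Cc (clamp α' β' x) +
    B (clamp β' β x) - Cc β' with hϑ
  have hϑc : Continuous ϑ :=
    ((((hAc.comp (continuous_clamp _ _)).sub continuous_const).add
      (hc.comp (continuous_clamp _ _))).add (hBc.comp (continuous_clamp _ _))).sub continuous_const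
  have e1 : ∀ x ≤ α', ϑ x = A (clamp α α' x) := fun x hx => by
    simp only [hϑ]; rw [clamp_of_le hx, clamp_of_le (hx.trans hαβ), hB0]; ring
  have e2 : ∀ x ∈ Icc α' β', ϑ x = Cc x := fun x hx => by
    simp only [hϑ]; rw [clamp_of_ge hαα hx.1, clamp_of_mem hx.1 hx.2, clamp_of_le hx.2, hA1, hB0]
    ring
  have e3 : ∀ x ≥ β', ϑ x = B (clamp β' β x) := fun x hx => by
    simp only [hϑ]; rw [clamp_of_ge hαα (hαβ.trans hx), clamp_of_ge hαβ hx, hA1]; ring
  have i1 : ∀ θ ∈ Icc α α', ∫ x in α..θ, ϑ x = ∫ x in α..θ, A x := fun θ hθ =>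
    intervalIntegral.integral_congr fun x hx => by
      rw [uIcc_of_le hθ.1] at hx
      rw [e1 x (hx.2.trans hθ.2), clamp_of_mem hx.1 (hx.2.trans hθ.2)]
  have i2 : ∀ θ ∈ Icc α' β', ∫ x in α'..θ, ϑ x = ∫ x in α'..θ, Cc x := fun θ hθ =>
    intervalIntegral.integral_congr fun x hx => by
      rw [uIcc_of_le hθ.1] at hx
      rw [e2 x ⟨hx.1, hx.2.trans hθ.2⟩]
  have i3 : ∀ θ ∈ Icc β' β, ∫ x in β'..θ, ϑ x = ∫ x in β'..θ, B x := fun θ hθ =>
    intervalIntegral.integral_congr fun x hx => by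
      rw [uIcc_of_le hθ.1] at hx
      rw [e3 x hx.1, clamp_of_mem hx.1 (hx.2.trans hθ.2)]
  have j1 : ∫ x in α..α', ϑ x = φ₀ - ⌊φ₀ - Cc α' * σ / 2⌋ := by
    rw [i1 α' ⟨hαα, le_rfl⟩, hA, hα', conn_integral _ hσ, hκ₁, Int.fract]; ring
  have j3 : ∫ x in β'..β, ϑ x = Cc β' * σ / 2 + κ₂ := by
    rw [i3 β ⟨hββ, le_rfl⟩, hB, hβ, conn_integral _ hσ]; ring
  have hii : ∀ a b, IntervalIntegrable ϑ volume a b := fun a b => hϑc.intervalIntegrable a b
  refine ⟨ϑ, hϑc, fun x hx => ?_, fun x hx => ?_, fun x y => ?_, fun x => ?_, ?_, fun k => ?_⟩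
  · rw [e1 x (hx.trans hαα), clamp_of_le hx, hA0]
  · rw [e3 x (hββ.trans hx), clamp_of_ge hββ hx, hB1]
  · have l1 := (mvt_abs (conn_deriv α σ 0 (Cc α') κ₁) (C := 2 * hi / σ)
      (fun x hx => abs_le.2 ⟨by linarith [(hA' x hx).1, (hA' x hx).2], (hA' x hx).2⟩)
      (clamp_mem hαα y) (clamp_mem hαα x)).trans
      (mul_le_mul_of_nonneg_left (clamp_lip _ _ _ _) (by have := hlo0.trans_le hhi; positivity))
    have l3 := (mvt_abs (conn_deriv β' σ (Cc β') 0 κ₂) (C := 2 * hi / σ)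
      (fun x hx => abs_le.2 ⟨(hB' x hx).2, by linarith [(hB' x hx).1, (hB' x hx).2]⟩)
      (clamp_mem hββ y) (clamp_mem hββ x)).trans
      (mul_le_mul_of_nonneg_left (clamp_lip _ _ _ _) (by have := hlo0.trans_le hhi; positivity))
    have l2 := (hL _ (clamp_mem hαβ x) _ (clamp_mem hαβ y)).trans
      (mul_le_mul_of_nonneg_left (clamp_lip _ _ _ _) hLc)
    have : ϑ x - ϑ y = (A (clamp α α' x) - A (clamp α α' y)) +
        (Cc (clamp α' β' x) - Cc (clamp α' β' y)) + (B (clamp β' β x) - B (clamp β' β y)) := by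
      simp only [hϑ]; ring
    rw [this]
    refine (abs_add_three _ _ _).trans ?_
    have : (Lc + 4 * hi / σ) * |x - y| =
      2 * hi / σ * |x - y| + Lc * |x - y| + 2 * hi / σ * |x - y| := by ring
    rw [this]
    exact add_le_add (add_le_add l1 l2) l3
  · have z : (0:ℝ) ∈ Icc 0 hi := ⟨le_rfl, by linarith⟩
    rcases le_total x α' with h | h
    · rw [e1 x h]
      exact conn_range hσ k10 k11 (clamp_mem hαα x) z ⟨by linarith [hc1.1], hc1.2⟩
    rcases le_total x β' with h' | h'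
    · rw [e2 x ⟨h, h'⟩]
      have := hr x ⟨h, h'⟩
      have h2 : 0 < 2 / σ := by positivity
      exact ⟨by linarith [this.1], by linarith [this.2]⟩
    · rw [e3 x h']
      exact conn_range hσ k20 k21 (hβ ▸ clamp_mem hββ x) ⟨by linarith [hc2.1], hc2.2⟩ z
  · refine ⟨-⌊φ₀ - Cc α' * σ / 2⌋ - ⌊-(φ₀ + (∫ x in α'..β', Cc x) + Cc β' * σ / 2)⌋, ?_⟩
    rw [← intervalIntegral.integral_add_adjacent_intervals (hii α α') (hii α' β),
      ← intervalIntegral.integral_add_adjacent_intervals (hii α' β') (hii β' β), j1, j3,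
      i2 β' ⟨hαβ, le_rfl⟩, hκ₂, Int.fract]
    push_cast; ring
  · have hE : Continuous fun θ => ee ((∫ x in α..θ, ϑ x) - k * θ) := by
      have := cont_of_deriv (prim_deriv hϑc 0 α k)
      simp only [zero_add] at this
      exact continuous_ee.comp this
    rw [← intervalIntegral.integral_add_adjacent_intervals (hE.intervalIntegrable α α')
      (hE.intervalIntegrable α' β), ← intervalIntegral.integral_add_adjacent_intervals
      (hE.intervalIntegrable α' β') (hE.intervalIntegrable β' β)]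
    have m2 : ∫ θ in α'..β', ee ((∫ x in α..θ, ϑ x) - k * θ) =
        ∫ θ in α'..β', ee (φ₀ + (∫ x in α'..θ, Cc x) - k * θ) := by
      refine intervalIntegral.integral_congr fun θ hθ => ?_
      rw [uIcc_of_le hαβ] at hθ
      rw [← intervalIntegral.integral_add_adjacent_intervals (hii α α') (hii α' θ), j1, i2 θ hθ,
        ← ee_add_int _ ⌊φ₀ - Cc α' * σ / 2⌋]
      congr 1; ring
    have m1 : ‖∫ θ in α..α', ee ((∫ x in α..θ, ϑ x) - k * θ)‖ ≤ 4 / √(lo / (2 * σ)) := by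
      rw [intervalIntegral.integral_congr (g := fun θ => ee (0 + (∫ x in α..θ, A x) - k * θ))
        fun θ hθ => by rw [uIcc_of_le hαα] at hθ; simp only [i1 θ hθ, zero_add]]
      exact L2 (prim_deriv hAc 0 α k) (fun x => (conn_deriv α σ 0 (Cc α') κ₁ x).sub_const k)
        (continuous_conn' _ _ _ _ _) hαα h7 fun x hx => (hA' x hx).1
    have m3 : ‖∫ θ in β'..β, ee ((∫ x in α..θ, ϑ x) - k * θ)‖ ≤ 4 / √(lo / (2 * σ)) := by
      rw [intervalIntegral.integral_congr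
        (g := fun θ => ee ((∫ x in α..β', ϑ x) + (∫ x in β'..θ, B x) - k * θ))
        fun θ hθ => by
          rw [uIcc_of_le hββ] at hθ
          rw [← intervalIntegral.integral_add_adjacent_intervals (hii α β') (hii β' θ), i3 θ hθ]]
      exact L2' (prim_deriv hBc _ β' k) (fun x => (conn_deriv β' σ (Cc β') 0 κ₂ x).sub_const k)
        (continuous_conn' _ _ _ _ _) hββ h7 fun x hx => (hB' x hx).1
    rw [m2]
    have e6 : ∀ A B C : ℂ, A + (B + C) - B = A + C := by intros; ring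
    rw [e6]
    refine (norm_add_le _ _).trans ((add_le_add m1 m3).trans (le_of_eq ?_))
    ring

/-- gluing tiles on the half circle -/
lemma glue {τ : Type*} [Fintype τ] (α β : τ → ℝ) (h0 : ∀ t, 0 ≤ α t) (hαβ : ∀ t, α t ≤ β t)
    (h1 : ∀ t, β t ≤ 1 / 2) (hd : ∀ t t', t ≠ t' → β t ≤ α t' ∨ β t' ≤ α t)
    (hp : ∀ φ : ℝ → ℂ, Continuous φ → ∫ x in (0:ℝ)..(1 / 2), φ x = ∑ t, ∫ x in α t..β t, φ x)
    (ϑ : τ → ℝ → ℝ) (hc : ∀ t, Continuous (ϑ t)) (hl : ∀ t, ∀ x ≤ α t, ϑ t x = 0)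
    (hr : ∀ t, ∀ x ≥ β t, ϑ t x = 0) {L hi : ℝ} (hL0 : 0 ≤ L) (hhi : 0 ≤ hi)
    (hL : ∀ t x y, |ϑ t x - ϑ t y| ≤ L * |x - y|) (hv : ∀ t x, ϑ t x ∈ Icc 0 hi)
    (hi' : ∀ t, ∃ n : ℤ, ∫ x in α t..β t, ϑ t x = n) :
    ∃ Θ : ℝ → ℝ, Continuous Θ ∧ Function.Periodic Θ 1 ∧ (∃ n : ℤ, ∫ x in (0:ℝ)..1, Θ x = n) ∧
      (∀ x y, |Θ x - Θ y| ≤ Fintype.card τ * L * |x - y|) ∧ (∀ x, Θ x ∈ Icc 0 hi) ∧
      ∀ k : ℝ, ∫ s in (-1 / 2 : ℝ)..(1 / 2), ee ((∫ x in (0:ℝ)..s, Θ x) - k * s) =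
        ((2 * (∑ t, ∫ θ in α t..β t, ee ((∫ x in α t..θ, ϑ t x) - k * θ)).re : ℝ) : ℂ) := by
  classical
  choose n hn using hi'
  set d : ℝ → ℝ := fun x => |x - round x| with hdd
  have hdl : ∀ x y, |d x - d y| ≤ |x - y| := by
    have : ∀ x y, d x - d y ≤ |x - y| := fun x y => by
      have e1 := round_le x (round y)
      have e2 := abs_sub_le x y (round y)
      simp only [hdd]; linarith
    intro x y
    exact abs_le.2 ⟨by have := this y x; rw [abs_sub_comm] at this; linarith, this x y⟩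
  have hdc : Continuous d := by
    refine (LipschitzWith.of_dist_le_mul (K := 1) fun x y => ?_).continuous
    simpa [Real.dist_eq] using hdl x y
  have hdp : ∀ x, d (x + 1) = d x := fun x => by
    simp only [hdd]; rw [round_add_one]; push_cast; congr 1; ring
  have hde : ∀ x, d (-x) = d x := by
    have : ∀ x, d (-x) ≤ d x := fun x => by
      have e1 := round_le (-x) (-round x)
      simp only [hdd]
      refine e1.trans (le_of_eq ?_)
      rw [← abs_neg]; congr 1; push_cast; ring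
    intro x
    exact le_antisymm (this x) (by simpa using this (-x))
  have hdi : ∀ x ∈ Icc (0:ℝ) (1 / 2), d x = x := by
    intro x hx
    simp only [hdd]
    rcases hx.2.eq_or_lt with rfl | h
    · norm_num [round_eq]
    · rw [round_eq_zero_iff.2 ⟨by linarith [hx.1], h⟩]; simpa using hx.1
  set Θ : ℝ → ℝ := fun x => ∑ t, ϑ t (d x) with hΘ
  have hΘc : Continuous Θ := continuous_finsetSum _ fun t _ => (hc t).comp hdc
  have hΘp : Function.Periodic Θ 1 := fun x => by simp only [hΘ, hdp]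
  have hΘe : ∀ x, Θ (-x) = Θ x := fun x => by simp only [hΘ, hde]
  have hodd : ∀ s, ∫ x in (0:ℝ)..(-s), Θ x = -∫ x in (0:ℝ)..s, Θ x := by
    intro s
    have := intervalIntegral.integral_comp_neg (a := 0) (b := s) Θ
    simp only [hΘe, neg_zero] at this
    rw [this, intervalIntegral.integral_symm]
  have hii : ∀ t a b, IntervalIntegrable (ϑ t) volume a b := fun t a b => (hc t).intervalIntegrable a b
  have hz : ∀ t a b, a ≤ α t → b ≤ α t → ∫ x in a..b, ϑ t x = 0 := fun t a b ha hb => by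
    rw [intervalIntegral.integral_congr (g := fun _ => 0) fun x hx =>
      hl t x (hx.2.trans (max_le ha hb))]; simp
  have hz' : ∀ t b, β t ≤ b → ∫ x in β t..b, ϑ t x = 0 := fun t b hb => by
    rw [intervalIntegral.integral_congr (g := fun _ => 0) fun x hx =>
      hr t x (le_trans (le_min le_rfl hb) hx.1)]; simp
  have hfull : ∀ t b, β t ≤ b → ∫ x in (0:ℝ)..b, ϑ t x = n t := fun t b hb => by
    rw [← intervalIntegral.integral_add_adjacent_intervals (hii t 0 (α t)) (hii t _ b),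
      ← intervalIntegral.integral_add_adjacent_intervals (hii t (α t) (β t)) (hii t _ b),
      hz t 0 _ (h0 t) le_rfl, hz' t b hb, hn]; ring
  have hsum : ∀ s ∈ Icc (0:ℝ) (1 / 2), ∫ x in (0:ℝ)..s, Θ x = ∑ t, ∫ x in (0:ℝ)..s, ϑ t x := by
    intro s hs
    rw [← intervalIntegral.integral_finsetSum fun t _ => hii t 0 s]
    refine intervalIntegral.integral_congr fun x hx => ?_
    rw [uIcc_of_le hs.1] at hx
    simp only [hΘ]
    rw [hdi x ⟨hx.1, hx.2.trans hs.2⟩]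
  refine ⟨Θ, hΘc, hΘp, ⟨2 * ∑ t, n t, ?_⟩, fun x y => ?_, fun x => ?_, fun k => ?_⟩
  · have e1 := hΘp.intervalIntegral_add_eq 0 (-(1 / 2))
    rw [zero_add] at e1
    rw [e1, ← intervalIntegral.integral_add_adjacent_intervals (hΘc.intervalIntegrable _ 0)
      (hΘc.intervalIntegrable 0 _), intervalIntegral.integral_symm 0 (-(1 / 2)), hodd,
      show -(1 / 2 : ℝ) + 1 = 1 / 2 by norm_num, hsum _ ⟨by norm_num, le_rfl⟩]
    simp only [fun t => hfull t _ (h1 t)]
    push_cast; ring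
  · simp only [hΘ]
    rw [← sum_sub_distrib]
    refine (abs_sum_le_sum_abs _ _).trans ?_
    calc _ ≤ ∑ _t : τ, L * |x - y| := sum_le_sum fun t _ =>
          (hL t _ _).trans (mul_le_mul_of_nonneg_left (hdl x y) hL0)
      _ = _ := by simp [mul_assoc]
  · refine ⟨sum_nonneg fun t _ => (hv t _).1, ?_⟩
    simp only [hΘ]
    by_cases h : ∃ t, ϑ t (d x) ≠ 0
    · obtain ⟨t, ht⟩ := h
      rw [sum_eq_single t (fun t' _ ht' => ?_) (by simp)]
      · exact (hv t _).2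
      · have a1 : α t < d x := by by_contra h; exact ht (hl t _ (not_lt.1 h))
        have a2 : d x < β t := by by_contra h; exact ht (hr t _ (not_lt.1 h))
        rcases hd t' t ht' with h | h
        · exact hr t' _ (by linarith)
        · exact hl t' _ (by linarith)
    · push Not at h
      simp [h, hhi]
  · have hE : Continuous fun s => ee ((∫ x in (0:ℝ)..s, Θ x) - k * s) := by
      have := cont_of_deriv (prim_deriv hΘc 0 0 k)
      simp only [zero_add] at this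
      exact continuous_ee.comp this
    have m1 : ∫ s in (-1 / 2 : ℝ)..0, ee ((∫ x in (0:ℝ)..s, Θ x) - k * s) =
        conj (∫ s in (0:ℝ)..(1 / 2), ee ((∫ x in (0:ℝ)..s, Θ x) - k * s)) := by
      rw [← intervalIntegral.intervalIntegral_conj]
      have := intervalIntegral.integral_comp_neg (a := 0) (b := 1 / 2)
        (fun s => ee ((∫ x in (0:ℝ)..s, Θ x) - k * s))
      rw [neg_zero, show -(1 / 2 : ℝ) = -1 / 2 by norm_num] at this
      rw [← this]
      refine intervalIntegral.integral_congr fun s _ => ?_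
      rw [conj_ee, hodd]; congr 1; ring
    have m2 : ∫ s in (0:ℝ)..(1 / 2), ee ((∫ x in (0:ℝ)..s, Θ x) - k * s) =
        ∑ t, ∫ θ in α t..β t, ee ((∫ x in α t..θ, ϑ t x) - k * θ) := by
      rw [hp _ hE]
      refine sum_congr rfl fun t _ => intervalIntegral.integral_congr fun θ hθ => ?_
      rw [uIcc_of_le (hαβ t)] at hθ
      rw [hsum θ ⟨(h0 t).trans hθ.1, hθ.2.trans (h1 t)⟩, ← add_sum_erase _ _ (mem_univ t),
        ← intervalIntegral.integral_add_adjacent_intervals (hii t 0 (α t)) (hii t _ θ),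
        hz t 0 _ (h0 t) le_rfl, zero_add]
      have : ∀ t' ∈ univ.erase t, ∃ m : ℤ, ∫ x in (0:ℝ)..θ, ϑ t' x = m := by
        intro t' ht'
        rcases hd t' t (ne_of_mem_erase ht') with h | h
        · exact ⟨_, hfull t' θ (h.trans hθ.1)⟩
        · exact ⟨0, by rw [hz t' 0 θ (h0 t') (hθ.2.trans h)]; simp⟩
      choose! m hm using this
      rw [sum_congr rfl hm, ← Int.cast_sum, add_sub_right_comm, ee_add_int]
    rw [← intervalIntegral.integral_add_adjacent_intervals (hE.intervalIntegrable _ 0)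
      (hE.intervalIntegrable 0 _), m1, m2, add_comm, Complex.add_conj]

end Vale.Agent.P110
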